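import Mathlib

/-!
# P308Q: matchings as involutions, hole weights, similarity

A matching of the complete graph on `V` is an involution `m : V → V`; its fixed points are the
holes.  The weight of `m` is `∏_{edges} 2^{ℓ(e)} = (√2)^{∑_v ℓ(v, m v)}`.
-/

namespace Vale.Agent.P308Q

open Finset

/-- `√2` -/
noncomputable def q2 : ℝ := Real.sqrt 2

theorem q2_pos : 0 < q2 := Real.sqrt_pos.2 (by norm_num)

theorem q2_sq : q2 ^ 2 = 2 := Real.sq_sqrt (by norm_num)

theorem one_le_q2 : 1 ≤ q2 := by
  have := q2_sq
  nlinarith [q2_pos]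

/-- Matchings of the complete graph, as involutions. -/
abbrev Mat (V : Type) := {m : V → V // ∀ v, m (m v) = v}

/-- Symmetric integer exponents, zero on the diagonal. -/
structure Exps (V : Type) where
  /-- the exponents -/
  l : V → V → ℤ
  symm : ∀ u v, l u v = l v u
  diag : ∀ v, l v v = 0

variable {V : Type} [Fintype V] [DecidableEq V]

/-- The holes (fixed points) of a matching. -/
def holes (m : V → V) : Finset V := univ.filter fun v => m v = v

@[simp] theorem mem_holes {m : V → V} {v : V} : v ∈ holes m ↔ m v = v := by simp [holes]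

/-- The weight of a matching. -/
noncomputable def wt (E : Exps V) (m : V → V) : ℝ := q2 ^ (∑ v, E.l v (m v))

theorem wt_pos (E : Exps V) (m : V → V) : 0 < wt E m := zpow_pos q2_pos _

/-- `N(U)`: the total weight of the matchings with set of holes `U`. -/
noncomputable def NN (E : Exps V) (U : Finset V) : ℝ :=
  ∑ m : Mat V, if holes m.1 = U then wt E m.1 else 0

/-- `H(U) = N(U) / N(∅)`. -/
noncomputable def HH (E : Exps V) (U : Finset V) : ℝ := NN E U / NN E ∅

/-- The row sums `r_u = ∑_{v ≠ u} H(uv)`. -/
noncomputable def rr (E : Exps V) (u : V) : ℝ := ∑ v ∈ univ.erase u, HH E {u, v}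

/-- The standing assumption: the row sums are in `[1/R, R]`. -/
structure RBd (E : Exps V) (R : ℝ) : Prop where
  even : Even (Fintype.card V)
  two : 2 ≤ R
  card : (Fintype.card V : ℝ) ≤ R
  lo : ∀ u, 1 / R ≤ rr E u
  up : ∀ u, rr E u ≤ R

/-- The graph of the pairs with exponent at least `t`. -/
def GG (E : Exps V) (t : ℕ) : SimpleGraph V where
  Adj u v := u ≠ v ∧ (t : ℤ) ≤ E.l u v
  symm := ⟨fun u v h => ⟨h.1.symm, by rw [E.symm]; exact h.2⟩⟩
  loopless := ⟨fun v h => h.1 rfl⟩

open Classical in
/-- The similarity of two vertices: the number of thresholds `t ∈ [1, L]` at which they are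
connected (`0` for equal vertices). -/
noncomputable def sim (E : Exps V) (L : ℕ) (x y : V) : ℕ :=
  if x = y then 0 else ((Finset.Icc 1 L).filter fun t => (GG E t).Reachable x y).card

/-- Twice the total similarity of the pairs of a partial pairing `c`. -/
noncomputable def SS (E : Exps V) (L : ℕ) (c : V → V) : ℕ := ∑ v, sim E L v (c v)

/-- The non-fixed points of a map. -/
def mv (c : V → V) : Finset V := univ.filter fun v => c v ≠ v

@[simp] theorem mem_mv {m : V → V} {v : V} : v ∈ mv m ↔ m v ≠ v := by simp [mv]

/-- The orbit relation of three maps. -/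
def Orb (a b c : V → V) (z v : V) : Prop :=
  Relation.ReflTransGen (fun x y => y = a x ∨ y = b x ∨ y = c x) z v

open Classical in
/-- `m` outside `O`, `m'` in `O`. -/
noncomputable def glue (m m' : V → V) (O : Set V) : V → V := fun v => if v ∈ O then m' v else m v

/-- The statement of the hole bound with at most `j` pairs. -/
def CK (E : Exps V) (L : ℕ) (R : ℝ) (K j : ℕ) : Prop :=
  ∀ (U : Finset V) (c : V → V), U.card ≤ 2 * K → (∀ v, c (c v) = v) → (∀ v, c v ≠ v → v ∈ U) →
    (mv c).card ≤ 2 * j →
    HH E U * q2 ^ (SS E L c) ≤ R ^ (U.card + (2 * K + 11) * j ^ 2)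

/-- The components of the threshold graph. -/
noncomputable def cmp (E : Exps V) (t : ℕ) (v : V) : (GG E t).ConnectedComponent :=
  (GG E t).connectedComponentMk v

open Classical in
/-- `σ(U)`: over all thresholds `t ∈ [1, L]` and all components `C`, the sum of `⌊|U ∩ C| / 2⌋`. -/
noncomputable def sig (E : Exps V) (L : ℕ) (U : Finset V) : ℕ :=
  ∑ t ∈ Finset.Icc 1 L, ∑ C ∈ univ.image (cmp E t), (U.filter fun v => cmp E t v = C).card / 2

end Vale.Agent.P308Q
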