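import Vale.Agent.P328R.Algo
import Vale.Agent.P308.Defs
import Vale.Agent.P308Q.Defs

/-!
# P308 (perfect matchings of general graphs): the algorithm as a native random process

The vertices are `0, …, n - 1` and two extra vertices `α = n` and `β = n + 1`.  A matching of the
complete graph on the `n + 2` vertices is a mate function; a hole (unmatched vertex) is its own
mate.  The edge `u v` has the exponent `a u v` (weight `2 ^ a u v`), the vertex `u` the exponent
`y u`; the scaled exponents are `a u v + y u + y v`, and `0` at the extra vertices.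
-/

namespace Vale.Agent.P308Q

open Vale.Agent.P328RAM

/-- The parameters of the algorithm. -/
structure Par where
  /-- maximal number of holes -/
  H : ℕ
  /-- number of random bits for the choice of a vertex -/
  Bn : ℕ
  /-- penalty exponent of the non-perfect states -/
  g : ℕ
  /-- number of steps at each stage of a pass -/
  T : ℕ
  /-- number of passes (samples) in each round -/
  S : ℕ
  /-- number of rounds -/
  R : ℕ
  /-- the exponent of the non-edges is `-L` in the end -/
  L : ℕ
  /-- number of levels of the similarity -/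
  B : ℕ

variable {n : ℕ}

/-- states: mate functions on the `n + 2` vertices -/
abbrev Stt (n : ℕ) := Fin (n + 2) → Fin (n + 2)

/-- exponents on the `n + 2` vertices -/
abbrev Ext (n : ℕ) := Fin (n + 2) → Fin (n + 2) → ℤ

/-- the extra vertex `α` -/
def vα (n : ℕ) : Fin (n + 2) := ⟨n, by omega⟩

/-- the extra vertex `β` -/
def vβ (n : ℕ) : Fin (n + 2) := ⟨n + 1, by omega⟩

/-- scaled exponents from the edge exponents `a` and the vertex exponents `y` -/
def scl (n : ℕ) (a : ℕ → ℕ → ℤ) (y : ℕ → ℤ) : Ext n := fun u v =>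
  if (u : ℕ) < n ∧ (v : ℕ) < n ∧ u ≠ v then a u v + y u + y v else 0

/-- bottleneck similarity, allowing the vertices `< k` as interior vertices of paths; similarities
below `0` are replaced by `0` (Floyd–Warshall) -/
def fw (b : Ext n) : ℕ → Ext n
  | 0 => fun u v => max 0 (b u v)
  | k + 1 => fun u v =>
      if h : k < n + 2 then
        max (fw b k u v) (min (fw b k u ⟨k, h⟩) (fw b k ⟨k, h⟩ v))
      else fw b k u v

/-- `σ(U)` by levels -/
def sigF (B : ℕ) (s : Ext n) (U : Finset (Fin (n + 2))) : ℕ :=
  ∑ t ∈ Finset.range B,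
    (U.filter fun u => (U.filter fun v => v < u ∧ (t : ℤ) + 1 ≤ s u v).card % 2 = 1).card

/-- the exponent of a state -/
def phi (p : Par) (b s : Ext n) (M : Stt n) : ℤ :=
  (∑ v, if v < M v then b v (M v) else 0) + sigF p.B s (holes M) -
    (if holes M = ∅ then 0 else (p.g : ℤ))

/-- toggle the edge `x y` if possible -/
def tog (x y : ℕ) (M : Stt n) : Stt n :=
  if h : x < n + 2 ∧ y < n + 2 then
    if x = y then M
    else if M ⟨x, h.1⟩ = ⟨y, h.2⟩ then
      Function.update (Function.update M ⟨x, h.1⟩ ⟨x, h.1⟩) ⟨y, h.2⟩ ⟨y, h.2⟩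
    else if M ⟨x, h.1⟩ = ⟨x, h.1⟩ ∧ M ⟨y, h.2⟩ = ⟨y, h.2⟩ then
      Function.update (Function.update M ⟨x, h.1⟩ ⟨y, h.2⟩) ⟨y, h.2⟩ ⟨x, h.1⟩
    else M
  else M

/-- one step of the chain with the exponents `b` and the similarity `s` -/
noncomputable def stepK (p : Par) (b s : Ext n) (M : Stt n) : PMF (Stt n) :=
  (unif 1).bind fun w => (unif p.Bn).bind fun x => (unif p.Bn).bind fun y =>
    if w = 1 ∧ (holes (tog x y M)).card ≤ p.H then
      (unif (phi p b s M - phi p b s (tog x y M)).toNat).map fun z =>
        if z = 0 then tog x y M else M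
    else PMF.pure M

/-- the stage with exponents `b`: `T` steps -/
noncomputable def stageK (p : Par) (b : Ext n) (M : Stt n) : PMF (Stt n) :=
  iterBind (stepK p b (fw b (n + 2))) p.T M

/-- the start of a pass: `2 i ~ 2 i + 1`, `α ~ β` (for `n` even) -/
def M0 (n : ℕ) : Stt n := fun u =>
  if h : (if (u : ℕ) % 2 = 0 then (u : ℕ) + 1 else (u : ℕ) - 1) < n + 2 then ⟨_, h⟩ else u

/-- a pass: the stages `0, …, i` -/
noncomputable def passK (p : Par) (hist : ℕ → Ext n) (i : ℕ) : PMF (Stt n) :=
  seqBind (fun j => stageK p (hist j)) (i + 1) (M0 n)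

/-- counters: `c (some u)` counts the samples with `α ~ u`, and `c none` those with `α ~ β` which
contain the edge `e` -/
abbrev Cnt (n : ℕ) := Option (Fin (n + 2)) → ℕ

/-- the update of the counters -/
def cntU (e : ℕ × ℕ) (M : Stt n) (c : Cnt n) : Cnt n := fun o =>
  match o with
  | none => if M (vα n) = vβ n ∧ (∃ u : Fin (n + 2), (u : ℕ) = e.1 ∧ ((M u : Fin (n + 2)) : ℕ) = e.2) then c none + 1 else c none
  | some u => if M (vα n) = u then c (some u) + 1 else c (some u)

/-- the counters after `S` passes -/
noncomputable def cntK (p : Par) (e : ℕ × ℕ) (hist : ℕ → Ext n) (i : ℕ) : PMF (Cnt n) :=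
  iterBind (fun c => (passK p hist i).map fun M => cntU e M c) p.S fun _ => 0

/-- the state of the whole algorithm: history of the scaled exponents, edge exponents, vertex
exponents, number of completed operations, numerator and denominator of the estimate -/
structure Al (n : ℕ) where
  /-- history of the scaled exponents -/
  hist : ℕ → Ext n
  /-- edge exponents -/
  a : ℕ → ℕ → ℤ
  /-- vertex exponents -/
  y : ℕ → ℤ
  /-- number of completed operations -/
  q : ℕ
  /-- numerator -/
  num : ℕ
  /-- denominator -/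
  den : ℕ

/-- the pair of vertices of the operation number `q` -/
def opE (n q : ℕ) : ℕ × ℕ := (q % (n * n) / n, q % (n * n) % n)

open Classical in
/-- the target exponent -/
noncomputable def tgt (L : ℕ) (G : SimpleGraph (Fin n)) (u v : ℕ) : ℤ :=
  if ∃ h : u < n ∧ v < n, G.Adj ⟨u, h.1⟩ ⟨v, h.2⟩ then 0 else -(L : ℤ)

/-- the change of the exponent in the operation on the pair `e` -/
noncomputable def dlt (L : ℕ) (G : SimpleGraph (Fin n)) (a : ℕ → ℕ → ℤ) (e : ℕ × ℕ) : ℤ :=
  if e.1 < e.2 then
    if a e.1 e.2 < tgt L G e.1 e.2 then 1 else if tgt L G e.1 e.2 < a e.1 e.2 then -1 else 0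
  else 0

/-- add `d` to the exponent of the pair `e` -/
def addE (a : ℕ → ℕ → ℤ) (e : ℕ × ℕ) (d : ℤ) : ℕ → ℕ → ℤ := fun u v =>
  a u v + if (u = e.1 ∧ v = e.2) ∨ (u = e.2 ∧ v = e.1) then d else 0

/-- the change of the vertex exponent `u < n` suggested by the counters -/
def dy (c : Cnt n) (u : ℕ) : ℤ :=
  if h : u < n then
    if 3 * c (some (vβ n)) ≤ c (some ⟨u, by omega⟩) then 1
    else if 3 * c (some ⟨u, by omega⟩) ≤ c (some (vβ n)) then -1
    else 0
  else 0

/-- the update after the round number `i` with the counters `c` -/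
noncomputable def updA (p : Par) (G : SimpleGraph (Fin n)) (i : ℕ) (x : Al n) (c : Cnt n) : Al n :=
  if p.L * (n * n) ≤ x.q then x
  else if ∃ u < n, dy c u ≠ 0 then
    { x with
      y := fun u => x.y u + dy c u
      hist := Function.update x.hist (i + 1) (scl n x.a (fun u => x.y u + dy c u)) }
  else
    { hist := Function.update x.hist (i + 1)
        (scl n (addE x.a (opE n x.q) (dlt p.L G x.a (opE n x.q))) x.y)
      a := addE x.a (opE n x.q) (dlt p.L G x.a (opE n x.q))
      y := x.y
      q := x.q + 1
      num := x.num *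
        (if dlt p.L G x.a (opE n x.q) = 1 then 2 * (c (some (vβ n)) + c none)
         else if dlt p.L G x.a (opE n x.q) = -1 then 2 * c (some (vβ n)) - c none
         else 1)
      den := x.den * (if dlt p.L G x.a (opE n x.q) = 0 then 1 else 2 * c (some (vβ n))) }

/-- the round number `i`: passes through the stages `0, …, i`, and the update.  (After the last
operation the stage number is not increased any more, so the passes use the stages up to the last
one.) -/
noncomputable def roundK (p : Par) (G : SimpleGraph (Fin n)) (i : ℕ) (x : Al n) : PMF (Al n) :=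
  if p.L * (n * n) ≤ x.q then PMF.pure x
  else (cntK p (opE n x.q) x.hist i).map (updA p G i x)

/-- the initial edge exponents -/
def a0 (L : ℕ) (u v : ℕ) : ℤ := if u / 2 = v / 2 then 0 else -(L : ℤ)

/-- the initial state -/
def init (n L : ℕ) : Al n where
  hist := fun _ => scl n (a0 L) (fun _ => 0)
  a := a0 L
  y := fun _ => 0
  q := 0
  num := 1
  den := 1

/-- numerator and denominator of the output -/
def outV (x : Al n) : ℤ × ℤ :=
  if 2 * x.num < x.den then (0, 1) else ((x.num : ℤ), (x.den : ℤ))

/-- the output of the whole algorithm -/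
noncomputable def mainK (p : Par) (G : SimpleGraph (Fin n)) : PMF (ℤ × ℤ) :=
  if n % 2 = 1 then PMF.pure (0, 1) else
    (seqBind (fun i => roundK p G i) p.R (init n p.L)).map outV

/-- The parameters: `k1, …, k5` are fixed numbers. -/
def parOf (k1 k2 k3 k4 k5 k6 : ℕ) (n a b : ℕ) : Par where
  H := 12 * Nat.size (n + 2)
  Bn := Nat.size (n + 2)
  g := k1 * Nat.size (n + 2) ^ 4 + k2 * Nat.size (n + a + Nat.size b + 2)
  T := 2 ^ (k3 * Nat.size (n + 2) ^ 4) * (n + a + Nat.size b + 2) ^ k4
  S := (n + a + Nat.size b + 2) ^ k5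
  R := (n + a + Nat.size b + 2) ^ k6
  L := (n + a + Nat.size b + 2) ^ 3
  B := 2 * (n + a + Nat.size b + 2) ^ k6

/-- The law of the output. -/
noncomputable def lawX (k1 k2 k3 k4 k5 k6 : ℕ) (n : ℕ) (G : SimpleGraph (Fin n)) (a b : ℕ) :
    PMF (ℤ × ℤ) :=
  mainK (parOf k1 k2 k3 k4 k5 k6 n a b) G

end Vale.Agent.P308Q
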