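import Vale.Agent.P308Q.Lip

/-!
# The hole bound
-/

namespace Vale.Agent.P308Q

open Finset

variable {V : Type} [Fintype V] [DecidableEq V]

/-- cutting one pair lowers the total similarity by twice the similarity of the pair -/
private theorem HB_SS_cut (E : Exps V) (L : ℕ) {c : V → V} (cc : ∀ v, c (c v) = v) {x y : V}
    (hxy : x ≠ y) (hc : c x = y) :
    SS E L c = SS E L (cut1 c x) + 2 * sim E L x y := by
  have hcy : c y = x := by rw [← hc, cc]
  unfold SS
  have h1 : ∀ v, sim E L v (c v) =
      sim E L v (cut1 c x v) + ((if v = x then sim E L x y else 0) +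
        (if v = y then sim E L x y else 0)) := by
    intro v
    by_cases hvx : v = x
    · subst hvx
      simp [cut1, hc, hxy, sim_self]
    · by_cases hvy : v = y
      · subst hvy
        simp [cut1, hc, hcy, hvx, sim_self, sim_symm E L v x]
      · simp [cut1, hc, hvx, hvy]
  rw [Finset.sum_congr rfl fun v _ => h1 v, Finset.sum_add_distrib, Finset.sum_add_distrib]
  simp only [Finset.sum_ite_eq', Finset.mem_univ, if_true]
  ring

private theorem HB_mv_cut {c : V → V} (cc : ∀ v, c (c v) = v) {x y : V}
    (hxy : x ≠ y) (hc : c x = y) : mv c = insert x (insert y (mv (cut1 c x))) := by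
  have hcy : c y = x := by rw [← hc, cc]
  ext v
  simp only [mem_mv, mem_insert, cut1, hc]
  by_cases hvx : v = x
  · subst hvx
    simp [hc, hxy.symm]
  · by_cases hvy : v = y
    · subst hvy
      simp [hcy, hxy]
    · simp [hvx, hvy]

/-- Among the partial pairings of `U` with at most `2 j` points there is one with the largest total
similarity; re-pairing along a path does not decrease it.  If the total similarity is positive, one
can find a best pairing with a pair `(x, y)` of the largest similarity `t` and a path at level `t`
from `x` to `y` with interior outside `U`. -/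
theorem exists_best (E : Exps V) (L : ℕ) (U : Finset V) (j : ℕ) (c : V → V)
    (cc : ∀ v, c (c v) = v) (cU : ∀ v, c v ≠ v → v ∈ U) (cj : (mv c).card ≤ 2 * j)
    (hpos : 0 < SS E L c) :
    ∃ (c' : V → V) (t : ℕ) (x y : V) (n : ℕ) (g : ℕ → V), (∀ v, c' (c' v) = v) ∧
      (∀ v, c' v ≠ v → v ∈ U) ∧ (mv c').card ≤ 2 * j ∧ SS E L c ≤ SS E L c' ∧
      x ≠ y ∧ c' x = y ∧ sim E L x y = t ∧ 1 ≤ t ∧ t ≤ L ∧
      1 ≤ n ∧ n < Fintype.card V ∧ g 0 = x ∧ g n = y ∧
      (∀ i, 0 < i → i < n → g i ∉ U) ∧
      (∀ i < n, (t : ℤ) ≤ E.l (g i) (g (i + 1))) ∧ (∀ i < n, g i ≠ g (i + 1)) := by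
  classical
  -- a maximizer
  obtain ⟨d, hdm, hdmax⟩ := Finset.exists_max_image
    ((univ : Finset (V → V)).filter fun d => (∀ v, d (d v) = v) ∧ (∀ v, d v ≠ v → v ∈ U) ∧
      (mv d).card ≤ 2 * j) (SS E L) ⟨c, by simp only [mem_filter, mem_univ, true_and]; exact ⟨cc, cU, cj⟩⟩
  simp only [mem_filter, mem_univ, true_and] at hdm hdmax
  obtain ⟨dd, dU, dj⟩ := hdm
  have hcd : SS E L c ≤ SS E L d := hdmax c ⟨cc, cU, cj⟩
  have hdpos : 0 < SS E L d := lt_of_lt_of_le hpos hcd
  -- the pair of the largest similarity
  have hne : (univ : Finset V).Nonempty := by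
    by_contra h
    rw [Finset.not_nonempty_iff_eq_empty] at h
    unfold SS at hdpos
    rw [h] at hdpos
    simp at hdpos
  obtain ⟨x, -, hx⟩ := Finset.exists_max_image (univ : Finset V) (fun v => sim E L v (d v)) hne
  set t := sim E L x (d x) with ht
  have ht1 : 1 ≤ t := by
    by_contra h0
    have h0 : t = 0 := by omega
    have : SS E L d = 0 := by
      unfold SS
      refine Finset.sum_eq_zero fun v hv => ?_
      have := hx v hv
      omega
    omega
  have hxd : x ≠ d x := by
    intro h
    rw [← h, sim_self] at ht
    omega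
  have hsim : t ≤ sim E L x (d x) := le_refl _
  obtain ⟨htL, hreach⟩ := (le_sim_iff E L hxd ht1).1 hsim
  have hdxU : d x ∈ U := by
    apply dU
    rw [dd]
    exact hxd
  obtain ⟨n, g, hn1, hnc, hg0, hgnU, hgnx, hgU, hgx, hgl, hgne⟩ := exists_first E hxd hdxU hreach
  by_cases hu : g n = d x
  · exact ⟨d, t, x, d x, n, g, dd, dU, dj, hcd, hxd, rfl, rfl, ht1, htL, hn1, hnc, hg0, hu, hgU,
      hgl, hgne⟩
  -- re-pairing
  set u := g n with hudef
  set z := d x with hz
  have hdz : d z = x := by rw [hz, dd]
  have hxu : x ≠ u := fun h => hgnx h.symm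
  -- the path gives the similarity of `x` and `u`
  have hpath : ∀ i, i ≤ n → (GG E t).Reachable x (g i) := by
    intro i
    induction i with
    | zero => intro _; rw [hg0]
    | succ i ih =>
      intro hi
      refine (ih (by omega)).trans (SimpleGraph.Adj.reachable ?_)
      exact ⟨hgne i (by omega), hgl i (by omega)⟩
  have hsxu : t ≤ sim E L x u := (le_sim_iff E L hxu ht1).2 ⟨htL, hpath n le_rfl⟩
  have hsu : t ≤ sim E L u z := by
    rcases sim_ultra E L (x := u) (y := x) (z := z) hu with h | h | h
    · exact absurd h.symm hxu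
    · exact absurd h hxd
    · refine le_trans (le_min ?_ ?_) h
      · rw [sim_symm]; exact hsxu
      · exact hsim
  have hle : ∀ v, sim E L v (d v) ≤ t := fun v => hx v (mem_univ v)
  let s : Equiv.Perm V := Equiv.swap u z
  have hss : ∀ v, s (s v) = v := fun v => Equiv.swap_apply_self u z v
  let d' : V → V := fun v => s (d (s v))
  have hd'd : ∀ v, d' (s v) = s (d v) := by
    intro v
    simp only [d', hss]
  have hdd' : ∀ v, d' (d' v) = v := by
    intro v
    simp only [d', hss, dd]
  have hsU : ∀ v, s v ∈ U → v ∈ U := by
    intro v hv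
    by_cases h1 : v = u
    · rw [h1]; exact hgnU
    · by_cases h2 : v = z
      · rw [h2]; exact hdxU
      · have : s v = v := Equiv.swap_apply_of_ne_of_ne h1 h2
        rwa [this] at hv
  have hd'U : ∀ v, d' v ≠ v → v ∈ U := by
    intro v hv
    apply hsU
    apply dU
    intro h
    apply hv
    simp only [d']
    rw [h, hss]
  have hmv : (mv d').card ≤ 2 * j := by
    have : mv d' = (mv d).map s.toEmbedding := by
      ext v
      simp only [mem_mv, mem_map_equiv, Equiv.symm_swap, s, ne_eq]
      constructor
      · intro h h1
        apply h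
        simp only [d', s]
        rw [h1, Equiv.swap_apply_self]
      · intro h h1
        apply h
        simp only [d', s] at h1
        have := congrArg (Equiv.swap u z) h1
        rwa [Equiv.swap_apply_self] at this
    rw [this, card_map]
    exact dj
  have hSS : SS E L d' = ∑ v, sim E L (s v) (s (d v)) := by
    unfold SS
    rw [← Equiv.sum_comp s]
    exact Finset.sum_congr rfl fun v _ => by rw [hd'd]
  have hsu' : s u = z := Equiv.swap_apply_left u z
  have hsz : s z = u := Equiv.swap_apply_right u z
  have hsx : s x = x := Equiv.swap_apply_of_ne_of_ne hxu hxd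
  have hterm : ∀ v, sim E L v (d v) ≤ sim E L (s v) (s (d v)) := by
    intro v
    by_cases hvu : v = u
    · rw [hvu, hsu']
      by_cases h1 : d u = u
      · rw [h1, sim_self]
        exact Nat.zero_le _
      · have h2 : d u ≠ z := by
          intro h
          have := congrArg d h
          rw [dd, hdz] at this
          exact hxu this.symm
        have h3 : s (d u) = d u := Equiv.swap_apply_of_ne_of_ne h1 h2
        rw [h3]
        rcases sim_ultra E L (x := z) (y := u) (z := d u) (Ne.symm h2) with h | h | h
        · exact absurd h.symm hu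
        · exact absurd h.symm h1
        · refine le_trans (le_min ?_ le_rfl) h
          rw [sim_symm E L z u]
          exact le_trans (hle _) hsu
    · by_cases hvz : v = z
      · rw [hvz, hdz, hsz, hsx, sim_symm E L u x, sim_symm E L z x]
        exact hsxu
      · have hsv : s v = v := Equiv.swap_apply_of_ne_of_ne hvu hvz
        rw [hsv]
        by_cases h1 : d v = u
        · -- `v` is the partner of `u`
          rw [h1, hsu']
          rcases sim_ultra E L (x := v) (y := u) (z := z) hvz with h | h | h
          · exact absurd h hvu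
          · exact absurd h hu
          · refine le_trans (le_min le_rfl ?_) h
            rw [← h1]
            rw [h1]
            have := hle v
            rw [h1] at this
            exact le_trans this hsu
        · by_cases h2 : d v = z
          · have h3 : v = x := by
              have := congrArg d h2
              rwa [dd, hdz] at this
            rw [h2, hsz, h3]
            exact hsxu
          · have h3 : s (d v) = d v := Equiv.swap_apply_of_ne_of_ne h1 h2
            rw [h3]
  have hSSle : SS E L d ≤ SS E L d' := by
    rw [hSS]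
    exact Finset.sum_le_sum fun v _ => hterm v
  have hSSge : SS E L d' ≤ SS E L d := hdmax d' ⟨hdd', hd'U, hmv⟩
  have hEq : sim E L x u = t := by
    have h1 : ∀ v ∈ (univ : Finset V), sim E L v (d v) = sim E L (s v) (s (d v)) := by
      rw [← Finset.sum_eq_sum_iff_of_le fun v _ => hterm v]
      rw [← hSS]
      exact le_antisymm hSSle hSSge
    have h2 := h1 x (mem_univ x)
    rw [hsx, ← hz, hsz] at h2
    exact h2.symm
  refine ⟨d', t, x, u, n, g, hdd', hd'U, hmv, hcd.trans hSSle, hxu, ?_, hEq, ht1, htL, hn1, hnc,
    hg0, hudef.symm, hgU, hgl, hgne⟩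
  simp only [d']
  rw [hsx, ← hz, hsz]

/-- **The hole bound.** -/
theorem hole_bound (E : Exps V) (L : ℕ) {R : ℝ} (hR : RBd E R) (K j : ℕ) : CK E L R K j := by
  induction j using Nat.strong_induction_on with
  | _ j IH =>
  have hR1 : (1 : ℝ) ≤ R := le_trans (by norm_num) hR.two
  rcases Nat.eq_zero_or_pos j with h0 | hj
  · subst h0
    exact CK_zero E L hR K
  intro U c hU cc cU cj
  rcases Nat.eq_zero_or_pos (SS E L c) with hs0 | hs
  · have h1 := CK_zero E L hR K U id hU (fun _ => rfl) (fun v hv => absurd rfl hv) (by simp [mv])
    have h2 : SS E L (id : V → V) = 0 := by simp [SS, sim_self]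
    rw [h2] at h1
    rw [hs0]
    refine h1.trans (pow_le_pow_right₀ hR1 ?_)
    simp
  · obtain ⟨d, t, x, y, n, g, dd, dU, dj, hcd, hxy, hdx, hst, ht1, htL, hn1, hnc, hg0, hgn, hgU,
      hgl, hgne⟩ := exists_best E L U j c cc cU cj hs
    have hxU : x ∈ U := dU x (by rw [hdx]; exact hxy.symm)
    have hdy : d y = x := by rw [← hdx, dd]
    have hyU : y ∈ U := dU y (by rw [hdy]; exact hxy)
    have hW : insert x (insert y ((U.erase x).erase y)) = U := by
      rw [Finset.insert_erase (Finset.mem_erase.2 ⟨hxy.symm, hyU⟩), Finset.insert_erase hxU]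
    have hWc : ((U.erase x).erase y).card + 2 = U.card := by
      have h1 := Finset.card_erase_add_one hxU
      have h2 := Finset.card_erase_add_one (s := U.erase x) (a := y)
        (Finset.mem_erase.2 ⟨hxy.symm, hyU⟩)
      omega
    have hmvc := HB_mv_cut dd hxy hdx
    have hxcut : x ∉ insert y (mv (cut1 d x)) := by
      simp [cut1, hxy]
    have hycut : y ∉ mv (cut1 d x) := by
      simp [cut1, hdx]
    have hcardc : (mv (cut1 d x)).card + 2 = (mv d).card := by
      rw [hmvc, Finset.card_insert_of_notMem hxcut, Finset.card_insert_of_notMem hycut]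
    have hnn : 0 ≤ HH E U := HH_nonneg E U
    have hB := along_path E hR IH hj ht1 htL (W := (U.erase x).erase y) (y := y)
      (c := cut1 d x) (by simp) (cut1_invol dd x)
      (by
        intro v hv
        rw [Finset.mem_erase, Finset.mem_erase]
        refine ⟨?_, ?_, ?_⟩
        · rintro rfl
          exact hv (by simp [cut1, hdx])
        · rintro rfl
          exact hv (by simp [cut1])
        · apply dU
          intro h
          apply hv
          unfold cut1
          rw [h]
          simp)
      (by omega) (by omega) n g hn1 hnc hgn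
      (by
        intro i hi
        rcases Nat.eq_zero_or_pos i with h | h
        · subst h
          rw [hg0]
          simp
        · intro h1
          exact hgU i h hi (Finset.mem_of_mem_erase (Finset.mem_of_mem_erase h1)))
      (by
        intro i hi
        rcases Nat.eq_zero_or_pos i with h | h
        · subst h
          rw [hg0]
          exact hxy
        · intro h1
          apply hgU i h hi
          rw [h1]
          exact hyU)
      hgl hgne
    rw [hg0, hW, hWc] at hB
    have hSc : SS E L d = SS E L (cut1 d x) + 2 * t := by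
      rw [HB_SS_cut E L dd hxy hdx, hst]
    rw [← hSc] at hB
    refine le_trans ?_ hB
    exact mul_le_mul_of_nonneg_left (pow_le_pow_right₀ one_le_q2 hcd) hnn

end Vale.Agent.P308Q
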