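import Vale.Agent.P308Q.Sig
import Vale.Agent.P308Q.HoleBound

/-!
# The hole bound with `σ`, and the total weight of the chain
-/

namespace Vale.Agent.P308Q

open Finset

variable {V : Type} [Fintype V] [DecidableEq V]

/-- The loss factor. -/
noncomputable def rho (R : ℝ) (K : ℕ) : ℝ := R ^ (2 * K + (2 * K + 11) * K ^ 2)

theorem hole_bound_sig (E : Exps V) (L : ℕ) {R : ℝ} (hR : RBd E R) (K : ℕ) {U : Finset V}
    (hU : U.card ≤ 2 * K) : NN E U * 2 ^ sig E L U ≤ rho R K * NN E ∅ := by
  obtain ⟨c, cc, cU, cS⟩ := sig_pairing E L U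
  have hmv : mv c ⊆ U := fun v hv => cU v (mem_mv.1 hv)
  have hmc : (mv c).card ≤ 2 * K := (Finset.card_le_card hmv).trans hU
  have h := hole_bound E L hR K K U c hU cc cU hmc
  rw [cS, pow_mul, q2_sq] at h
  have hN := NN_empty_pos E hR.even
  have h1R : (1 : ℝ) ≤ R := by linarith [hR.two]
  have hle : R ^ (U.card + (2 * K + 11) * K ^ 2) ≤ rho R K :=
    pow_le_pow_right₀ h1R (by omega)
  rw [NN_eq E hR.even U]
  calc HH E U * NN E ∅ * 2 ^ sig E L U = (HH E U * 2 ^ sig E L U) * NN E ∅ := by ring
    _ ≤ rho R K * NN E ∅ := mul_le_mul_of_nonneg_right (h.trans hle) hN.le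

/-- The chain weight without restriction on the number of holes. -/
noncomputable def wh (E : Exps V) (L : ℕ) (m : V → V) : ℝ := wt E m * 2 ^ sig E L (holes m)

theorem wh_pos (E : Exps V) (L : ℕ) (m : V → V) : 0 < wh E L m :=
  mul_pos (wt_pos E m) (by positivity)

theorem wh_perfect (E : Exps V) (L : ℕ) {m : V → V} (h : holes m = ∅) : wh E L m = wt E m := by
  have h0 : sig E L (holes m) = 0 := sig_of_card_le_one E L (by rw [h]; simp)
  rw [wh, h0, pow_zero, mul_one]

/-- The number of sets with at most `k` elements. -/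
theorem card_small_sets (α : Type) [Fintype α] [DecidableEq α] (k : ℕ) :
    ((univ : Finset (Finset α)).filter fun s => s.card ≤ k).card ≤ (Fintype.card α + 1) ^ k := by
  have hcard : Fintype.card (Fin k → Option α) = (Fintype.card α + 1) ^ k := by
    simp
  rw [← hcard, ← Finset.card_univ]
  refine Finset.card_le_card_of_surjOn
    (fun f : Fin k → Option α => univ.filter fun a => ∃ i, f i = some a) ?_
  intro s hs
  have hs' : s.card ≤ k := by simpa using hs
  refine ⟨fun i => if h : i.1 < s.card then some (s.equivFin.symm ⟨i.1, h⟩).1 else none,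
    by simp, ?_⟩
  ext a
  simp only [mem_filter, mem_univ, true_and]
  constructor
  · rintro ⟨i, hi⟩
    by_cases h : i.1 < s.card
    · rw [dif_pos h] at hi
      have := Option.some.inj hi
      rw [← this]
      exact (s.equivFin.symm ⟨i.1, h⟩).2
    · rw [dif_neg h] at hi
      exact absurd hi (by simp)
  · intro ha
    refine ⟨⟨(s.equivFin ⟨a, ha⟩).1, lt_of_lt_of_le (s.equivFin ⟨a, ha⟩).2 hs'⟩, ?_⟩
    rw [dif_pos (s.equivFin ⟨a, ha⟩).2]
    simp

/-- The total chain weight of the matchings with at most `2 K` holes. -/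
theorem Zhat_le (E : Exps V) (L : ℕ) {R : ℝ} (hR : RBd E R) (K : ℕ) :
    ∑ m ∈ (univ : Finset (Mat V)).filter (fun m => (holes m.1).card ≤ 2 * K), wh E L m.1 ≤
      (Fintype.card V + 1) ^ (2 * K) * rho R K * NN E ∅ := by
  classical
  have hrho : 0 ≤ rho R K := by
    have := hR.two
    unfold rho
    positivity
  have hN := NN_empty_pos E hR.even
  have h1 : ∑ m ∈ (univ : Finset (Mat V)).filter (fun m => (holes m.1).card ≤ 2 * K), wh E L m.1
      = ∑ U ∈ (univ : Finset (Finset V)).filter (fun s => s.card ≤ 2 * K),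
          NN E U * 2 ^ sig E L U := by
    rw [← Finset.sum_fiberwise_of_maps_to (s := (univ : Finset (Mat V)).filter
      (fun m => (holes m.1).card ≤ 2 * K)) (t := (univ : Finset (Finset V)).filter
      (fun s => s.card ≤ 2 * K)) (g := fun m => holes m.1) (by
        intro m hm
        simpa using hm)]
    refine Finset.sum_congr rfl fun U hU => ?_
    have hU' : U.card ≤ 2 * K := by simpa using hU
    rw [NN, Finset.sum_mul]
    rw [Finset.sum_filter, Finset.sum_filter]
    refine Finset.sum_congr rfl fun m _ => ?_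
    by_cases hm : holes m.1 = U
    · subst hm
      simp [hU', wh]
    · simp [hm]
  rw [h1]
  calc ∑ U ∈ (univ : Finset (Finset V)).filter (fun s => s.card ≤ 2 * K),
          NN E U * 2 ^ sig E L U
      ≤ ∑ U ∈ (univ : Finset (Finset V)).filter (fun s => s.card ≤ 2 * K),
          rho R K * NN E ∅ := Finset.sum_le_sum fun U hU =>
        hole_bound_sig E L hR K (by simpa using hU)
    _ = ((univ : Finset (Finset V)).filter (fun s => s.card ≤ 2 * K)).card *
          (rho R K * NN E ∅) := by rw [Finset.sum_const, nsmul_eq_mul]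
    _ ≤ ((Fintype.card V + 1) ^ (2 * K) : ℕ) * (rho R K * NN E ∅) := by
        refine mul_le_mul_of_nonneg_right ?_ (by positivity)
        exact_mod_cast card_small_sets V (2 * K)
    _ = (Fintype.card V + 1) ^ (2 * K) * rho R K * NN E ∅ := by push_cast; ring

end Vale.Agent.P308Q
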