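import Vale.Agent.P308Q.Algo
import Vale.Agent.P308Q.SigHole

/-!
# The functions of the algorithm and the abstract ones
-/

namespace Vale.Agent.P308Q

open Finset

variable {n : ℕ}

/-- symmetric exponents, zero on the diagonal -/
def IsExt (b : Ext n) : Prop := (∀ u v, b u v = b v u) ∧ ∀ v, b v v = 0

/-- the exponents as a structure -/
def toE (b : Ext n) (h : IsExt b) : Exps (Fin (n + 2)) := ⟨b, h.1, h.2⟩

private theorem br_nonneg (b : Ext n) (k : ℕ) (u v : Fin (n + 2)) : 0 ≤ fw b k u v := by
  induction k generalizing u v with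
  | zero => exact le_max_left _ _
  | succ k ih =>
    unfold fw
    split_ifs with h
    · exact (ih u v).trans (le_max_left _ _)
    · exact ih u v

private theorem br_le (b : Ext n) (B : ℕ) (hB : ∀ u v, b u v ≤ B) (k : ℕ) (u v : Fin (n + 2)) :
    fw b k u v ≤ B := by
  induction k generalizing u v with
  | zero => exact max_le (by positivity) (hB u v)
  | succ k ih =>
    unfold fw
    split_ifs with h
    · exact max_le (ih u v) ((min_le_left _ _).trans (ih _ _))
    · exact ih u v

private theorem br_sound (b : Ext n) (h : IsExt b) {t : ℕ} (ht : 1 ≤ t) (k : ℕ)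
    (u v : Fin (n + 2)) (htu : (t : ℤ) ≤ fw b k u v) : (GG (toE b h) t).Reachable u v := by
  induction k generalizing u v with
  | zero =>
    have h1 : (t : ℤ) ≤ b u v := by
      rcases le_max_iff.1 htu with h0 | h0
      · omega
      · exact h0
    have hne : u ≠ v := by
      rintro rfl
      rw [h.2] at h1
      omega
    exact SimpleGraph.Adj.reachable ⟨hne, h1⟩
  | succ k ih =>
    unfold fw at htu
    split_ifs at htu with hk
    · rcases le_max_iff.1 htu with h0 | h0
      · exact ih u v h0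
      · obtain ⟨h1, h2⟩ := le_min_iff.1 h0
        exact (ih _ _ h1).trans (ih _ _ h2)
    · exact ih u v htu

/-- connected with interior vertices `< k` -/
private def BrC (b : Ext n) (t : ℕ) (k : ℕ) (u v : Fin (n + 2)) : Prop :=
  u = v ∨ (t : ℤ) ≤ fw b k u v

private theorem BrC_succ (b : Ext n) (t : ℕ) {k : ℕ} (hk : k < n + 2) (u v : Fin (n + 2)) :
    BrC b t (k + 1) u v ↔ BrC b t k u v ∨ (BrC b t k u ⟨k, hk⟩ ∧ BrC b t k ⟨k, hk⟩ v) := by
  unfold BrC
  have e : fw b (k + 1) u v = max (fw b k u v) (min (fw b k u ⟨k, hk⟩) (fw b k ⟨k, hk⟩ v)) := by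
    show (if h : k < n + 2 then max (fw b k u v) (min (fw b k u ⟨k, h⟩) (fw b k ⟨k, h⟩ v))
      else fw b k u v) = _
    rw [dif_pos hk]
  rw [e, le_max_iff, le_min_iff]
  constructor
  · rintro (h | h | ⟨h1, h2⟩)
    · exact Or.inl (Or.inl h)
    · exact Or.inl (Or.inr h)
    · exact Or.inr ⟨Or.inr h1, Or.inr h2⟩
  · rintro ((h | h) | ⟨h1 | h1, h2 | h2⟩)
    · exact Or.inl h
    · exact Or.inr (Or.inl h)
    · exact Or.inl (h1.trans h2)
    · subst h1
      exact Or.inr (Or.inl h2)
    · subst h2
      exact Or.inr (Or.inl h1)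
    · exact Or.inr (Or.inr ⟨h1, h2⟩)

private theorem BrC_trans (b : Ext n) (t : ℕ) (k : ℕ) (hk : k ≤ n + 2) (u w v : Fin (n + 2))
    (hw : (w : ℕ) < k) (h1 : BrC b t k u w) (h2 : BrC b t k w v) : BrC b t k u v := by
  induction k generalizing u w v with
  | zero => exact absurd hw (Nat.not_lt_zero _)
  | succ k ih =>
    have hk' : k < n + 2 := by omega
    rw [BrC_succ b t hk'] at h1 h2 ⊢
    have key : ∀ x y, BrC b t k x w → BrC b t k w y →
        BrC b t k x y ∨ w = ⟨k, hk'⟩ := by
      intro x y hx hy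
      by_cases hwk : (w : ℕ) < k
      · exact Or.inl (ih hk'.le x w y hwk hx hy)
      · refine Or.inr (Fin.ext ?_)
        show (w : ℕ) = k
        omega
    rcases h1 with h1 | ⟨h1, h1'⟩
    · rcases h2 with h2 | ⟨h2, h2'⟩
      · rcases key u v h1 h2 with h | h
        · exact Or.inl h
        · rw [h] at h1 h2
          exact Or.inr ⟨h1, h2⟩
      · rcases key u _ h1 h2 with h | h
        · exact Or.inr ⟨h, h2'⟩
        · rw [h] at h1
          exact Or.inr ⟨h1, h2'⟩
    · rcases h2 with h2 | ⟨h2, h2'⟩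
      · rcases key _ v h1' h2 with h | h
        · exact Or.inr ⟨h1, h⟩
        · rw [h] at h2
          exact Or.inr ⟨h1, h2⟩
      · exact Or.inr ⟨h1, h2'⟩

private theorem BrC_mono (b : Ext n) (t : ℕ) (k : ℕ) (u v : Fin (n + 2))
    (h : BrC b t 0 u v) : BrC b t k u v := by
  induction k with
  | zero => exact h
  | succ k ih =>
    rcases ih with h1 | h1
    · exact Or.inl h1
    · refine Or.inr ?_
      unfold fw
      split_ifs with hk
      · exact h1.trans (le_max_left _ _)
      · exact h1

private theorem br_complete (b : Ext n) (h : IsExt b) {t : ℕ} {u v : Fin (n + 2)}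
    (hr : (GG (toE b h) t).Reachable u v) : BrC b t (n + 2) u v := by
  obtain ⟨p⟩ := hr
  induction p with
  | nil => exact Or.inl rfl
  | cons hadj p ih =>
    refine BrC_trans b t (n + 2) le_rfl _ _ _ (Fin.is_lt _) ?_ ih
    refine BrC_mono b t _ _ _ (Or.inr ?_)
    have h1 := hadj.2
    exact le_trans h1 (le_max_right _ _)

private theorem br_le_iff (b : Ext n) (h : IsExt b) {t : ℕ} (ht : 1 ≤ t) {u v : Fin (n + 2)}
    (huv : u ≠ v) : (t : ℤ) ≤ fw b (n + 2) u v ↔ (GG (toE b h) t).Reachable u v := by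
  constructor
  · exact br_sound b h ht _ u v
  · intro hr
    rcases br_complete b h hr with h1 | h1
    · exact absurd h1 huv
    · exact h1

theorem fw_eq_sim (b : Ext n) (h : IsExt b) (B : ℕ) (hB : ∀ u v, b u v ≤ B) {u v : Fin (n + 2)}
    (huv : u ≠ v) : fw b (n + 2) u v = (sim (toE b h) B u v : ℤ) := by
  obtain ⟨m, hm⟩ := Int.eq_ofNat_of_zero_le (br_nonneg b (n + 2) u v)
  have hmB : m ≤ B := by
    have := br_le b B hB (n + 2) u v
    rw [hm] at this
    exact_mod_cast this
  have key : ∀ t, 1 ≤ t → (t ≤ m ↔ t ≤ sim (toE b h) B u v) := by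
    intro t ht
    rw [le_sim_iff _ _ huv ht, ← br_le_iff b h ht huv, hm]
    constructor
    · intro h1
      exact ⟨h1.trans hmB, by exact_mod_cast h1⟩
    · rintro ⟨_, h1⟩
      exact_mod_cast h1
  rw [hm]
  norm_cast
  refine le_antisymm ?_ ?_
  · rcases Nat.eq_zero_or_pos m with h0 | h0
    · omega
    · exact (key m h0).1 le_rfl
  · rcases Nat.eq_zero_or_pos (sim (toE b h) B u v) with h0 | h0
    · omega
    · exact (key _ h0).2 le_rfl

private theorem br_half {α : Type} [LinearOrder α] (S : Finset α) :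
    (S.filter fun u => (S.filter fun v => v < u).card % 2 = 1).card = S.card / 2 := by
  induction S using Finset.induction_on_max with
  | empty => simp
  | insert a S ha ih =>
    have haS : a ∉ S := fun h => lt_irrefl _ (ha a h)
    have h1 : (insert a S).filter (fun v => v < a) = S := by
      ext v
      rw [mem_filter, mem_insert]
      constructor
      · rintro ⟨h1 | h1, h2⟩
        · exact absurd h1 h2.ne
        · exact h1
      · intro h1
        exact ⟨Or.inr h1, ha v h1⟩
    have h2 : ∀ u ∈ S, (insert a S).filter (fun v => v < u) = S.filter (fun v => v < u) := by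
      intro u hu
      rw [filter_insert, if_neg (not_lt.2 (ha u hu).le)]
    rw [filter_insert, h1, card_insert_of_notMem haS]
    have h3 : (S.filter fun u => ((insert a S).filter fun v => v < u).card % 2 = 1) =
        S.filter fun u => (S.filter fun v => v < u).card % 2 = 1 := by
      refine filter_congr fun u hu => ?_
      rw [h2 u hu]
    rw [h3]
    split_ifs with h4
    · rw [card_insert_of_notMem (fun h => haS (mem_filter.1 h).1), ih]
      omega
    · rw [ih]
      omega

theorem sigF_eq_sig (b : Ext n) (h : IsExt b) (B : ℕ) (hB : ∀ u v, b u v ≤ B)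
    (U : Finset (Fin (n + 2))) : sigF B (fw b (n + 2)) U = sig (toE b h) B U := by
  classical
  unfold sigF sig
  have e1 : Icc 1 B = Ico (0 + 1) (B + 1) := by
    ext t
    rw [mem_Icc, mem_Ico]
    omega
  rw [e1, ← Finset.sum_Ico_add', range_eq_Ico]
  refine sum_congr rfl fun t ht => ?_
  have htB : t < B := (mem_Ico.1 ht).2
  have hlt : 1 ≤ t + 1 := by omega
  have hiff : ∀ u v : Fin (n + 2), u ≠ v → ((t : ℤ) + 1 ≤ fw b (n + 2) u v ↔
      cmp (toE b h) (t + 1) v = cmp (toE b h) (t + 1) u) := by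
    intro u v huv
    have h1 := br_le_iff b h hlt huv
    rw [Nat.cast_add, Nat.cast_one] at h1
    rw [h1]
    unfold cmp
    rw [SimpleGraph.ConnectedComponent.eq]
    exact SimpleGraph.reachable_comm
  rw [card_eq_sum_card_fiberwise (f := cmp (toE b h) (t + 1))
    (t := univ.image (cmp (toE b h) (t + 1)))
    (fun v _ => mem_coe.2 (mem_image_of_mem _ (mem_univ v)))]
  refine sum_congr rfl fun C _ => ?_
  rw [← br_half (U.filter fun v => cmp (toE b h) (t + 1) v = C)]
  refine congrArg Finset.card ?_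
  ext u
  simp only [mem_filter]
  have e2 : cmp (toE b h) (t + 1) u = C →
      (U.filter fun v => v < u ∧ (t : ℤ) + 1 ≤ fw b (n + 2) u v) =
      (U.filter fun v => cmp (toE b h) (t + 1) v = C).filter fun v => v < u := by
    intro hu
    ext v
    simp only [mem_filter]
    constructor
    · rintro ⟨h1, h2, h3⟩
      exact ⟨⟨h1, ((hiff u v h2.ne').1 h3).trans hu⟩, h2⟩
    · rintro ⟨⟨h1, h3⟩, h2⟩
      exact ⟨h1, h2, (hiff u v h2.ne').2 (h3.trans hu.symm)⟩
  constructor
  · rintro ⟨⟨h1, h2⟩, h3⟩
    refine ⟨⟨h1, h3⟩, ?_⟩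
    rw [← e2 h3]
    exact h2
  · rintro ⟨⟨h1, h3⟩, h2⟩
    refine ⟨⟨h1, ?_⟩, h3⟩
    rw [e2 h3]
    exact h2

/-- the weight of a state of the chain of the algorithm -/
noncomputable def wph (p : Par) (b : Ext n) (M : Stt n) : ℝ :=
  (2 : ℝ) ^ (phi p b (fw b (n + 2)) M)

theorem wph_pos (p : Par) (b : Ext n) (M : Stt n) : 0 < wph p b M := zpow_pos (by norm_num) _

private theorem br_sum (b : Ext n) (h : IsExt b) {M : Stt n} (hM : ∀ v, M (M v) = v) :
    ∑ v, b v (M v) = 2 * ∑ v, if v < M v then b v (M v) else 0 := by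
  have h1 : ∀ v, b v (M v) = (if v < M v then b v (M v) else 0) +
      (if M v < v then b v (M v) else 0) := by
    intro v
    rcases lt_trichotomy v (M v) with h0 | h0 | h0
    · rw [if_pos h0, if_neg (not_lt.2 h0.le), add_zero]
    · have h3 : b v (M v) = 0 := by
        rw [← h0]
        exact h.2 v
      rw [h3]
      simp
    · rw [if_neg (not_lt.2 h0.le), if_pos h0, zero_add]
  have h2 : ∑ v, (if M v < v then b v (M v) else 0) = ∑ v, if v < M v then b v (M v) else 0 := by
    have e := Equiv.sum_comp (Function.Involutive.toPerm M hM)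
      (fun v => if M v < v then b v (M v) else 0)
    rw [← e]
    refine sum_congr rfl fun v _ => ?_
    have e1 : (Function.Involutive.toPerm M hM) v = M v := rfl
    simp only [e1, hM]
    rw [h.1 (M v) v]
  rw [sum_congr rfl fun v _ => h1 v, sum_add_distrib, h2]
  ring

theorem wph_eq (p : Par) (b : Ext n) (h : IsExt b) (hB : ∀ u v, b u v ≤ p.B) {M : Stt n}
    (hM : ∀ v, M (M v) = v) :
    wph p b M = wh (toE b h) p.B M * (if holes M = ∅ then 1 else (2 : ℝ)⁻¹ ^ p.g) := by
  have h2 : (2 : ℝ) ≠ 0 := two_ne_zero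
  have e1 : wt (toE b h) M = (2 : ℝ) ^ (∑ v, if v < M v then b v (M v) else 0) := by
    have e : ∑ v, (toE b h).l v (M v) = 2 * ∑ v, if v < M v then b v (M v) else 0 :=
      br_sum b h hM
    rw [wt, e, zpow_mul]
    congr 1
    have := q2_sq
    exact_mod_cast this
  unfold wph wh phi
  rw [sigF_eq_sig b h p.B hB, e1, zpow_sub₀ h2, zpow_add₀ h2, zpow_natCast, div_eq_mul_inv]
  congr 1
  split_ifs with h0
  · simp
  · rw [zpow_natCast, inv_pow]

end Vale.Agent.P308Q
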