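import Vale.Agent.P308Q.Defs

/-!
# Two involutions: the orbit of a fixed point is a path
-/

namespace Vale.Agent.P308Q

variable {V : Type} [Finite V]

section aux

variable (a b : V → V) (z : V)

/-- the alternating walk from `z` -/
def dihSeq : ℕ → V
  | 0 => z
  | i + 1 => if Even i then b (dihSeq i) else a (dihSeq i)

omit [Finite V] in
theorem dihSeq_succ (i : ℕ) :
    dihSeq a b z (i + 1) = if Even i then b (dihSeq a b z i) else a (dihSeq a b z i) := rfl

variable {a b z}

omit [Finite V] in
theorem dihSeq_b_even {i : ℕ} (h : Even i) : b (dihSeq a b z i) = dihSeq a b z (i + 1) := by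
  rw [dihSeq_succ, if_pos h]

omit [Finite V] in
theorem dihSeq_a_odd {i : ℕ} (h : ¬ Even i) : a (dihSeq a b z i) = dihSeq a b z (i + 1) := by
  rw [dihSeq_succ, if_neg h]

omit [Finite V] in
theorem dihSeq_b_odd (hb : ∀ v, b (b v) = v) {i : ℕ} (h : Even i) :
    b (dihSeq a b z (i + 1)) = dihSeq a b z i := by
  rw [dihSeq_succ, if_pos h, hb]

omit [Finite V] in
theorem dihSeq_a_even (ha : ∀ v, a (a v) = v) {i : ℕ} (h : ¬ Even i) :
    a (dihSeq a b z (i + 1)) = dihSeq a b z i := by
  rw [dihSeq_succ, if_neg h, ha]

omit [Finite V] in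
/-- same parity: go back to the start -/
theorem dihSeq_back (ha : ∀ v, a (a v) = v) (hb : ∀ v, b (b v) = v) (i k : ℕ)
    (h : dihSeq a b z i = dihSeq a b z (i + 2 * k)) : dihSeq a b z 0 = dihSeq a b z (2 * k) := by
  induction i with
  | zero => rwa [Nat.zero_add] at h
  | succ i ih =>
    apply ih
    have e : i + 1 + 2 * k = i + 2 * k + 1 := by omega
    rw [e] at h
    by_cases hi : Even i
    · have hi' : Even (i + 2 * k) := hi.add (even_two_mul k)
      have := congrArg b h
      rwa [dihSeq_b_odd hb hi, dihSeq_b_odd hb hi'] at this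
    · have hi' : ¬ Even (i + 2 * k) := by
        rw [Nat.even_add]
        simp [hi]
      have := congrArg a h
      rwa [dihSeq_a_even ha hi, dihSeq_a_even ha hi'] at this

omit [Finite V] in
/-- different parity: meet in the middle -/
theorem dihSeq_mid (ha : ∀ v, a (a v) = v) (hb : ∀ v, b (b v) = v) (k : ℕ) :
    ∀ i, dihSeq a b z i = dihSeq a b z (i + (2 * k + 1)) →
      dihSeq a b z (i + k + 1) = dihSeq a b z (i + k) := by
  induction k with
  | zero => intro i h; simpa using h.symm
  | succ k ih =>
    intro i h
    have e : i + (2 * (k + 1) + 1) = (i + (2 * k + 2)) + 1 := by omega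
    rw [e] at h
    have h2 : dihSeq a b z (i + 1) = dihSeq a b z (i + 1 + (2 * k + 1)) := by
      have e2 : i + 1 + (2 * k + 1) = i + (2 * k + 2) := by omega
      rw [e2]
      by_cases hi : Even i
      · have hi' : Even (i + (2 * k + 2)) := hi.add ⟨k + 1, by omega⟩
        have := congrArg b h
        rwa [dihSeq_b_odd hb hi', dihSeq_b_even (a := a) (b := b) (z := z) hi] at this
      · have hi' : ¬ Even (i + (2 * k + 2)) := by
          rw [Nat.even_add]
          have : Even (2 * k + 2) := ⟨k + 1, by omega⟩
          simp [hi, this]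
        have := congrArg a h
        rwa [dihSeq_a_even ha hi', dihSeq_a_odd (a := a) (b := b) (z := z) hi] at this
    have h3 := ih (i + 1) h2
    have e3 : i + (k + 1) + 1 = i + 1 + k + 1 := by omega
    have e4 : i + (k + 1) = i + 1 + k := by omega
    rw [e3, e4]
    exact h3

omit [Finite V] in
theorem dihSeq_inj (ha : ∀ v, a (a v) = v) (hb : ∀ v, b (b v) = v) (hz : a z = z) {n : ℕ}
    (hn : ∀ i < n, dihSeq a b z (i + 1) ≠ dihSeq a b z i) {i j : ℕ} (hij : i < j) (hj : j ≤ n) :
    dihSeq a b z i ≠ dihSeq a b z j := by
  intro h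
  obtain ⟨d, rfl⟩ := Nat.exists_eq_add_of_lt hij
  rcases Nat.even_or_odd' (d + 1) with ⟨k, hk | hk⟩
  · -- same parity
    have e : i + d + 1 = i + 2 * k := by omega
    rw [e] at h
    have h1 := dihSeq_back ha hb i k h
    have hk1 : 2 * k = (2 * k - 1) + 1 := by omega
    have hodd : ¬ Even (2 * k - 1) := by
      rw [Nat.not_even_iff_odd]
      exact ⟨k - 1, by omega⟩
    have h2 : dihSeq a b z (2 * k - 1) = dihSeq a b z (2 * k) := by
      have h3 := dihSeq_a_even (a := a) (b := b) (z := z) ha hodd
      rw [← hk1, ← h1] at h3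
      rw [← h1, ← h3]
      exact hz
    refine hn (2 * k - 1) (by omega) ?_
    rw [← hk1]
    exact h2.symm
  · have e : i + d + 1 = i + (2 * k + 1) := by omega
    rw [e] at h
    exact hn (i + k) (by omega) (dihSeq_mid ha hb k i h)

theorem dihSeq_exists (ha : ∀ v, a (a v) = v) (hb : ∀ v, b (b v) = v) (hz : a z = z) :
    ∃ n, dihSeq a b z (n + 1) = dihSeq a b z n ∧
      ∀ i < n, dihSeq a b z (i + 1) ≠ dihSeq a b z i := by
  classical
  have hex : ∃ n, dihSeq a b z (n + 1) = dihSeq a b z n := by
    by_contra hcon
    push Not at hcon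
    have hinj : Function.Injective (dihSeq a b z) := by
      intro i j hij
      rcases lt_trichotomy i j with h | h | h
      · exact absurd hij (dihSeq_inj ha hb hz (n := j) (fun k _ => hcon k) h le_rfl)
      · exact h
      · exact absurd hij.symm (dihSeq_inj ha hb hz (n := i) (fun k _ => hcon k) h le_rfl)
    exact not_injective_infinite_finite _ hinj
  exact ⟨Nat.find hex, Nat.find_spec hex, fun i hi => Nat.find_min hex hi⟩

end aux

/-- The orbit of a fixed point `z` of `a` under two involutions `a`, `b` is a path
`z = g 0, b z = g 1, a (b z) = g 2, …, g n`, whose last point is fixed by the next map. -/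
theorem dih_path (a b : V → V) (ha : ∀ v, a (a v) = v) (hb : ∀ v, b (b v) = v) (z : V)
    (hz : a z = z) :
    ∃ (n : ℕ) (g : ℕ → V), g 0 = z ∧ (∀ i < n, g (i + 1) = if Even i then b (g i) else a (g i)) ∧
      (∀ i < n, g (i + 1) ≠ g i) ∧ (if Even n then b (g n) else a (g n)) = g n ∧
      (∀ i j, i ≤ n → j ≤ n → g i = g j → i = j) ∧
      ∀ v, Orb a b id z v ↔ ∃ i ≤ n, g i = v := by
  obtain ⟨n, hn1, hn2⟩ := dihSeq_exists ha hb hz
  refine ⟨n, dihSeq a b z, rfl, fun i _ => rfl, hn2, ?_, ?_, ?_⟩
  · rw [← dihSeq_succ]
    exact hn1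
  · intro i j hi hj hij
    rcases lt_trichotomy i j with h | h | h
    · exact absurd hij (dihSeq_inj ha hb hz hn2 h hj)
    · exact h
    · exact absurd hij.symm (dihSeq_inj ha hb hz hn2 h hi)
  · intro v
    constructor
    · intro h
      induction h with
      | refl => exact ⟨0, Nat.zero_le _, rfl⟩
      | tail _ hxy ih =>
        obtain ⟨i, hi, rfl⟩ := ih
        rcases hxy with rfl | rfl | rfl
        · by_cases he : Even i
          · rcases Nat.eq_zero_or_pos i with h0 | h0
            · subst h0
              exact ⟨0, Nat.zero_le _, hz.symm⟩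
            · obtain ⟨k, rfl⟩ := Nat.exists_eq_succ_of_ne_zero h0.ne'
              have hk : ¬ Even k := by
                intro hk
                exact (Nat.even_add_one.1 he) hk
              exact ⟨k, by omega, (dihSeq_a_even ha hk).symm⟩
          · rw [dihSeq_a_odd (a := a) (b := b) (z := z) he]
            rcases lt_or_eq_of_le hi with h1 | h1
            · exact ⟨i + 1, h1, rfl⟩
            · subst h1
              exact ⟨i, le_rfl, hn1.symm⟩
        · by_cases he : Even i
          · rw [dihSeq_b_even (a := a) (b := b) (z := z) he]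
            rcases lt_or_eq_of_le hi with h1 | h1
            · exact ⟨i + 1, h1, rfl⟩
            · subst h1
              exact ⟨i, le_rfl, hn1.symm⟩
          · rcases Nat.eq_zero_or_pos i with h0 | h0
            · subst h0
              exact absurd (by decide : Even 0) he
            · obtain ⟨k, rfl⟩ := Nat.exists_eq_succ_of_ne_zero h0.ne'
              have hk : Even k := by
                by_contra hk
                exact he (Nat.even_add_one.2 hk)
              exact ⟨k, by omega, (dihSeq_b_odd hb hk).symm⟩
        · exact ⟨i, hi, rfl⟩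
    · rintro ⟨i, hi, rfl⟩
      clear hi
      induction i with
      | zero => exact Relation.ReflTransGen.refl
      | succ i ih =>
        refine ih.tail ?_
        by_cases he : Even i
        · exact Or.inr (Or.inl (dihSeq_b_even he).symm)
        · exact Or.inl (dihSeq_a_odd he).symm

/-- The orbit of a fixed point `z` of `a` contains at most one other point fixed by `a` or `b`. -/
theorem dih (a b : V → V) (ha : ∀ v, a (a v) = v) (hb : ∀ v, b (b v) = v) (z : V)
    (hz : a z = z) : ∃ e, ∀ v, Orb a b id z v → (a v = v ∨ b v = v) → v = z ∨ v = e := by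
  obtain ⟨n, g, h0, hs, hne, hlast, hinj, horb⟩ := dih_path a b ha hb z hz
  refine ⟨g n, fun v hv hfix => ?_⟩
  obtain ⟨i, hi, rfl⟩ := (horb v).1 hv
  rcases Nat.eq_zero_or_pos i with h1 | h1
  · left
    rw [h1, h0]
  · rcases lt_or_eq_of_le hi with h2 | h2
    · exfalso
      obtain ⟨k, rfl⟩ := Nat.exists_eq_succ_of_ne_zero h1.ne'
      have hk := hs k (by omega)
      have hk1 := hs (k + 1) h2
      have n1 := hne k (by omega)
      have n2 := hne (k + 1) h2
      by_cases he : Even k
      · have he1 : ¬ Even (k + 1) := fun h => (Nat.even_add_one.1 h) he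
        rw [if_pos he] at hk
        rw [if_neg he1] at hk1
        rcases hfix with h | h
        · exact n2 (hk1.trans h)
        · apply n1
          have := hb (g k)
          rw [← hk] at this
          exact h.symm.trans this
      · have he1 : Even (k + 1) := Nat.even_add_one.2 he
        rw [if_neg he] at hk
        rw [if_pos he1] at hk1
        rcases hfix with h | h
        · apply n1
          have := ha (g k)
          rw [← hk] at this
          exact h.symm.trans this
        · exact n2 (hk1.trans h)
    · right
      rw [h2]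

end Vale.Agent.P308Q
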