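import Vale.Agent.P308Q.Defs

/-!
# Elementary facts on `N` and `H`
-/

namespace Vale.Agent.P308Q

open Finset

variable {V : Type} [Fintype V] [DecidableEq V]

theorem NN_nonneg (E : Exps V) (U : Finset V) : 0 ≤ NN E U := by
  unfold NN
  refine Finset.sum_nonneg fun m _ => ?_
  by_cases h : holes m.1 = U
  · rw [if_pos h]
    exact (wt_pos E m.1).le
  · rw [if_neg h]

theorem HH_nonneg (E : Exps V) (U : Finset V) : 0 ≤ HH E U :=
  div_nonneg (NN_nonneg E U) (NN_nonneg E ∅)

theorem fzero_exists (h : Even (Fintype.card V)) :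
    ∃ m : V → V, (∀ v, m (m v) = v) ∧ ∀ v, m v ≠ v := by
  obtain ⟨r, hr⟩ := h
  have hc : Fintype.card V = Fintype.card (Fin r ⊕ Fin r) := by
    rw [Fintype.card_sum, Fintype.card_fin, hr]
  let e : V ≃ (Fin r ⊕ Fin r) := Fintype.equivOfCardEq hc
  refine ⟨fun v => e.symm (Sum.swap (e v)), fun v => ?_, fun v hv => ?_⟩
  · simp
  · have h1 : Sum.swap (e v) = e v := by
      have := congrArg e hv
      simpa using this
    rcases h2 : e v with x | x
    · rw [h2] at h1
      simp at h1
    · rw [h2] at h1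
      simp at h1

theorem NN_empty_pos (E : Exps V) (h : Even (Fintype.card V)) : 0 < NN E ∅ := by
  obtain ⟨m, hm, hf⟩ := fzero_exists h
  unfold NN
  refine Finset.sum_pos' (fun m _ => ?_) ⟨⟨m, hm⟩, Finset.mem_univ _, ?_⟩
  · by_cases h : holes m.1 = ∅
    · rw [if_pos h]
      exact (wt_pos E m.1).le
    · rw [if_neg h]
  · have h1 : holes m = ∅ := by
      ext v
      simp [hf v]
    rw [if_pos h1]
    exact wt_pos E m

theorem HH_empty (E : Exps V) (h : Even (Fintype.card V)) : HH E ∅ = 1 :=
  div_self (NN_empty_pos E h).ne'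

/-- `N(U) = H(U) N(∅)` -/
theorem NN_eq (E : Exps V) (h : Even (Fintype.card V)) (U : Finset V) :
    NN E U = HH E U * NN E ∅ :=
  (div_mul_cancel₀ _ (NN_empty_pos E h).ne').symm

/-- parity: there is no matching with an odd number of holes -/
theorem card_holes_even (h : Even (Fintype.card V)) {m : V → V} (hm : ∀ v, m (m v) = v) :
    Even (holes m).card := by
  have h1 : ∑ v ∈ univ.filter (fun v => m v ≠ v), (1 : ZMod 2) = 0 := by
    refine Finset.sum_involution (fun v _ => m v) ?_ ?_ ?_ ?_
    · intro a _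
      decide
    · intro a ha _
      exact (Finset.mem_filter.1 ha).2
    · intro a ha
      rw [Finset.mem_filter]
      refine ⟨Finset.mem_univ _, ?_⟩
      rw [hm]
      exact fun h2 => (Finset.mem_filter.1 ha).2 h2.symm
    · intro a _
      exact hm a
  rw [Finset.sum_const, nsmul_eq_mul, mul_one, ZMod.natCast_eq_zero_iff_even] at h1
  have h2 := Finset.card_filter_add_card_filter_not (s := (univ : Finset V)) (fun v => m v = v)
  have h3 : (holes m).card + (univ.filter fun v => m v ≠ v).card = Fintype.card V := h2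
  rw [← h3] at h
  exact (Nat.even_add.1 h).2 h1

theorem NN_odd (E : Exps V) (h : Even (Fintype.card V)) {U : Finset V} (hU : ¬ Even U.card) :
    NN E U = 0 := by
  unfold NN
  refine Finset.sum_eq_zero fun m _ => if_neg fun h1 => hU ?_
  rw [← h1]
  exact card_holes_even h m.2

theorem fzero_swap_invol {m : V → V} (hm : ∀ v, m (m v) = v) {u v : V} (hu : m u = u)
    (hv : m v = v) (x : V) :
    Equiv.swap u v (m (Equiv.swap u v (m x))) = x := by
  by_cases h1 : x = u
  · subst h1
    rw [hu, Equiv.swap_apply_left, hv, Equiv.swap_apply_right]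
  by_cases h2 : x = v
  · subst h2
    rw [hv, Equiv.swap_apply_right, hu, Equiv.swap_apply_left]
  have h3 : m x ≠ u := fun h => h1 (by rw [← hm x, h, hu])
  have h4 : m x ≠ v := fun h => h2 (by rw [← hm x, h, hv])
  rw [Equiv.swap_apply_of_ne_of_ne h3 h4, hm, Equiv.swap_apply_of_ne_of_ne h1 h2]

theorem fzero_swap_holes {m : V → V} (hm : ∀ v, m (m v) = v) {U : Finset V} {u v : V}
    (huv : u ≠ v) (hu : u ∉ U) (hv : v ∉ U) (h : holes m = insert u (insert v U)) :
    holes (fun x => Equiv.swap u v (m x)) = U := by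
  have hmu : m u = u := by
    rw [← mem_holes, h]
    exact Finset.mem_insert_self _ _
  have hmv : m v = v := by
    rw [← mem_holes, h]
    exact Finset.mem_insert_of_mem (Finset.mem_insert_self _ _)
  ext x
  rw [mem_holes]
  by_cases h1 : x = u
  · subst h1
    rw [hmu, Equiv.swap_apply_left]
    exact ⟨fun h5 => absurd h5.symm huv, fun h5 => absurd h5 hu⟩
  by_cases h2 : x = v
  · subst h2
    rw [hmv, Equiv.swap_apply_right]
    exact ⟨fun h5 => absurd h5 huv, fun h5 => absurd h5 hv⟩
  have h3 : m x ≠ u := fun h => h1 (by rw [← hm x, h, hmu])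
  have h4 : m x ≠ v := fun h => h2 (by rw [← hm x, h, hmv])
  rw [Equiv.swap_apply_of_ne_of_ne h3 h4, ← mem_holes, h, Finset.mem_insert, Finset.mem_insert]
  tauto

theorem fzero_swap_wt (E : Exps V) {m : V → V} (hm : ∀ v, m (m v) = v) {u v : V}
    (huv : u ≠ v) (hmu : m u = u) (hmv : m v = v) :
    wt E (fun x => Equiv.swap u v (m x)) = q2 ^ (2 * E.l u v) * wt E m := by
  unfold wt
  rw [← zpow_add₀ q2_pos.ne']
  congr 1
  have h1 : ∀ x, E.l x (Equiv.swap u v (m x)) = E.l x (m x) + (if x = u then E.l u v else 0)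
      + (if x = v then E.l u v else 0) := by
    intro x
    by_cases h1 : x = u
    · subst h1
      rw [hmu, Equiv.swap_apply_left, if_pos rfl, if_neg huv, E.diag]
      ring
    by_cases h2 : x = v
    · subst h2
      rw [hmv, Equiv.swap_apply_right, if_pos rfl, if_neg h1, E.diag, E.symm]
      ring
    have h3 : m x ≠ u := fun h => h1 (by rw [← hm x, h, hmu])
    have h4 : m x ≠ v := fun h => h2 (by rw [← hm x, h, hmv])
    rw [Equiv.swap_apply_of_ne_of_ne h3 h4, if_neg h1, if_neg h2]
    ring
  rw [Finset.sum_congr rfl fun x _ => h1 x, Finset.sum_add_distrib, Finset.sum_add_distrib,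
    Finset.sum_ite_eq' univ u (fun _ => E.l u v), Finset.sum_ite_eq' univ v (fun _ => E.l u v),
    if_pos (Finset.mem_univ _), if_pos (Finset.mem_univ _)]
  ring

/-- adding an edge between two holes -/
theorem NN_add_edge (E : Exps V) {U : Finset V} {u v : V} (huv : u ≠ v) (hu : u ∉ U)
    (hv : v ∉ U) : q2 ^ (2 * E.l u v) * NN E (insert u (insert v U)) ≤ NN E U := by
  classical
  unfold NN
  rw [← Finset.sum_filter, ← Finset.sum_filter, Finset.mul_sum]
  have hfix : ∀ m : Mat V, m ∈ univ.filter (fun m : Mat V => holes m.1 = insert u (insert v U)) →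
      m.1 u = u ∧ m.1 v = v := by
    intro m hm
    have h := (Finset.mem_filter.1 hm).2
    constructor
    · rw [← mem_holes, h]
      exact Finset.mem_insert_self _ _
    · rw [← mem_holes, h]
      exact Finset.mem_insert_of_mem (Finset.mem_insert_self _ _)
  let F : Mat V → Mat V := fun m => if h : m.1 u = u ∧ m.1 v = v then
    ⟨fun x => Equiv.swap u v (m.1 x), fzero_swap_invol m.2 h.1 h.2⟩ else m
  have hF : ∀ m : Mat V, m ∈ univ.filter (fun m : Mat V => holes m.1 = insert u (insert v U)) →
      (F m).1 = fun x => Equiv.swap u v (m.1 x) := by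
    intro m hm
    simp only [F]
    rw [dif_pos (hfix m hm)]
  calc ∑ m ∈ univ.filter (fun m : Mat V => holes m.1 = insert u (insert v U)),
        q2 ^ (2 * E.l u v) * wt E m.1
      = ∑ m ∈ univ.filter (fun m : Mat V => holes m.1 = insert u (insert v U)),
        wt E (F m).1 := by
        refine Finset.sum_congr rfl fun m hm => ?_
        rw [hF m hm, fzero_swap_wt E m.2 huv (hfix m hm).1 (hfix m hm).2]
    _ = ∑ m ∈ (univ.filter (fun m : Mat V => holes m.1 = insert u (insert v U))).image F,
        wt E m.1 := by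
        rw [Finset.sum_image]
        intro m hm m' hm' hmm
        have h1 := congrArg Subtype.val hmm
        rw [hF m hm, hF m' hm'] at h1
        refine Subtype.ext (funext fun x => ?_)
        exact (Equiv.swap u v).injective (congrFun h1 x)
    _ ≤ ∑ m ∈ univ.filter (fun m : Mat V => holes m.1 = U), wt E m.1 := by
        refine Finset.sum_le_sum_of_subset_of_nonneg ?_ fun m _ _ => (wt_pos E m.1).le
        intro m' hm'
        obtain ⟨m, hm, rfl⟩ := Finset.mem_image.1 hm'
        rw [Finset.mem_filter]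
        refine ⟨Finset.mem_univ _, ?_⟩
        rw [hF m hm]
        exact fzero_swap_holes m.2 huv hu hv (Finset.mem_filter.1 hm).2

theorem HH_add_edge (E : Exps V) {U : Finset V} {u v : V} (huv : u ≠ v) (hu : u ∉ U)
    (hv : v ∉ U) : q2 ^ (2 * E.l u v) * HH E (insert u (insert v U)) ≤ HH E U := by
  unfold HH
  rw [← mul_div_assoc]
  exact div_le_div_of_nonneg_right (NN_add_edge E huv hu hv) (NN_nonneg E ∅)

/-- The form that is used: if the exponent is at least `t`. -/
theorem HH_add_edge' (E : Exps V) {U : Finset V} {u v : V} (huv : u ≠ v) (hu : u ∉ U)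
    (hv : v ∉ U) {t : ℕ} (ht : (t : ℤ) ≤ E.l u v) :
    HH E (insert u (insert v U)) * q2 ^ (2 * t) ≤ HH E U := by
  refine le_trans ?_ (HH_add_edge E huv hu hv)
  rw [mul_comm]
  refine mul_le_mul_of_nonneg_right ?_ (HH_nonneg E _)
  rw [← zpow_natCast]
  refine zpow_le_zpow_right₀ one_le_q2 ?_
  push_cast
  linarith

end Vale.Agent.P308Q
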