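import Vale.Agent.P308Q.FlipSum
import Vale.Agent.P308Q.FZero
import Vale.Agent.P308Q.Dih

/-!
# The exchange inequality and the crude hole bound
-/

namespace Vale.Agent.P308Q

open Finset

variable {V : Type} [Fintype V] [DecidableEq V]


omit [DecidableEq V] in
theorem ftwo_end {m m' : V → V} (hm : ∀ v, m (m v) = v) (hm' : ∀ v, m' (m' v) = v) {x : V}
    (hx : m x = x) (h' : ∀ v, m' v ≠ v) : ∃ y, y ≠ x ∧ m y = y ∧ Orb m m' id x y := by
  obtain ⟨n, g, h0, -, -, h3, h4, h5⟩ := dih_path m m' hm hm' x hx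
  have hn : ¬ Even n := by
    intro hn
    rw [if_pos hn] at h3
    exact h' _ h3
  rw [if_neg hn] at h3
  refine ⟨g n, fun h => ?_, h3, (h5 _).2 ⟨n, le_rfl, rfl⟩⟩
  have h6 := h4 n 0 le_rfl (Nat.zero_le n) (by rw [h, h0])
  rw [h6] at hn
  exact hn (by simp)

open Classical in
theorem ftwo_sum (E : Exps V) {U : Finset V} {x y : V} (hx : x ∈ U) (hy : y ∈ U.erase x) :
    ∑ p ∈ ((univ : Finset (Mat V × Mat V)).filter
      (fun p => holes p.1.1 = U ∧ holes p.2.1 = ∅)).filter (fun p => Orb p.1.1 p.2.1 id x y),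
      wt E p.1.1 * wt E p.2.1 ≤ NN E ((U.erase x).erase y) * NN E {x, y} := by
  have key : ∀ p ∈ ((univ : Finset (Mat V × Mat V)).filter
      (fun p => holes p.1.1 = U ∧ holes p.2.1 = ∅)).filter (fun p => Orb p.1.1 p.2.1 id x y),
      ∀ v, v ∈ U → (Orb p.1.1 p.2.1 id x v ↔ v = x ∨ v = y) := by
    intro p hp v hv
    simp only [mem_filter, mem_univ, true_and] at hp
    obtain ⟨⟨hU, hE⟩, ho⟩ := hp
    have hfix : ∀ u, u ∈ U → p.1.1 u = u := fun u hu => by
      rw [← hU] at hu
      exact mem_holes.1 hu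
    constructor
    · intro h
      obtain ⟨e, he⟩ := dih p.1.1 p.2.1 p.1.2 p.2.2 x (hfix x hx)
      have h1 := he v h (Or.inl (hfix v hv))
      have h2 := he y ho (Or.inl (hfix y (mem_of_mem_erase hy)))
      rcases h1 with h1 | h1
      · exact Or.inl h1
      · rcases h2 with h2 | h2
        · exact absurd h2 (ne_of_mem_erase hy)
        · exact Or.inr (h1.trans h2.symm)
    · rintro (rfl | rfl)
      · exact orb_refl _ _ _ _
      · exact ho
  refine flip_sum E _ (fun a b => {v | Orb a b id x v}) (fun p _ v hv => orb_closed_a hv)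
    (fun p _ v hv => orb_closed_b hv) (fun p _ => ?_) _ _ (fun p hp => ?_) (fun p hp => ?_)
  · ext v
    exact orb_glue _ _ _ _ _ _
  · have hk := key p hp
    simp only [mem_filter, mem_univ, true_and] at hp
    obtain ⟨⟨hU, hE⟩, ho⟩ := hp
    ext v
    rw [mem_holes_glue, hU, hE, mem_erase, mem_erase]
    simp only [Set.mem_ofPred_eq, notMem_empty, and_false, or_false]
    constructor
    · rintro ⟨h1, h2⟩
      rw [hk v h2] at h1
      push Not at h1
      exact ⟨h1.2, h1.1, h2⟩
    · rintro ⟨h1, h2, h3⟩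
      refine ⟨fun h => ?_, h3⟩
      rcases (hk v h3).1 h with h | h
      · exact h2 h
      · exact h1 h
  · have hk := key p hp
    simp only [mem_filter, mem_univ, true_and] at hp
    obtain ⟨⟨hU, hE⟩, ho⟩ := hp
    ext v
    rw [mem_holes_glue, hU, hE]
    simp only [Set.mem_ofPred_eq, notMem_empty, and_false, false_or, mem_insert, mem_singleton]
    constructor
    · rintro ⟨h1, h2⟩
      exact (hk v h2).1 h1
    · intro h
      have hv : v ∈ U := by
        rcases h with rfl | rfl
        · exact hx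
        · exact mem_of_mem_erase hy
      exact ⟨(hk v hv).2 h, hv⟩

/-- **Exchange.** `N(U) N(∅) ≤ ∑_{y ∈ U ∖ x} N(xy) N(U ∖ x ∖ y)`. -/
theorem exchange (E : Exps V) (h : Even (Fintype.card V)) {U : Finset V} {x : V} (hx : x ∈ U) :
    HH E U ≤ ∑ y ∈ U.erase x, HH E {x, y} * HH E ((U.erase x).erase y) := by
  classical
  have h0 := NN_empty_pos E h
  have h1 : NN E U * NN E ∅ ≤ ∑ y ∈ U.erase x, NN E ((U.erase x).erase y) * NN E {x, y} := by
    rw [NN_mul]
    have h2 : ∀ p ∈ (univ : Finset (Mat V × Mat V)).filter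
        (fun p => holes p.1.1 = U ∧ holes p.2.1 = ∅), wt E p.1.1 * wt E p.2.1 ≤
        ∑ y ∈ U.erase x, if Orb p.1.1 p.2.1 id x y then wt E p.1.1 * wt E p.2.1 else 0 := by
      intro p hp
      simp only [mem_filter, mem_univ, true_and] at hp
      obtain ⟨hU, hE⟩ := hp
      have hfix : p.1.1 x = x := by
        rw [← hU] at hx
        exact mem_holes.1 hx
      obtain ⟨y, hy1, hy2, hy3⟩ := ftwo_end p.1.2 p.2.2 hfix (fun v hv => by
        have h3 : v ∈ holes p.2.1 := mem_holes.2 hv
        rw [hE] at h3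
        exact notMem_empty _ h3)
      have hyU : y ∈ U.erase x := mem_erase.2 ⟨hy1, by rw [← hU]; exact mem_holes.2 hy2⟩
      have hnn : 0 ≤ wt E p.1.1 * wt E p.2.1 := (mul_pos (wt_pos _ _) (wt_pos _ _)).le
      refine le_trans ?_ (single_le_sum (f := fun y => if Orb p.1.1 p.2.1 id x y then
        wt E p.1.1 * wt E p.2.1 else 0) (fun y _ => by split_ifs <;> simp [hnn]) hyU)
      simp only [if_pos hy3]
      exact le_rfl
    refine (sum_le_sum h2).trans ?_
    rw [sum_comm]
    refine sum_le_sum fun y hy => ?_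
    rw [← sum_filter]
    exact ftwo_sum E hx hy
  have h3 : HH E U = NN E U * NN E ∅ / (NN E ∅ * NN E ∅) := by
    unfold HH
    field_simp
  rw [h3, div_le_iff₀ (by positivity)]
  refine h1.trans (le_of_eq ?_)
  rw [sum_mul]
  refine sum_congr rfl fun y _ => ?_
  unfold HH
  field_simp

/-- `H(U) ≤ R^{|U|}` -/
theorem HH_le_pow (E : Exps V) {R : ℝ} (hR : RBd E R) (U : Finset V) : HH E U ≤ R ^ U.card := by
  have hR2 := hR.two
  have hR0 : 0 < R := by linarith
  induction hn : U.card using Nat.strong_induction_on generalizing U with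
  | _ n ih =>
    rcases U.eq_empty_or_nonempty with rfl | ⟨x, hx⟩
    · rw [HH_empty E hR.even, ← hn]
      simp
    · refine (exchange E hR.even hx).trans ?_
      have hcard : ∀ y ∈ U.erase x, ((U.erase x).erase y).card + 2 = n := by
        intro y hy
        have h1 := card_erase_add_one hy
        have h2 := card_erase_add_one hx
        omega
      by_cases hn1 : n ≤ 1
      · have h1 : U.erase x = ∅ := by
          rw [eq_empty_iff_forall_notMem]
          intro y hy
          have := hcard y hy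
          omega
        rw [h1, sum_empty]
        positivity
      · have h2 : ∑ y ∈ U.erase x, HH E {x, y} * HH E ((U.erase x).erase y) ≤
            ∑ y ∈ U.erase x, HH E {x, y} * R ^ (n - 2) := by
          refine sum_le_sum fun y hy => ?_
          have h3 := hcard y hy
          have h4 := ih ((U.erase x).erase y).card (by omega) _ rfl
          have h5 : ((U.erase x).erase y).card = n - 2 := by omega
          rw [h5] at h4
          exact mul_le_mul_of_nonneg_left h4 (HH_nonneg E _)
        refine h2.trans ?_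
        rw [← sum_mul]
        have h3 : ∑ y ∈ U.erase x, HH E {x, y} ≤ R := by
          refine le_trans ?_ (hR.up x)
          unfold rr
          exact sum_le_sum_of_subset_of_nonneg (erase_subset_erase _ (subset_univ _))
            (fun y _ _ => HH_nonneg E _)
        calc (∑ y ∈ U.erase x, HH E {x, y}) * R ^ (n - 2) ≤ R * R ^ (n - 2) := by gcongr
          _ = R ^ (n - 2 + 1) := by rw [pow_succ]; ring
          _ ≤ R ^ n := pow_le_pow_right₀ (by linarith) (by omega)

/-- `H(uv) ≤ R` -/
theorem HH_pair_le (E : Exps V) {R : ℝ} (hR : RBd E R) {u v : V} (h : u ≠ v) :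
    HH E {u, v} ≤ R := by
  refine le_trans ?_ (hR.up u)
  unfold rr
  exact single_le_sum (f := fun v => HH E {u, v}) (fun y _ => HH_nonneg E _)
    (mem_erase.2 ⟨h.symm, mem_univ v⟩)

end Vale.Agent.P308Q
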