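import Vale.Agent.P308Q.Defs

/-!
# Similarity
-/

namespace Vale.Agent.P308Q

open Finset

variable {V : Type} [Fintype V] [DecidableEq V]

theorem GG_anti (E : Exps V) {s t : ℕ} (h : s ≤ t) : GG E t ≤ GG E s := by
  intro u v huv
  have h1 : u ≠ v ∧ (t : ℤ) ≤ E.l u v := huv
  exact ⟨h1.1, le_trans (by exact_mod_cast h) h1.2⟩

theorem sim_self (E : Exps V) (L : ℕ) (x : V) : sim E L x x = 0 := by
  simp [sim]

theorem sim_symm (E : Exps V) (L : ℕ) (x y : V) : sim E L x y = sim E L y x := by
  classical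
  unfold sim
  by_cases h : x = y
  · rw [if_pos h, if_pos h.symm]
  · rw [if_neg h, if_neg (fun e => h e.symm)]
    refine congrArg Finset.card (Finset.filter_congr fun t _ => ?_)
    exact ⟨fun a => a.symm, fun a => a.symm⟩

theorem sim_le (E : Exps V) (L : ℕ) (x y : V) : sim E L x y ≤ L := by
  classical
  unfold sim
  split_ifs
  · exact Nat.zero_le L
  · refine (Finset.card_filter_le _ _).trans ?_
    simp

/-- for `t ≥ 1` and distinct points, `t ≤ s(x, y)` means that `x, y` are connected at level `t` -/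
theorem le_sim_iff (E : Exps V) (L : ℕ) {x y : V} (h : x ≠ y) {t : ℕ} (ht : 1 ≤ t) :
    t ≤ sim E L x y ↔ t ≤ L ∧ (GG E t).Reachable x y := by
  classical
  unfold sim
  rw [if_neg h]
  constructor
  · intro hc
    by_contra hn
    have hsub : ((Finset.Icc 1 L).filter fun t => (GG E t).Reachable x y) ⊆ Finset.Icc 1 (t - 1) := by
      intro s hs
      rw [Finset.mem_filter, Finset.mem_Icc] at hs
      rw [Finset.mem_Icc]
      refine ⟨hs.1.1, ?_⟩
      by_contra hst
      have hts : t ≤ s := by omega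
      exact hn ⟨le_trans hts hs.1.2, hs.2.mono (GG_anti E hts)⟩
    have h1 := Finset.card_le_card hsub
    rw [Nat.card_Icc] at h1
    omega
  · rintro ⟨htL, hr⟩
    have hsub : Finset.Icc 1 t ⊆ ((Finset.Icc 1 L).filter fun t => (GG E t).Reachable x y) := by
      intro s hs
      rw [Finset.mem_Icc] at hs
      rw [Finset.mem_filter, Finset.mem_Icc]
      exact ⟨⟨hs.1, le_trans hs.2 htL⟩, hr.mono (GG_anti E hs.2)⟩
    have h1 := Finset.card_le_card hsub
    rw [Nat.card_Icc] at h1
    omega

/-- the similarity as a sum over the thresholds -/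
theorem sim_eq_sum (E : Exps V) (L : ℕ) (x y : V) :
    sim E L x y = ∑ t ∈ Icc 1 L, if t ≤ sim E L x y then 1 else 0 := by
  have hle := sim_le E L x y
  generalize sim E L x y = s at hle ⊢
  rw [Finset.sum_boole]
  have e : ((Icc 1 L).filter fun t => t ≤ s) = Icc 1 s := by
    ext t
    rw [Finset.mem_filter, Finset.mem_Icc, Finset.mem_Icc]
    omega
  rw [e, Nat.card_Icc]
  simp

theorem sim_ultra (E : Exps V) (L : ℕ) {x y z : V} (h : x ≠ z) :
    x = y ∨ y = z ∨ min (sim E L x y) (sim E L y z) ≤ sim E L x z := by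
  by_cases hxy : x = y
  · exact Or.inl hxy
  by_cases hyz : y = z
  · exact Or.inr (Or.inl hyz)
  refine Or.inr (Or.inr ?_)
  rcases Nat.eq_zero_or_pos (min (sim E L x y) (sim E L y z)) with h0 | h0
  · rw [h0]
    exact Nat.zero_le _
  · have h1 := (le_sim_iff E L hxy h0).1 (min_le_left _ _)
    have h2 := (le_sim_iff E L hyz h0).1 (min_le_right _ _)
    exact (le_sim_iff E L h h0).2 ⟨h1.1, h1.2.trans h2.2⟩

/-- the exponent is at most the similarity -/
theorem l_le_sim (E : Exps V) (L : ℕ) (hL : ∀ u v, E.l u v ≤ L) (x y : V) :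
    E.l x y ≤ sim E L x y := by
  by_cases h : x = y
  · subst h
    rw [E.diag, sim_self]
    simp
  · rcases le_or_gt (E.l x y) 0 with h0 | h0
    · exact le_trans h0 (by positivity)
    · obtain ⟨t, ht⟩ := Int.eq_ofNat_of_zero_le h0.le
      have ht1 : 1 ≤ t := by
        have : (0 : ℤ) < (t : ℤ) := by rw [← ht]; exact h0
        omega
      have hLt : t ≤ L := by
        have := hL x y
        rw [ht] at this
        exact_mod_cast this
      have hr : (GG E t).Reachable x y := by
        refine SimpleGraph.Adj.reachable ?_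
        exact ⟨h, le_of_eq ht.symm⟩
      have := (le_sim_iff E L h ht1).2 ⟨hLt, hr⟩
      rw [ht]
      exact_mod_cast this

/-- for `t ≥ 1` and `t ≤ L`: same component iff equal or similarity at least `t` -/
theorem cmp_eq_iff (E : Exps V) (L : ℕ) {t : ℕ} (ht : 1 ≤ t) (htL : t ≤ L) (x y : V) :
    cmp E t x = cmp E t y ↔ x = y ∨ t ≤ sim E L x y := by
  unfold cmp
  rw [SimpleGraph.ConnectedComponent.eq]
  by_cases h : x = y
  · subst h
    simp
  · rw [le_sim_iff E L h ht]
    constructor
    · intro hr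
      exact Or.inr ⟨htL, hr⟩
    · rintro (h1 | h1)
      · exact absurd h1 h
      · exact h1.2

/-- If `x, y` are connected at level `t` and `x, y ∈ U`, then some `u ∈ U`, `u ≠ x` is reached from
`x` by a path at level `t` whose interior avoids `U`; its length is less than `|V|`. -/
theorem exists_first (E : Exps V) {t : ℕ} {U : Finset V} {x y : V} (hxy : x ≠ y)
    (hy : y ∈ U) (h : (GG E t).Reachable x y) :
    ∃ (n : ℕ) (g : ℕ → V), 1 ≤ n ∧ n < Fintype.card V ∧ g 0 = x ∧ g n ∈ U ∧ g n ≠ x ∧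
      (∀ i, 0 < i → i < n → g i ∉ U) ∧ (∀ i, 0 < i → i ≤ n → g i ≠ x) ∧
      (∀ i < n, (t : ℤ) ≤ E.l (g i) (g (i + 1))) ∧ (∀ i < n, g i ≠ g (i + 1)) := by
  classical
  obtain ⟨p, hp⟩ := h.exists_isPath
  have hlen : 1 ≤ p.length := by
    rcases Nat.eq_zero_or_pos p.length with h0 | h0
    · exact absurd (SimpleGraph.Walk.eq_of_length_eq_zero h0) hxy
    · exact h0
  have hex : ∃ i, 1 ≤ i ∧ p.getVert i ∈ U := ⟨p.length, hlen, by
    rw [SimpleGraph.Walk.getVert_length]
    exact hy⟩
  have hn := Nat.find_spec hex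
  have hle : Nat.find hex ≤ p.length := Nat.find_min' hex ⟨hlen, by
    rw [SimpleGraph.Walk.getVert_length]
    exact hy⟩
  have hne : ∀ i, 0 < i → i ≤ p.length → p.getVert i ≠ x := by
    intro i hi hil he
    have h0 : p.getVert i = p.getVert 0 := by
      rw [he, SimpleGraph.Walk.getVert_zero]
    have := hp.getVert_injOn (Set.mem_ofPred.2 hil) (Set.mem_ofPred.2 (Nat.zero_le _)) h0
    omega
  have hadj : ∀ i < Nat.find hex, (GG E t).Adj (p.getVert i) (p.getVert (i + 1)) := fun i hi =>
    p.adj_getVert_succ (lt_of_lt_of_le hi hle)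
  refine ⟨Nat.find hex, p.getVert, hn.1, lt_of_le_of_lt hle hp.length_lt,
    SimpleGraph.Walk.getVert_zero p, hn.2, hne _ hn.1 hle, ?_, ?_, ?_, ?_⟩
  · intro i hi hin hU
    exact Nat.find_min hex hin ⟨hi, hU⟩
  · intro i hi hin
    exact hne i hi (le_trans hin hle)
  · intro i hi
    exact (hadj i hi).2
  · intro i hi
    exact (hadj i hi).1

end Vale.Agent.P308Q
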