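import Vale.Agent.P308Q.Defs
import Vale.Agent.P308Q.FZero
import Vale.Agent.P308Q.FTwo
import Vale.Agent.P308Q.SimB

/-!
# The hole bound: base case and the bounds for products
-/

namespace Vale.Agent.P308Q

open Finset

variable {V : Type} [Fintype V] [DecidableEq V]

theorem ckbase_even_mv {c : V → V} (hc : ∀ v, c (c v) = v) : 2 ∣ (mv c).card := by
  have hinv : Function.Involutive c := hc
  have h := Equiv.Perm.two_dvd_card_support (σ := hinv.toPerm) (by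
    ext v
    simp [pow_two, hinv.coe_toPerm, hc v])
  have e : hinv.toPerm.support = mv c := by
    ext v
    rw [Equiv.Perm.mem_support, mem_mv, hinv.coe_toPerm]
  rwa [e] at h

/-- the hole bound is vacuous or trivial if there are no pairs -/
theorem CK_zero (E : Exps V) (L : ℕ) {R : ℝ} (hR : RBd E R) (K : ℕ) : CK E L R K 0 := by
  intro U c _ _ _ hmv
  have hmv0 : mv c = ∅ := by
    rw [← Finset.card_eq_zero]
    omega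
  have hfix : ∀ v, c v = v := by
    intro v
    by_contra hv
    have : v ∈ mv c := mem_mv.2 hv
    rw [hmv0] at this
    exact absurd this (Finset.notMem_empty v)
  have hSS : SS E L c = 0 := by
    unfold SS
    refine Finset.sum_eq_zero fun v _ => ?_
    rw [hfix v, sim_self]
  rw [hSS, pow_zero, mul_one]
  have e : U.card + (2 * K + 11) * 0 ^ 2 = U.card := by ring
  rw [e]
  exact HH_le_pow E hR U

theorem ckbase_two (E : Exps V) (L : ℕ) {R : ℝ} (hR : RBd E R) (K j₁ j₂ e : ℕ)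
    (I1 : CK E L R K j₁) (I2 : CK E L R K j₂) {U₁ U₂ : Finset V} (h1 : U₁.card ≤ 2 * K)
    (h2 : U₂.card ≤ 2 * K) (c₁ c₂ : V → V) (hc₁ : ∀ v, c₁ (c₁ v) = v) (hc₂ : ∀ v, c₂ (c₂ v) = v)
    (hs₁ : ∀ v, c₁ v ≠ v → v ∈ U₁) (hs₂ : ∀ v, c₂ v ≠ v → v ∈ U₂)
    (hj₁ : (mv c₁).card ≤ 2 * j₁) (hj₂ : (mv c₂).card ≤ 2 * j₂) (he : j₁ ^ 2 + j₂ ^ 2 ≤ e) :
    HH E U₁ * HH E U₂ * q2 ^ (SS E L c₁ + SS E L c₂) ≤
      R ^ (U₁.card + U₂.card + (2 * K + 11) * e) := by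
  have hR1 : (1 : ℝ) ≤ R := by
    have := hR.two
    linarith
  have a1 := I1 U₁ c₁ h1 hc₁ hs₁ hj₁
  have a2 := I2 U₂ c₂ h2 hc₂ hs₂ hj₂
  have n2 : 0 ≤ HH E U₂ * q2 ^ (SS E L c₂) :=
    mul_nonneg (HH_nonneg E U₂) (pow_nonneg q2_pos.le _)
  have hm := mul_le_mul a1 a2 n2 (by positivity)
  calc HH E U₁ * HH E U₂ * q2 ^ (SS E L c₁ + SS E L c₂)
      = (HH E U₁ * q2 ^ (SS E L c₁)) * (HH E U₂ * q2 ^ (SS E L c₂)) := by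
        rw [pow_add]
        ring
    _ ≤ R ^ (U₁.card + (2 * K + 11) * j₁ ^ 2) * R ^ (U₂.card + (2 * K + 11) * j₂ ^ 2) := hm
    _ = R ^ (U₁.card + U₂.card + (2 * K + 11) * (j₁ ^ 2 + j₂ ^ 2)) := by
        rw [← pow_add]
        congr 1
        ring
    _ ≤ R ^ (U₁.card + U₂.card + (2 * K + 11) * e) := by
        refine pow_le_pow_right₀ hR1 ?_
        exact Nat.add_le_add_left (Nat.mul_le_mul_left _ he) _

/-- Combination for two sets of holes, `j₁ + j₂ < j` pairs (no gain needed). -/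
theorem CK_prod (E : Exps V) (L : ℕ) {R : ℝ} (hR : RBd E R) (K j : ℕ) (hj : 1 ≤ j)
    (IH : ∀ j' < j, CK E L R K j') {U₁ U₂ : Finset V} (h1 : U₁.card ≤ 2 * K)
    (h2 : U₂.card ≤ 2 * K) (c₁ c₂ : V → V) (hc₁ : ∀ v, c₁ (c₁ v) = v) (hc₂ : ∀ v, c₂ (c₂ v) = v)
    (hs₁ : ∀ v, c₁ v ≠ v → v ∈ U₁) (hs₂ : ∀ v, c₂ v ≠ v → v ∈ U₂)
    (hcard : (mv c₁).card + (mv c₂).card ≤ 2 * (j - 1)) :
    HH E U₁ * HH E U₂ * q2 ^ (SS E L c₁ + SS E L c₂) ≤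
      R ^ (U₁.card + U₂.card + (2 * K + 11) * (j - 1) ^ 2) := by
  obtain ⟨j₁, hj₁⟩ := ckbase_even_mv hc₁
  obtain ⟨j₂, hj₂⟩ := ckbase_even_mv hc₂
  have hsum : j₁ + j₂ ≤ j - 1 := by omega
  refine ckbase_two E L hR K j₁ j₂ _ (IH j₁ (by omega)) (IH j₂ (by omega)) h1 h2 c₁ c₂ hc₁ hc₂
    hs₁ hs₂ hj₁.le hj₂.le ?_
  calc j₁ ^ 2 + j₂ ^ 2 ≤ (j₁ + j₂) ^ 2 := by nlinarith [Nat.zero_le (j₁ * j₂)]
    _ ≤ (j - 1) ^ 2 := Nat.pow_le_pow_left hsum 2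

/-- Combination for two sets of holes, `j₁ + j₂ ≤ j` pairs with `j₁, j₂ ≥ 1`. -/
theorem CK_prod' (E : Exps V) (L : ℕ) {R : ℝ} (hR : RBd E R) (K j : ℕ)
    (IH : ∀ j' < j, CK E L R K j') {U₁ U₂ : Finset V} (h1 : U₁.card ≤ 2 * K)
    (h2 : U₂.card ≤ 2 * K) (c₁ c₂ : V → V) (hc₁ : ∀ v, c₁ (c₁ v) = v) (hc₂ : ∀ v, c₂ (c₂ v) = v)
    (hs₁ : ∀ v, c₁ v ≠ v → v ∈ U₁) (hs₂ : ∀ v, c₂ v ≠ v → v ∈ U₂)
    (hcard : (mv c₁).card + (mv c₂).card ≤ 2 * j) (hne₁ : (mv c₁).Nonempty)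
    (hne₂ : (mv c₂).Nonempty) :
    HH E U₁ * HH E U₂ * q2 ^ (SS E L c₁ + SS E L c₂) ≤
      R ^ (U₁.card + U₂.card + (2 * K + 11) * (j ^ 2 - 1)) := by
  obtain ⟨j₁, hj₁⟩ := ckbase_even_mv hc₁
  obtain ⟨j₂, hj₂⟩ := ckbase_even_mv hc₂
  have p1 : 1 ≤ (mv c₁).card := Finset.Nonempty.card_pos hne₁
  have p2 : 1 ≤ (mv c₂).card := Finset.Nonempty.card_pos hne₂
  have q1 : 1 ≤ j₁ := by omega
  have q2' : 1 ≤ j₂ := by omega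
  have hsum : j₁ + j₂ ≤ j := by omega
  refine ckbase_two E L hR K j₁ j₂ _ (IH j₁ (by omega)) (IH j₂ (by omega)) h1 h2 c₁ c₂ hc₁ hc₂
    hs₁ hs₂ hj₁.le hj₂.le ?_
  have h3 : j₁ ^ 2 + j₂ ^ 2 + 1 ≤ j ^ 2 := by
    calc j₁ ^ 2 + j₂ ^ 2 + 1 ≤ (j₁ + j₂) ^ 2 := by nlinarith [Nat.mul_le_mul q1 q2']
      _ ≤ j ^ 2 := Nat.pow_le_pow_left hsum 2
  omega

end Vale.Agent.P308Q
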