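import Vale.Agent.P308Q.GoodA

/-!
# The hole bound: the two cases, summed over the pairs of matchings
-/

namespace Vale.Agent.P308Q

open Finset

variable {V : Type} [Fintype V] [DecidableEq V]

open Classical in
/-- Case 1: `w` in the orbit of `z`. -/
theorem case_one (E : Exps V) {W : Finset V} {y w z p : V} (hyW : y ∉ W) (hzW : z ∉ W)
    (hwW : w ∉ W) (hzy : z ≠ y) (hwy : w ≠ y) (hwz : w ≠ z) (hpz : p ≠ z) (hpw : p ≠ w) :
    ∑ q ∈ (univ : Finset (Mat V × Mat V)).filter (fun q => holes q.1.1 = {p, z} ∧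
      holes q.2.1 = insert w (insert y W) ∧ Orb q.1.1 q.2.1 id z w),
      wt E q.1.1 * wt E q.2.1 ≤ NN E {p, w} * NN E (insert z (insert y W)) := by
  have key : ∀ q ∈ (univ : Finset (Mat V × Mat V)).filter (fun q => holes q.1.1 = {p, z} ∧
      holes q.2.1 = insert w (insert y W) ∧ Orb q.1.1 q.2.1 id z w),
      (∀ v, Orb q.1.1 q.2.1 id z v → (q.1.1 v = v ∨ q.2.1 v = v) → v = z ∨ v = w) ∧
        ¬ Orb q.1.1 q.2.1 id z p ∧ Orb q.1.1 q.2.1 id z w ∧ holes q.1.1 = {p, z} ∧
        holes q.2.1 = insert w (insert y W) := by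
    intro q hq
    obtain ⟨h1, h2, h3⟩ := (mem_filter.1 hq).2
    have hz : q.1.1 z = z := mem_holes.1 (by rw [h1]; simp)
    have hp : q.1.1 p = p := mem_holes.1 (by rw [h1]; simp)
    have hw : q.2.1 w = w := mem_holes.1 (by rw [h2]; simp)
    obtain ⟨e, he⟩ := dih q.1.1 q.2.1 q.1.2 q.2.2 z hz
    have hwe : w = e := (he w h3 (Or.inr hw)).resolve_left hwz
    subst hwe
    exact ⟨he, fun hpO => (he p hpO (Or.inl hp)).elim hpz hpw, h3, h1, h2⟩
  refine flip_sum E _ (fun m m' => {v | Orb m m' id z v}) ?_ ?_ ?_ _ _ ?_ ?_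
  · intro q _ v hv
    exact orb_closed_a hv
  · intro q _ v hv
    exact orb_closed_b hv
  · intro q _
    ext v
    exact orb_glue _ _ _ _ _ _
  · intro q hq
    obtain ⟨h0, hpO, h3, h1, h2⟩ := key q hq
    ext v
    rw [mem_holes_glue, h1, h2]
    simp only [Set.mem_ofPred_eq, mem_insert, mem_singleton]
    constructor
    · rintro (⟨hv, rfl | rfl⟩ | ⟨hv, hv2⟩)
      · exact Or.inl rfl
      · exact absurd (orb_refl _ _ _ _) hv
      · have hf : q.2.1 v = v := mem_holes.1 (by rw [h2]; simpa using hv2)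
        rcases h0 v hv (Or.inr hf) with rfl | rfl
        · rcases hv2 with h | h | h
          · exact absurd h.symm hwz
          · exact absurd h hzy
          · exact absurd h hzW
        · exact Or.inr rfl
    · rintro (rfl | rfl)
      · exact Or.inl ⟨hpO, Or.inl rfl⟩
      · exact Or.inr ⟨h3, Or.inl rfl⟩
  · intro q hq
    obtain ⟨h0, hpO, h3, h1, h2⟩ := key q hq
    ext v
    rw [mem_holes_glue]
    have hO : (v ∈ (fun m m' => {v | Orb m m' id z v}) q.1.1 q.2.1) ↔ Orb q.1.1 q.2.1 id z v :=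
      Iff.rfl
    rw [hO, h1, h2]
    simp only [mem_insert, mem_singleton]
    constructor
    · rintro (⟨hv, rfl | hv2⟩ | ⟨hv, rfl | rfl⟩)
      · exact absurd h3 hv
      · exact Or.inr hv2
      · exact absurd hv hpO
      · exact Or.inl rfl
    · rintro (rfl | hv2)
      · exact Or.inr ⟨orb_refl _ _ _ _, Or.inr rfl⟩
      · refine Or.inl ⟨fun hv => ?_, Or.inr hv2⟩
        have hf : q.2.1 v = v := mem_holes.1 (by
          rw [h2, mem_insert, mem_insert]
          exact Or.inr hv2)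
        rcases h0 v hv (Or.inr hf) with rfl | rfl
        · rcases hv2 with h | h
          · exact hzy h
          · exact hzW h
        · rcases hv2 with h | h
          · exact hwy h
          · exact hwW h

open Classical in
/-- the pairs whose exchange set meets the possible holes in `B` -/
theorem case2_part (E : Exps V) {L K j t : ℕ} {R : ℝ} (hR : RBd E R)
    (IH : ∀ j' < j, CK E L R K j') {W : Finset V} {y w z p : V} {c : V → V}
    (h : Loc E L K j t W y w z p c) (B : Finset V) (S : Finset (Mat V × Mat V))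
    (hS : ∀ q ∈ S, holes q.1.1 = {p, z} ∧ holes q.2.1 = insert w (insert y W) ∧
      ¬ Orb q.1.1 q.2.1 id z w)
    (hB : ∀ q ∈ S, ({p, z} ∪ insert w (insert y W)).filter
      (fun v => Orb q.1.1 q.2.1 (cut1 c p) z v) = B) :
    (∑ q ∈ S, wt E q.1.1 * wt E q.2.1) * q2 ^ (SS E L c + 2 * t) ≤
      R ^ (W.card + 4 + (2 * K + 11) * (j ^ 2 - 1)) * NN E ∅ ^ 2 := by
  have hR2 := hR.two
  have hR0 : 0 < R := by linarith
  have h0 := NN_empty_pos E hR.even
  rcases S.eq_empty_or_nonempty with rfl | ⟨q₀, hq₀⟩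
  · rw [sum_empty, zero_mul]
    positivity
  · set X := holes (glue q₀.1.1 q₀.2.1 {v | Orb q₀.1.1 q₀.2.1 (cut1 c p) z v}) with hX
    set Y := holes (glue q₀.2.1 q₀.1.1 {v | Orb q₀.1.1 q₀.2.1 (cut1 c p) z v}) with hY
    have hOB : ∀ q ∈ S, ∀ v ∈ ({p, z} ∪ insert w (insert y W) : Finset V),
        (Orb q.1.1 q.2.1 (cut1 c p) z v ↔ v ∈ B) := by
      intro q hq v hv
      rw [← hB q hq, mem_filter]
      exact ⟨fun h => ⟨hv, h⟩, fun h => h.2⟩
    have hcommon : ∀ q ∈ S, ∀ v : V,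
        ((v ∉ {v | Orb q.1.1 q.2.1 (cut1 c p) z v} ∧ v ∈ holes q.1.1) ∨
          (v ∈ {v | Orb q.1.1 q.2.1 (cut1 c p) z v} ∧ v ∈ holes q.2.1) ↔
        (v ∉ B ∧ v ∈ ({p, z} : Finset V)) ∨ (v ∈ B ∧ v ∈ insert w (insert y W))) ∧
        ((v ∉ {v | Orb q.1.1 q.2.1 (cut1 c p) z v} ∧ v ∈ holes q.2.1) ∨
          (v ∈ {v | Orb q.1.1 q.2.1 (cut1 c p) z v} ∧ v ∈ holes q.1.1) ↔
        (v ∉ B ∧ v ∈ insert w (insert y W)) ∨ (v ∈ B ∧ v ∈ ({p, z} : Finset V))) := by
      intro q hq v
      obtain ⟨h1, h2, -⟩ := hS q hq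
      rw [h1, h2]
      by_cases hv : v ∈ ({p, z} ∪ insert w (insert y W) : Finset V)
      · have h3 := hOB q hq v hv
        have h4 : v ∈ {v | Orb q.1.1 q.2.1 (cut1 c p) z v} ↔ v ∈ B := h3
        rw [h4]
        exact ⟨Iff.rfl, Iff.rfl⟩
      · rw [mem_union] at hv
        push Not at hv
        obtain ⟨h5, h6⟩ := hv
        simp only [h5, h6, and_false, or_false, and_self]
    have hXq : ∀ q ∈ S, holes (glue q.1.1 q.2.1 {v | Orb q.1.1 q.2.1 (cut1 c p) z v}) = X := by
      intro q hq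
      ext v
      rw [hX, mem_holes_glue, mem_holes_glue, (hcommon q hq v).1, (hcommon q₀ hq₀ v).1]
    have hYq : ∀ q ∈ S, holes (glue q.2.1 q.1.1 {v | Orb q.1.1 q.2.1 (cut1 c p) z v}) = Y := by
      intro q hq
      ext v
      rw [hY, mem_holes_glue, mem_holes_glue, (hcommon q hq v).2, (hcommon q₀ hq₀ v).2]
    have h1 := flip_sum E S (fun a b => {v | Orb a b (cut1 c p) z v})
      (fun q _ v hv => orb_closed_a hv) (fun q _ v hv => orb_closed_b hv)
      (fun q _ => by
        ext v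
        exact orb_glue _ _ _ _ _ _) X Y hXq hYq
    obtain ⟨g1, g2, g3⟩ := hS q₀ hq₀
    have h2 := good_a E hR IH h q₀.1.2 q₀.2.2 g1 g2 g3
    rw [← hX, ← hY] at h2
    rw [NN_eq E hR.even X, NN_eq E hR.even Y] at h1
    have hq : 0 < q2 ^ (SS E L c + 2 * t) := pow_pos q2_pos _
    calc (∑ q ∈ S, wt E q.1.1 * wt E q.2.1) * q2 ^ (SS E L c + 2 * t)
        ≤ (HH E X * NN E ∅ * (HH E Y * NN E ∅)) * q2 ^ (SS E L c + 2 * t) := by gcongr
      _ = (HH E X * HH E Y * q2 ^ (SS E L c + 2 * t)) * NN E ∅ ^ 2 := by ring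
      _ ≤ _ := by gcongr

open Classical in
/-- Case 2: `w` not in the orbit of `z`. -/
theorem case_two (E : Exps V) {L K j t : ℕ} {R : ℝ} (hR : RBd E R)
    (IH : ∀ j' < j, CK E L R K j') {W : Finset V} {y w z p : V} {c : V → V}
    (h : Loc E L K j t W y w z p c) :
    (∑ q ∈ (univ : Finset (Mat V × Mat V)).filter (fun q => holes q.1.1 = {p, z} ∧
      holes q.2.1 = insert w (insert y W) ∧ ¬ Orb q.1.1 q.2.1 id z w),
      wt E q.1.1 * wt E q.2.1) * q2 ^ (SS E L c + 2 * t) ≤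
      2 ^ (W.card + 4) * R ^ (W.card + 4 + (2 * K + 11) * (j ^ 2 - 1)) * NN E ∅ ^ 2 := by
  have hR2 := hR.two
  have hR0 : 0 < R := by linarith
  have h0 := NN_empty_pos E hR.even
  set F := (univ : Finset (Mat V × Mat V)).filter (fun q => holes q.1.1 = {p, z} ∧
      holes q.2.1 = insert w (insert y W) ∧ ¬ Orb q.1.1 q.2.1 id z w) with hF
  set T : Finset V := {p, z} ∪ insert w (insert y W) with hT
  have hTc : T.card ≤ W.card + 4 := by
    have h1 : ({p, z} : Finset V).card ≤ 2 := card_le_two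
    have h2 := card_insert_le w (insert y W)
    have h3 := card_insert_le y W
    have h4 := card_union_le ({p, z} : Finset V) (insert w (insert y W))
    rw [hT]
    omega
  have hsum : ∑ q ∈ F, wt E q.1.1 * wt E q.2.1 = ∑ B ∈ T.powerset,
      ∑ q ∈ F.filter (fun q => T.filter (fun v => Orb q.1.1 q.2.1 (cut1 c p) z v) = B),
        wt E q.1.1 * wt E q.2.1 := by
    symm
    exact sum_fiberwise_of_maps_to (fun q _ => mem_powerset.2 (filter_subset _ _)) _
  rw [hsum, sum_mul]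
  have h1 : ∀ B ∈ T.powerset,
      (∑ q ∈ F.filter (fun q => T.filter (fun v => Orb q.1.1 q.2.1 (cut1 c p) z v) = B),
        wt E q.1.1 * wt E q.2.1) * q2 ^ (SS E L c + 2 * t) ≤
      R ^ (W.card + 4 + (2 * K + 11) * (j ^ 2 - 1)) * NN E ∅ ^ 2 := by
    intro B _
    refine case2_part E hR IH h B _ (fun q hq => ?_) (fun q hq => ?_)
    · rw [mem_filter, hF, mem_filter] at hq
      exact hq.1.2
    · rw [mem_filter] at hq
      exact hq.2
  refine (sum_le_sum h1).trans ?_
  rw [sum_const, card_powerset, nsmul_eq_mul, mul_assoc]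
  refine mul_le_mul_of_nonneg_right ?_ (by positivity)
  push_cast
  exact pow_le_pow_right₀ (by norm_num) hTc

/-- One term of the local inequality. -/
theorem term_le (E : Exps V) {L K j t : ℕ} {R : ℝ} (hR : RBd E R)
    (IH : ∀ j' < j, CK E L R K j') {W : Finset V} {y w z p : V} {c : V → V}
    (h : Loc E L K j t W y w z p c) :
    HH E {z, p} * HH E (insert w (insert y W)) * q2 ^ (SS E L c + 2 * t) ≤
      HH E {w, p} * HH E (insert z (insert y W)) * q2 ^ (SS E L c + 2 * t) +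
      2 ^ (W.card + 4) * R ^ (W.card + 4 + (2 * K + 11) * (j ^ 2 - 1)) := by
  classical
  have h1 := case_one E h.hyW h.hzW h.hwW h.hzy h.hwy h.hwz h.hpz h.hpw
  have h2 := case_two E hR IH h
  have hZ := NN_empty_pos E hR.even
  have hQ : 0 ≤ q2 ^ (SS E L c + 2 * t) := pow_nonneg q2_pos.le _
  have h3 : NN E {z, p} * NN E (insert w (insert y W)) =
      ∑ q ∈ (univ : Finset (Mat V × Mat V)).filter (fun q => holes q.1.1 = {p, z} ∧
        holes q.2.1 = insert w (insert y W) ∧ Orb q.1.1 q.2.1 id z w),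
        wt E q.1.1 * wt E q.2.1 +
      ∑ q ∈ (univ : Finset (Mat V × Mat V)).filter (fun q => holes q.1.1 = {p, z} ∧
        holes q.2.1 = insert w (insert y W) ∧ ¬ Orb q.1.1 q.2.1 id z w),
        wt E q.1.1 * wt E q.2.1 := by
    rw [Finset.pair_comm z p, NN_mul, ← Finset.sum_filter_add_sum_filter_not _
      (fun q : Mat V × Mat V => Orb q.1.1 q.2.1 id z w), filter_filter, filter_filter]
    congr 1
    · refine sum_congr ?_ fun _ _ => rfl
      ext q
      simp only [mem_filter, and_assoc]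
    · refine sum_congr ?_ fun _ _ => rfl
      ext q
      simp only [mem_filter, and_assoc]
  unfold HH
  rw [Finset.pair_comm w p]
  generalize (∑ q ∈ (univ : Finset (Mat V × Mat V)).filter (fun q => holes q.1.1 = {p, z} ∧
        holes q.2.1 = insert w (insert y W) ∧ Orb q.1.1 q.2.1 id z w),
        wt E q.1.1 * wt E q.2.1) = A1 at h1 h3
  generalize (∑ q ∈ (univ : Finset (Mat V × Mat V)).filter (fun q => holes q.1.1 = {p, z} ∧
        holes q.2.1 = insert w (insert y W) ∧ ¬ Orb q.1.1 q.2.1 id z w),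
        wt E q.1.1 * wt E q.2.1) = A2 at h2 h3
  generalize 2 ^ (W.card + 4) * R ^ (W.card + 4 + (2 * K + 11) * (j ^ 2 - 1)) = B at h2 ⊢
  generalize q2 ^ (SS E L c + 2 * t) = Q at h2 hQ ⊢
  generalize NN E ∅ = Z at h2 hZ ⊢
  generalize NN E {z, p} = x1 at h3 ⊢
  generalize NN E (insert w (insert y W)) = x2 at h3 ⊢
  generalize NN E {p, w} = x3 at h1 ⊢
  generalize NN E (insert z (insert y W)) = x4 at h1 ⊢
  have h4 : x1 * x2 * Q ≤ x3 * x4 * Q + B * Z ^ 2 := by
    rw [h3, add_mul]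
    have := mul_le_mul_of_nonneg_right h1 hQ
    linarith
  have h5 : x1 / Z * (x2 / Z) * Q = x1 * x2 * Q / Z ^ 2 := by
    field_simp
  have h6 : x3 / Z * (x4 / Z) * Q + B = (x3 * x4 * Q + B * Z ^ 2) / Z ^ 2 := by
    field_simp
  rw [h5, h6]
  exact div_le_div_of_nonneg_right h4 (by positivity)

end Vale.Agent.P308Q
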