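import Vale.Agent.P308Q.Defs

/-!
# Exchanging two matchings on a closed set
-/

namespace Vale.Agent.P308Q

open Finset

variable {V : Type}

theorem glue_invol {m m' : V → V} (hm : ∀ v, m (m v) = v) (hm' : ∀ v, m' (m' v) = v) {O : Set V}
    (h : ∀ v ∈ O, m v ∈ O) (h' : ∀ v ∈ O, m' v ∈ O) (v : V) :
    glue m m' O (glue m m' O v) = v := by
  unfold glue
  by_cases hv : v ∈ O
  · rw [if_pos hv, if_pos (h' v hv), hm']
  · have h1 : m v ∉ O := fun h2 => hv (by have := h _ h2; rwa [hm] at this)
    rw [if_neg hv, if_neg h1, hm]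

theorem glue_glue (m m' : V → V) (O : Set V) : glue (glue m m' O) (glue m' m O) O = m := by
  funext v
  unfold glue
  by_cases hv : v ∈ O
  · simp only [if_pos hv]
  · simp only [if_neg hv]

theorem orb_closed_a {a b c : V → V} {z v : V} (h : Orb a b c z v) : Orb a b c z (a v) :=
  Relation.ReflTransGen.tail h (Or.inl rfl)

theorem orb_closed_b {a b c : V → V} {z v : V} (h : Orb a b c z v) : Orb a b c z (b v) :=
  Relation.ReflTransGen.tail h (Or.inr (Or.inl rfl))

theorem orb_closed_c {a b c : V → V} {z v : V} (h : Orb a b c z v) : Orb a b c z (c v) :=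
  Relation.ReflTransGen.tail h (Or.inr (Or.inr rfl))

theorem orb_refl (a b c : V → V) (z : V) : Orb a b c z z := Relation.ReflTransGen.refl

theorem orb_symm {a b c : V → V} (ha : ∀ v, a (a v) = v) (hb : ∀ v, b (b v) = v)
    (hc : ∀ v, c (c v) = v) {z v : V} (h : Orb a b c z v) : Orb a b c v z := by
  induction h with
  | refl => exact Relation.ReflTransGen.refl
  | tail _ hs ih =>
    refine Relation.ReflTransGen.head ?_ ih
    rcases hs with h1 | h1 | h1
    · exact Or.inl (by rw [h1, ha])
    · exact Or.inr (Or.inl (by rw [h1, hb]))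
    · exact Or.inr (Or.inr (by rw [h1, hc]))

theorem orb_trans {a b c : V → V} {x y z : V} (h : Orb a b c x y) (h' : Orb a b c y z) :
    Orb a b c x z := Relation.ReflTransGen.trans h h'

/-- A set containing `z` and closed under the three maps contains the orbit. -/
theorem orb_subset {a b c : V → V} {z : V} {O : Set V} (hz : z ∈ O) (ha : ∀ v ∈ O, a v ∈ O)
    (hb : ∀ v ∈ O, b v ∈ O) (hc : ∀ v ∈ O, c v ∈ O) {v : V} (h : Orb a b c z v) : v ∈ O := by
  induction h with
  | refl => exact hz
  | tail _ hs ih =>
    rcases hs with h1 | h1 | h1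
    · rw [h1]; exact ha _ ih
    · rw [h1]; exact hb _ ih
    · rw [h1]; exact hc _ ih

/-- The orbits do not change when the two matchings are exchanged on a set. -/
theorem orb_glue (m m' c : V → V) (O : Set V) (z v : V) :
    Orb (glue m m' O) (glue m' m O) c z v ↔ Orb m m' c z v := by
  have h1 : (fun x y => y = glue m m' O x ∨ y = glue m' m O x ∨ y = c x)
      = fun x y => y = m x ∨ y = m' x ∨ y = c x := by
    funext x y
    unfold glue
    by_cases hx : x ∈ O
    · simp only [if_pos hx]
      exact propext (by tauto)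
    · simp only [if_neg hx]
  unfold Orb
  rw [h1]

/-- If `c` moves only fixed points of `m'`, then the orbits of `m, m', c` are the orbits of `m` and
of the involution `m'`-or-`c`. -/
theorem orb_merge {m m' c : V → V} (hm' : ∀ v, m' (m' v) = v) (hc : ∀ v, c (c v) = v)
    (h : ∀ v, c v ≠ v → m' v = v) (z v : V) :
    Orb m m' c z v ↔ Orb m (m' ∘ c) id z v := by
  constructor
  · intro h1
    induction h1 with
    | refl => exact Relation.ReflTransGen.refl
    | @tail x y _ hs ih =>
      rcases hs with h2 | h2 | h2
      · exact ih.tail (Or.inl h2)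
      · by_cases h3 : c x = x
        · exact ih.tail (Or.inr (Or.inl (by rw [Function.comp_apply, h3, h2])))
        · rw [h x h3] at h2
          rw [h2]
          exact ih
      · by_cases h3 : c x = x
        · rw [h2, h3]
          exact ih
        · have h4 : c (c x) ≠ c x := by
            rw [hc]
            exact fun h5 => h3 h5.symm
          exact ih.tail (Or.inr (Or.inl (by rw [Function.comp_apply, h _ h4, h2])))
  · intro h1
    induction h1 with
    | refl => exact Relation.ReflTransGen.refl
    | @tail x y _ hs ih =>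
      rcases hs with h2 | h2 | h2
      · exact ih.tail (Or.inl h2)
      · rw [h2, Function.comp_apply]
        exact (ih.tail (Or.inr (Or.inr rfl))).tail (Or.inr (Or.inl rfl))
      · rw [h2]
        exact ih

theorem merge_invol {m' c : V → V} (hm' : ∀ v, m' (m' v) = v) (hc : ∀ v, c (c v) = v)
    (h : ∀ v, c v ≠ v → m' v = v) (v : V) : (m' ∘ c) ((m' ∘ c) v) = v := by
  simp only [Function.comp_apply]
  by_cases h3 : c v = v
  · rw [h3]
    have h4 : c (m' v) = m' v := by
      by_contra h5
      have h6 := h _ h5
      rw [hm'] at h6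
      exact h5 (by rw [← h6, h3])
    rw [h4, hm']
  · have h4 : c (c v) ≠ c v := by
      rw [hc]
      exact fun h5 => h3 h5.symm
    rw [h _ h4, hc, h _ h3]

theorem merge_fixed {m' c : V → V} (hm' : ∀ v, m' (m' v) = v) (hc : ∀ v, c (c v) = v)
    (h : ∀ v, c v ≠ v → m' v = v) (v : V) : (m' ∘ c) v = v ↔ m' v = v ∧ c v = v := by
  simp only [Function.comp_apply]
  constructor
  · intro h1
    by_cases h3 : c v = v
    · rw [h3] at h1
      exact ⟨h1, h3⟩
    · have h4 : c (c v) ≠ c v := by
        rw [hc]
        exact fun h5 => h3 h5.symm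
      rw [h _ h4] at h1
      exact absurd h1 h3
  · rintro ⟨h1, h2⟩
    rw [h2, h1]

variable [Fintype V] [DecidableEq V]

theorem wt_glue (E : Exps V) (m m' : V → V) (O : Set V) :
    wt E (glue m m' O) * wt E (glue m' m O) = wt E m * wt E m' := by
  unfold wt
  rw [← zpow_add₀ q2_pos.ne', ← zpow_add₀ q2_pos.ne', ← Finset.sum_add_distrib,
    ← Finset.sum_add_distrib]
  congr 1
  refine Finset.sum_congr rfl fun v _ => ?_
  unfold glue
  by_cases hv : v ∈ O
  · rw [if_pos hv, if_pos hv, add_comm]
  · rw [if_neg hv, if_neg hv]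

theorem mem_holes_glue {m m' : V → V} {O : Set V} {v : V} :
    v ∈ holes (glue m m' O) ↔ (v ∉ O ∧ v ∈ holes m) ∨ (v ∈ O ∧ v ∈ holes m') := by
  rw [mem_holes, mem_holes, mem_holes]
  unfold glue
  by_cases hv : v ∈ O
  · rw [if_pos hv]
    tauto
  · rw [if_neg hv]
    tauto

theorem card_holes_glue (m m' : V → V) (O : Set V) :
    (holes (glue m m' O)).card + (holes (glue m' m O)).card = (holes m).card + (holes m').card := by
  unfold holes
  rw [Finset.card_filter, Finset.card_filter, Finset.card_filter, Finset.card_filter,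
    ← Finset.sum_add_distrib, ← Finset.sum_add_distrib]
  refine Finset.sum_congr rfl fun v _ => ?_
  unfold glue
  by_cases hv : v ∈ O
  · simp only [if_pos hv]
    rw [add_comm]
  · simp only [if_neg hv]

end Vale.Agent.P308Q
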