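import Vale.Agent.P308Q.Dih
import Vale.Agent.P308Q.Flip

/-!
# The cycle through a vertex, cut at a lowest edge
-/

namespace Vale.Agent.P308Q

open Finset

variable {V : Type} [Fintype V] [DecidableEq V]

omit [Fintype V] [DecidableEq V] in
theorem cycidx_swap {a b : V → V} {z v : V} (h : Orb a b id z v) : Orb b a id z v :=
  orb_subset (O := {v | Orb b a id z v}) (orb_refl _ _ _ _) (fun _ hv => orb_closed_b hv)
    (fun _ hv => orb_closed_a hv) (fun _ hv => hv) h

/-- the cycle, started at an end of the closing edge -/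
theorem cycidx_aux (X Y : V → V) (hX : ∀ v, X (X v) = v) (hY : ∀ v, Y (Y v) = v)
    (hX0 : ∀ v, X v ≠ v) (hY0 : ∀ v, Y v ≠ v) (h : V → V → ℕ) (hh : ∀ u v, h u v = h v u) (p : V)
    (hmin : ∀ v, Orb X Y id p v → h p (X p) ≤ h v (X v) ∧ h p (X p) ≤ h v (Y v)) :
    ∃ (m : ℕ) (g : ℕ → V), 2 ≤ m ∧ Even m ∧ m ≤ Fintype.card V ∧
      (∀ i j, i < m → j < m → g i = g j → i = j) ∧
      (∀ i, i + 1 < m → g (i + 1) = if Even i then Y (g i) else X (g i)) ∧
      X (g 0) = g (m - 1) ∧
      (∀ v, Orb X Y id p v ↔ ∃ i < m, g i = v) ∧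
      (∀ i, i + 1 < m → h (g (m - 1)) (g 0) ≤ h (g i) (g (i + 1))) := by
  obtain ⟨X', hX'⟩ : ∃ X' : V → V, ∀ v, X' v = if v = p ∨ v = X p then v else X v :=
    ⟨fun v => if v = p ∨ v = X p then v else X v, fun _ => rfl⟩
  have hX'1 : ∀ v, v = p ∨ v = X p → X' v = v := fun v hv => by rw [hX', if_pos hv]
  have hX'2 : ∀ v, ¬ (v = p ∨ v = X p) → X' v = X v := fun v hv => by rw [hX', if_neg hv]
  have hout : ∀ v, ¬ (v = p ∨ v = X p) → ¬ (X v = p ∨ X v = X p) := by
    rintro v hv (h1 | h1)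
    · exact hv (Or.inr (by rw [← h1, hX]))
    · exact hv (Or.inl (by rw [← hX v, h1, hX]))
  have hX'X' : ∀ v, X' (X' v) = v := by
    intro v
    by_cases hv : v = p ∨ v = X p
    · rw [hX'1 v hv, hX'1 v hv]
    · rw [hX'2 v hv, hX'2 _ (hout v hv), hX]
  obtain ⟨n, g, g0, hs, _, hlast, hinj, horb⟩ :=
    dih_path X' Y hX'X' hY p (hX'1 p (Or.inl rfl))
  have hnodd : ¬ Even n := by
    intro he
    rw [if_pos he] at hlast
    exact hY0 _ hlast
  rw [if_neg hnodd] at hlast
  have hn1 : 1 ≤ n := by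
    rcases Nat.eq_zero_or_pos n with h0 | h0
    · rw [h0] at hnodd
      exact absurd Even.zero hnodd
    · exact h0
  have hgn : g n = X p := by
    by_contra hne
    by_cases hp : g n = p
    · have := hinj n 0 le_rfl (Nat.zero_le _) (by rw [hp, g0])
      omega
    · rw [hX'2 _ (fun hor => hor.elim hp hne)] at hlast
      exact hX0 _ hlast
  -- the orbits agree
  have hO : ∀ v, Orb X Y id p v ↔ Orb X' Y id p v := by
    intro v
    constructor
    · intro hv
      refine orb_subset (O := {v | Orb X' Y id p v}) (orb_refl _ _ _ _) ?_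
        (fun _ hu => orb_closed_b hu) (fun _ hu => hu) hv
      intro u hu
      by_cases hup : u = p ∨ u = X p
      · rcases hup with rfl | rfl
        · exact (horb _).2 ⟨n, le_rfl, hgn⟩
        · exact (horb _).2 ⟨0, Nat.zero_le _, by rw [g0, hX]⟩
      · have := orb_closed_a hu
        rwa [hX'2 u hup] at this
    · intro hv
      refine orb_subset (O := {v | Orb X Y id p v}) (orb_refl _ _ _ _) ?_
        (fun _ hu => orb_closed_b hu) (fun _ hu => hu) hv
      intro u hu
      by_cases hup : u = p ∨ u = X p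
      · rw [hX'1 u hup]
        exact hu
      · rw [hX'2 u hup]
        exact orb_closed_a hu
  have hstep : ∀ i, i < n → g (i + 1) = if Even i then Y (g i) else X (g i) := by
    intro i hi
    rw [hs i hi]
    split_ifs with he
    · rfl
    · apply hX'2
      rintro (h1 | h1)
      · have := hinj i 0 hi.le (Nat.zero_le _) (by rw [h1, g0])
        rw [this] at he
        exact he Even.zero
      · have := hinj i n hi.le le_rfl (by rw [h1, hgn])
        omega
  refine ⟨n + 1, g, by omega, ?_, ?_, ?_, ?_, ?_, ?_, ?_⟩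
  · rcases Nat.even_or_odd n with he | ho
    · exact absurd he hnodd
    · exact ho.add_one
  · have h1 : (Finset.range (n + 1)).card ≤ (univ : Finset V).card := by
      apply Finset.card_le_card_of_injOn g (fun _ _ => Finset.mem_coe.2 (mem_univ _))
      intro i hi j hj hij
      exact hinj i j (Nat.lt_succ_iff.1 (Finset.mem_range.1 (Finset.mem_coe.1 hi)))
        (Nat.lt_succ_iff.1 (Finset.mem_range.1 (Finset.mem_coe.1 hj))) hij
    rwa [Finset.card_range, Finset.card_univ] at h1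
  · intro i j hi hj hij
    exact hinj i j (by omega) (by omega) hij
  · intro i hi
    exact hstep i (by omega)
  · rw [Nat.add_sub_cancel, g0, hgn]
  · intro v
    rw [hO v, horb v]
    constructor
    · rintro ⟨i, hi, rfl⟩
      exact ⟨i, by omega, rfl⟩
    · rintro ⟨i, hi, rfl⟩
      exact ⟨i, by omega, rfl⟩
  · intro i hi
    rw [Nat.add_sub_cancel, g0, hgn, hh]
    have h1 : Orb X Y id p (g i) := (hO _).2 ((horb _).2 ⟨i, by omega, rfl⟩)
    rw [hstep i (by omega)]
    split_ifs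
    · exact (hmin _ h1).2
    · exact (hmin _ h1).1

/-- The orbit of `c` under two perfect matchings is a cycle `g 0, …, g (m - 1)`; the closing edge
`g (m - 1), g 0` (an `X`-edge) has the smallest height `h`. -/
theorem cyc_idx (I F : V → V) (hI : ∀ v, I (I v) = v) (hF : ∀ v, F (F v) = v)
    (hI0 : ∀ v, I v ≠ v) (hF0 : ∀ v, F v ≠ v) (h : V → V → ℕ) (hh : ∀ u v, h u v = h v u) (c : V) :
    ∃ (X Y : V → V) (m : ℕ) (g : ℕ → V), ((X = I ∧ Y = F) ∨ (X = F ∧ Y = I)) ∧ 2 ≤ m ∧ Even m ∧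
      m ≤ Fintype.card V ∧
      (∀ i j, i < m → j < m → g i = g j → i = j) ∧
      (∀ i, i + 1 < m → g (i + 1) = if Even i then Y (g i) else X (g i)) ∧
      X (g 0) = g (m - 1) ∧
      (∀ v, Orb I F id c v ↔ ∃ i < m, g i = v) ∧
      (∀ i, i + 1 < m → h (g (m - 1)) (g 0) ≤ h (g i) (g (i + 1))) := by
  classical
  have hne : ((univ : Finset (Bool × V)).filter fun t => Orb I F id c t.2).Nonempty :=
    ⟨(true, c), mem_filter.2 ⟨mem_univ _, orb_refl _ _ _ _⟩⟩
  obtain ⟨⟨b, p⟩, hbp, hmin⟩ := Finset.exists_min_image _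
    (fun t : Bool × V => h t.2 (if t.1 then I t.2 else F t.2)) hne
  have hp : Orb I F id c p := (mem_filter.1 hbp).2
  have hpc : Orb I F id p c := orb_symm hI hF (fun _ => rfl) hp
  have hcp : ∀ v, Orb I F id c v ↔ Orb I F id p v :=
    fun v => ⟨fun hv => orb_trans hpc hv, fun hv => orb_trans hp hv⟩
  have hminI : ∀ v, Orb I F id p v → h p (if b then I p else F p) ≤ h v (I v) := by
    intro v hv
    exact hmin (true, v) (mem_filter.2 ⟨mem_univ _, (hcp v).2 hv⟩)
  have hminF : ∀ v, Orb I F id p v → h p (if b then I p else F p) ≤ h v (F v) := by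
    intro v hv
    exact hmin (false, v) (mem_filter.2 ⟨mem_univ _, (hcp v).2 hv⟩)
  cases b with
  | true =>
    obtain ⟨m, g, h1, h2, h3, h4, h5, h6, h7, h8⟩ := cycidx_aux I F hI hF hI0 hF0 h hh p
      (fun v hv => ⟨hminI v hv, hminF v hv⟩)
    exact ⟨I, F, m, g, Or.inl ⟨rfl, rfl⟩, h1, h2, h3, h4, h5, h6,
      fun v => (hcp v).trans (h7 v), h8⟩
  | false =>
    obtain ⟨m, g, h1, h2, h3, h4, h5, h6, h7, h8⟩ := cycidx_aux F I hF hI hF0 hI0 h hh p
      (fun v hv => ⟨hminF v (cycidx_swap hv), hminI v (cycidx_swap hv)⟩)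
    exact ⟨F, I, m, g, Or.inr ⟨rfl, rfl⟩, h1, h2, h3, h4, h5, h6,
      fun v => (hcp v).trans (Iff.trans ⟨cycidx_swap, cycidx_swap⟩ (h7 v)), h8⟩

end Vale.Agent.P308Q
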