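import Mathlib

/-!
# The order in which a cycle is processed

Vertices are the integers of `[c, d)`, the edge `i ∈ [c, d]` joins `i - 1` and `i` (the edges `c`
and `d` are the boundary edges) and has height `h i`.
-/

namespace Vale.Agent.P308Q

/-- The condition on a set `S` of processed vertices and a set `D` of cut edges. -/
structure OCond (h : ℕ → ℕ) (c d : ℕ) (S : ℕ → Prop) (D : Finset ℕ) : Prop where
  sub : ∀ i ∈ D, c ≤ i ∧ i ≤ d
  trans : ∀ i, c < i → i < d → ¬ (S (i - 1) ↔ S i) → i ∈ D
  left : ¬ S c → c ∈ D
  right : ¬ S (d - 1) → d ∈ D
  block : ∀ a b, c ≤ a → a < b → b ≤ d → (∀ i, a < i → i < b → h a < h i ∧ h b < h i) →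
    (S a ↔ S (b - 1)) ∨ a ∈ D ∨ b ∈ D

/-- The conditions are kept when `D` grows. -/
theorem OCond.mono {h : ℕ → ℕ} {c d : ℕ} {S : ℕ → Prop} {D D' : Finset ℕ}
    (H : OCond h c d S D) (hD : D ⊆ D') (hs : ∀ i ∈ D', c ≤ i ∧ i ≤ d) : OCond h c d S D' where
  sub := hs
  trans i h1 h2 h3 := hD (H.trans i h1 h2 h3)
  left h1 := hD (H.left h1)
  right h1 := hD (H.right h1)
  block a b h1 h2 h3 h4 := by
    rcases H.block a b h1 h2 h3 h4 with h | h | h
    · exact Or.inl h
    · exact Or.inr (Or.inl (hD h))
    · exact Or.inr (Or.inr (hD h))

/-- The left part is being processed first. -/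
private theorem ORD_small_left {h : ℕ → ℕ} {c k d : ℕ} (hck : c < k) (hkd : k < d)
    (hmin : ∀ i, c < i → i < d → h k ≤ h i) {S SL : ℕ → Prop} {DL : Finset ℕ}
    (H : OCond h c k SL DL) (h1 : ∀ x, c ≤ x → x < k → (S x ↔ SL x)) (h2 : ∀ x, k ≤ x → ¬ S x) :
    OCond h c d S (insert c (insert d (insert k DL))) where
  sub i hi := by
    simp only [Finset.mem_insert] at hi
    rcases hi with rfl | rfl | rfl | hi
    · omega
    · omega
    · omega
    · have := H.sub i hi
      omega
  trans i hi1 hi2 hi3 := by
    simp only [Finset.mem_insert]
    rcases lt_trichotomy i k with hik | rfl | hik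
    · rw [h1 (i - 1) (by omega) (by omega), h1 i (by omega) hik] at hi3
      exact Or.inr (Or.inr (Or.inr (H.trans i hi1 hik hi3)))
    · exact Or.inr (Or.inr (Or.inl rfl))
    · exact absurd (iff_of_false (h2 (i - 1) (by omega)) (h2 i (by omega))) hi3
  left _ := Finset.mem_insert_self _ _
  right _ := Finset.mem_insert_of_mem (Finset.mem_insert_self _ _)
  block a b ha hab hb hh := by
    rcases le_or_gt b k with hbk | hbk
    · rw [h1 a ha (by omega), h1 (b - 1) (by omega) (by omega)]
      rcases H.block a b ha hab hbk hh with h | h | h
      · exact Or.inl h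
      · exact Or.inr (Or.inl (by simp only [Finset.mem_insert]; exact Or.inr (Or.inr (Or.inr h))))
      · exact Or.inr (Or.inr (by simp only [Finset.mem_insert]; exact Or.inr (Or.inr (Or.inr h))))
    · rcases le_or_gt k a with hka | hka
      · exact Or.inl (iff_of_false (h2 a hka) (h2 (b - 1) (by omega)))
      · have hk := (hh k hka hbk).1
        rcases eq_or_lt_of_le ha with rfl | hca
        · exact Or.inr (Or.inl (Finset.mem_insert_self _ _))
        · have := hmin a hca (by omega)
          omega

/-- The right part is being processed first. -/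
private theorem ORD_small_right {h : ℕ → ℕ} {c k d : ℕ} (hck : c < k) (hkd : k < d)
    (hmin : ∀ i, c < i → i < d → h k ≤ h i) {S SR : ℕ → Prop} {DR : Finset ℕ}
    (H : OCond h k d SR DR) (h1 : ∀ x, k ≤ x → x < d → (S x ↔ SR x)) (h2 : ∀ x, x < k → ¬ S x) :
    OCond h c d S (insert c (insert d (insert k DR))) where
  sub i hi := by
    simp only [Finset.mem_insert] at hi
    rcases hi with rfl | rfl | rfl | hi
    · omega
    · omega
    · omega
    · have := H.sub i hi
      omega
  trans i hi1 hi2 hi3 := by
    simp only [Finset.mem_insert]
    rcases lt_trichotomy i k with hik | rfl | hik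
    · exact absurd (iff_of_false (h2 (i - 1) (by omega)) (h2 i (by omega))) hi3
    · exact Or.inr (Or.inr (Or.inl rfl))
    · rw [h1 (i - 1) (by omega) (by omega), h1 i (by omega) hi2] at hi3
      exact Or.inr (Or.inr (Or.inr (H.trans i hik hi2 hi3)))
  left _ := Finset.mem_insert_self _ _
  right _ := Finset.mem_insert_of_mem (Finset.mem_insert_self _ _)
  block a b ha hab hb hh := by
    rcases le_or_gt b k with hbk | hbk
    · exact Or.inl (iff_of_false (h2 a (by omega)) (h2 (b - 1) (by omega)))
    · rcases le_or_gt k a with hka | hka
      · rw [h1 a hka (by omega), h1 (b - 1) (by omega) (by omega)]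
        rcases H.block a b hka hab hb hh with h | h | h
        · exact Or.inl h
        · exact Or.inr (Or.inl (by simp only [Finset.mem_insert]; exact Or.inr (Or.inr (Or.inr h))))
        · exact Or.inr (Or.inr (by simp only [Finset.mem_insert]; exact Or.inr (Or.inr (Or.inr h))))
      · have hk := (hh k hka hbk).1
        rcases eq_or_lt_of_le ha with rfl | hca
        · exact Or.inr (Or.inl (Finset.mem_insert_self _ _))
        · have := hmin a hca (by omega)
          omega

/-- The right part is being processed last. -/
private theorem ORD_large_right {h : ℕ → ℕ} {c k d : ℕ} (hck : c < k) (hkd : k < d)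
    (hmin : ∀ i, c < i → i < d → h k ≤ h i) {S SR : ℕ → Prop} {DR : Finset ℕ}
    (H : OCond h k d SR DR) (h1 : ∀ x, k ≤ x → x < d → (S x ↔ SR x))
    (h2 : ∀ x, c ≤ x → x < k → S x) :
    OCond h c d S DR where
  sub i hi := by
    have := H.sub i hi
    omega
  trans i hi1 hi2 hi3 := by
    rcases lt_trichotomy i k with hik | rfl | hik
    · exact absurd (iff_of_true (h2 (i - 1) (by omega) (by omega)) (h2 i (by omega) hik)) hi3
    · refine H.left fun h => hi3 (iff_of_true (h2 (i - 1) (by omega) (by omega)) ?_)
      exact (h1 i le_rfl hi2).2 h
    · rw [h1 (i - 1) (by omega) (by omega), h1 i (by omega) hi2] at hi3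
      exact H.trans i hik hi2 hi3
  left h := absurd (h2 c le_rfl hck) h
  right h := H.right fun h' => h ((h1 (d - 1) (by omega) (by omega)).2 h')
  block a b ha hab hb hh := by
    rcases le_or_gt b k with hbk | hbk
    · exact Or.inl (iff_of_true (h2 a ha (by omega)) (h2 (b - 1) (by omega) (by omega)))
    · rcases le_or_gt k a with hka | hka
      · rw [h1 a hka (by omega), h1 (b - 1) (by omega) (by omega)]
        exact H.block a b hka hab hb hh
      · have hk := hh k hka hbk
        rcases eq_or_lt_of_le hb with rfl | hbd
        · by_cases hS : S (b - 1)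
          · exact Or.inl (iff_of_true (h2 a ha hka) hS)
          · exact Or.inr (Or.inr (H.right fun h' => hS ((h1 (b - 1) (by omega) (by omega)).2 h')))
        · have := hmin b (by omega) hbd
          omega

/-- The left part is being processed last. -/
private theorem ORD_large_left {h : ℕ → ℕ} {c k d : ℕ} (hck : c < k) (hkd : k < d)
    (hmin : ∀ i, c < i → i < d → h k ≤ h i) {S SL : ℕ → Prop} {DL : Finset ℕ}
    (H : OCond h c k SL DL) (h1 : ∀ x, c ≤ x → x < k → (S x ↔ SL x))
    (h2 : ∀ x, k ≤ x → x < d → S x) :
    OCond h c d S DL where
  sub i hi := by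
    have := H.sub i hi
    omega
  trans i hi1 hi2 hi3 := by
    rcases lt_trichotomy i k with hik | rfl | hik
    · rw [h1 (i - 1) (by omega) (by omega), h1 i (by omega) hik] at hi3
      exact H.trans i hi1 hik hi3
    · refine H.right fun h => hi3 (iff_of_true ?_ (h2 i le_rfl hi2))
      exact (h1 (i - 1) (by omega) (by omega)).2 h
    · exact absurd (iff_of_true (h2 (i - 1) (by omega) (by omega)) (h2 i (by omega) hi2)) hi3
  left h := H.left fun h' => h ((h1 c le_rfl hck).2 h')
  right h := absurd (h2 (d - 1) (by omega) (by omega)) h
  block a b ha hab hb hh := by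
    rcases le_or_gt b k with hbk | hbk
    · rw [h1 a ha (by omega), h1 (b - 1) (by omega) (by omega)]
      exact H.block a b ha hab hbk hh
    · rcases le_or_gt k a with hka | hka
      · exact Or.inl (iff_of_true (h2 a hka (by omega)) (h2 (b - 1) (by omega) (by omega)))
      · have hk := hh k hka hbk
        rcases eq_or_lt_of_le ha with rfl | hca
        · by_cases hS : S c
          · exact Or.inl (iff_of_true hS (h2 (b - 1) (by omega) (by omega)))
          · exact Or.inr (Or.inl (H.left fun h' => hS ((h1 c le_rfl hck).2 h')))
        · have := hmin a hca (by omega)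
          omega

private theorem ORD_mem_take_append (o o' : List ℕ) (j x : ℕ) :
    x ∈ (o ++ o').take j ↔ x ∈ o.take j ∨ x ∈ o'.take (j - o.length) := by
  rw [List.take_append, List.mem_append]

private theorem ORD_card_ins (c k d : ℕ) (D : Finset ℕ) :
    (insert c (insert d (insert k D))).card ≤ D.card + 3 := by
  have h1 := Finset.card_insert_le c (insert d (insert k D))
  have h2 := Finset.card_insert_le d (insert k D)
  have h3 := Finset.card_insert_le k D
  omega

private theorem ORD_log {m n : ℕ} (hm : 0 < m) (h : 2 * m ≤ n) :
    Nat.log 2 m + 1 ≤ Nat.log 2 n := by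
  have h1 : Nat.log 2 (m * 2) = Nat.log 2 m + 1 := Nat.log_mul_base (by norm_num) (by omega)
  rw [← h1]
  exact Nat.log_mono_right (by omega)

private theorem ORD_aux (h : ℕ → ℕ) : ∀ (n c d : ℕ), d - c = n → c < d →
    ∃ (o : List ℕ) (D : ℕ → Finset ℕ), o.Nodup ∧ (∀ x, x ∈ o ↔ c ≤ x ∧ x < d) ∧
      ∀ j ≤ o.length, OCond h c d (fun x => x ∈ o.take j) (D j) ∧
        (D j).card ≤ 3 * Nat.log 2 (d - c) + 2 := by
  intro n
  induction n using Nat.strong_induction_on with
  | _ n ih =>
  intro c d hn hcd
  rcases Nat.lt_or_ge (c + 1) d with h1 | h1
  · obtain ⟨k, hk, hkmin⟩ := Finset.exists_min_image (Finset.Ioo c d) h ⟨c + 1, by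
      rw [Finset.mem_Ioo]; omega⟩
    rw [Finset.mem_Ioo] at hk
    obtain ⟨hck, hkd⟩ := hk
    have hmin : ∀ i, c < i → i < d → h k ≤ h i := fun i hi1 hi2 =>
      hkmin i (Finset.mem_Ioo.2 ⟨hi1, hi2⟩)
    obtain ⟨oL, DL, hL1, hL2, hL3⟩ := ih (k - c) (by omega) c k rfl hck
    obtain ⟨oR, DR, hR1, hR2, hR3⟩ := ih (d - k) (by omega) k d rfl hkd
    have hdis : ∀ x, x ∈ oL → x ∈ oR → False := fun x hx hx' => by
      have := (hL2 x).1 hx
      have := (hR2 x).1 hx'
      omega
    rcases le_or_gt (k - c) (d - k) with hle | hlt
    · refine ⟨oL ++ oR, fun j => if j < oL.length then insert c (insert d (insert k (DL j)))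
        else DR (j - oL.length), ?_, ?_, ?_⟩
      · rw [List.nodup_append']
        exact ⟨hL1, hR1, fun x hx hx' => hdis x hx hx'⟩
      · intro x
        rw [List.mem_append, hL2, hR2]
        omega
      · intro j hj
        rw [List.length_append] at hj
        by_cases hjL : j < oL.length
        · simp only [if_pos hjL]
          have hq := hL3 j hjL.le
          have hlog := ORD_log (m := k - c) (n := d - c) (by omega) (by omega)
          refine ⟨ORD_small_left hck hkd hmin hq.1 ?_ ?_, ?_⟩
          · intro x hx1 hx2
            simp only [ORD_mem_take_append]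
            constructor
            · rintro (hx | hx)
              · exact hx
              · have := (hR2 x).1 (List.mem_of_mem_take hx)
                omega
            · exact Or.inl
          · intro x hx1
            simp only [ORD_mem_take_append]
            rintro (hx | hx)
            · have := (hL2 x).1 (List.mem_of_mem_take hx)
              omega
            · rw [Nat.sub_eq_zero_of_le hjL.le] at hx
              simp at hx
          · have := ORD_card_ins c k d (DL j)
            have := hq.2
            omega
        · simp only [if_neg hjL]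
          have hq := hR3 (j - oL.length) (by omega)
          have hlog : Nat.log 2 (d - k) ≤ Nat.log 2 (d - c) := Nat.log_mono_right (by omega)
          refine ⟨ORD_large_right hck hkd hmin hq.1 ?_ ?_, ?_⟩
          · intro x hx1 hx2
            simp only [ORD_mem_take_append]
            constructor
            · rintro (hx | hx)
              · have := (hL2 x).1 (List.mem_of_mem_take hx)
                omega
              · exact hx
            · exact Or.inr
          · intro x hx1 hx2
            simp only [ORD_mem_take_append]
            left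
            rw [List.take_of_length_le (by omega)]
            exact (hL2 x).2 ⟨hx1, hx2⟩
          · have := hq.2
            omega
    · refine ⟨oR ++ oL, fun j => if j < oR.length then insert c (insert d (insert k (DR j)))
        else DL (j - oR.length), ?_, ?_, ?_⟩
      · rw [List.nodup_append']
        exact ⟨hR1, hL1, fun x hx hx' => hdis x hx' hx⟩
      · intro x
        rw [List.mem_append, hL2, hR2]
        omega
      · intro j hj
        rw [List.length_append] at hj
        by_cases hjL : j < oR.length
        · simp only [if_pos hjL]
          have hq := hR3 j hjL.le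
          have hlog := ORD_log (m := d - k) (n := d - c) (by omega) (by omega)
          refine ⟨ORD_small_right hck hkd hmin hq.1 ?_ ?_, ?_⟩
          · intro x hx1 hx2
            simp only [ORD_mem_take_append]
            constructor
            · rintro (hx | hx)
              · exact hx
              · have := (hL2 x).1 (List.mem_of_mem_take hx)
                omega
            · exact Or.inl
          · intro x hx1
            simp only [ORD_mem_take_append]
            rintro (hx | hx)
            · have := (hR2 x).1 (List.mem_of_mem_take hx)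
              omega
            · rw [Nat.sub_eq_zero_of_le hjL.le] at hx
              simp at hx
          · have := ORD_card_ins c k d (DR j)
            have := hq.2
            omega
        · simp only [if_neg hjL]
          have hq := hL3 (j - oR.length) (by omega)
          have hlog : Nat.log 2 (k - c) ≤ Nat.log 2 (d - c) := Nat.log_mono_right (by omega)
          refine ⟨ORD_large_left hck hkd hmin hq.1 ?_ ?_, ?_⟩
          · intro x hx1 hx2
            simp only [ORD_mem_take_append]
            constructor
            · rintro (hx | hx)
              · have := (hR2 x).1 (List.mem_of_mem_take hx)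
                omega
              · exact hx
            · exact Or.inr
          · intro x hx1 hx2
            simp only [ORD_mem_take_append]
            left
            rw [List.take_of_length_le (by omega)]
            exact (hR2 x).2 ⟨hx1, hx2⟩
          · have := hq.2
            omega
  · have hd : d = c + 1 := by omega
    subst hd
    refine ⟨[c], fun _ => {c, c + 1}, List.nodup_singleton c, ?_, ?_⟩
    · intro x
      rw [List.mem_singleton]
      omega
    · intro j _
      refine ⟨⟨?_, ?_, ?_, ?_, ?_⟩, ?_⟩
      · intro i hi
        rw [Finset.mem_insert, Finset.mem_singleton] at hi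
        omega
      · intro i hi1 hi2
        omega
      · intro _
        exact Finset.mem_insert_self _ _
      · intro _
        exact Finset.mem_insert_of_mem (Finset.mem_singleton_self _)
      · intro a b ha hab hb _
        have : a = c := by omega
        subst this
        exact Or.inr (Or.inl (Finset.mem_insert_self _ _))
      · have h5 := Finset.card_insert_le c {c + 1}
        rw [Finset.card_singleton] at h5
        exact h5.trans (Nat.le_add_left _ _)

/-- **The order lemma.** -/
theorem exists_order (h : ℕ → ℕ) (c d : ℕ) (hcd : c < d) :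
    ∃ (o : List ℕ) (D : ℕ → Finset ℕ), o.Nodup ∧ (∀ x, x ∈ o ↔ c ≤ x ∧ x < d) ∧
      ∀ j ≤ o.length, OCond h c d (fun x => x ∈ o.take j) (D j) ∧
        (D j).card ≤ 3 * Nat.log 2 (d - c) + 2 :=
  ORD_aux h (d - c) c d rfl hcd

end Vale.Agent.P308Q
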