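import Vale.Agent.P308Q.State
import Vale.Agent.P308Q.Ord
import Vale.Agent.P308Q.CycIdx

/-!
# The path through one cycle
-/

namespace Vale.Agent.P308Q

open Finset

variable {V : Type} [Fintype V] [DecidableEq V]

/-- Two matchings which differ by one edge. -/
def AdjM (m m' : V → V) : Prop :=
  ∃ x y, x ≠ y ∧ ((m x = x ∧ m y = y ∧ m' x = y ∧ m' y = x) ∨
    (m' x = x ∧ m' y = y ∧ m x = y ∧ m y = x)) ∧ ∀ v, v ≠ x → v ≠ y → m v = m' v

theorem AdjM.symm {m m' : V → V} (h : AdjM m m') : AdjM m' m := by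
  obtain ⟨x, y, hxy, h1, h2⟩ := h
  exact ⟨x, y, hxy, h1.symm, fun v hx hy => (h2 v hx hy).symm⟩

/-- A path of at most `N` steps through states with the property `P`. -/
def PathS (I F : V → V) (P : St V → Prop) (s s' : St V) (N : ℕ) : Prop :=
  ∃ (n : ℕ) (f : ℕ → St V), n ≤ N ∧ f 0 = s ∧ f n = s' ∧ (∀ i ≤ n, P (f i)) ∧
    ∀ i < n, cur I F (f i) = cur I F (f (i + 1)) ∨ AdjM (cur I F (f i)) (cur I F (f (i + 1)))

theorem PathS.trans {I F : V → V} {P : St V → Prop} {s s' s'' : St V} {N N' : ℕ}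
    (h : PathS I F P s s' N) (h' : PathS I F P s' s'' N') : PathS I F P s s'' (N + N') := by
  obtain ⟨n, f, hn, h0, h1, h2, h3⟩ := h
  obtain ⟨n', f', hn', h0', h1', h2', h3'⟩ := h'
  refine ⟨n + n', fun i => if i < n then f i else f' (i - n), by omega, ?_, ?_, ?_, ?_⟩
  · by_cases h : 0 < n
    · simp only [h, if_true]
      exact h0
    · obtain rfl : n = 0 := by omega
      simp only [lt_self_iff_false, if_false, Nat.sub_self]
      rw [h0', ← h1, h0]
  · have hh : ¬ (n + n' < n) := by omega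
    simp only [hh, if_false]
    rw [Nat.add_sub_cancel_left, h1']
  · intro i hi
    by_cases h : i < n
    · simp only [h, if_true]
      exact h2 i h.le
    · simp only [h, if_false]
      exact h2' _ (by omega)
  · intro i hi
    by_cases h : i < n
    · simp only [h, if_true]
      by_cases h4 : i + 1 < n
      · simp only [h4, if_true]
        exact h3 i h
      · have h5 : i + 1 = n := by omega
        simp only [h4, if_false]
        rw [h5, Nat.sub_self, h0', ← h1, ← h5]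
        exact h3 i h
    · have h4 : ¬ (i + 1 < n) := by omega
      simp only [h, h4, if_false]
      have h5 : i + 1 - n = (i - n) + 1 := by omega
      rw [h5]
      exact h3' _ (by omega)

/-- Cutting an `I`-edge. -/
theorem cut_step_I {I F : V → V} (hI : ∀ v, I (I v) = v) (hF : ∀ v, F (F v) = v)
    (hI0 : ∀ v, I v ≠ v) (hF0 : ∀ v, F v ≠ v) {s s' : St V} (hs : Vld I F s) (hs' : Vld I F s')
    {v : V} (hτ : s'.τ = s.τ) (hDF : s'.DF = s.DF) (hDI : s'.DI = insert v (insert (I v) s.DI)) :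
    cur I F s = cur I F s' ∨ AdjM (cur I F s) (cur I F s') := by
  by_cases hv : v ∈ s.DI
  · left
    have h1 : s'.DI = s.DI := by
      rw [hDI, Finset.insert_eq_self.2 (Finset.mem_insert_of_mem hv),
        Finset.insert_eq_self.2 (hs.hI v hv)]
    funext u
    unfold cur
    rw [hτ, hDF, h1]
  · have hIv : I v ∉ s.DI := fun hc => hv (by simpa [hI v] using hs.hI _ hc)
    have ht : s.τ v = s.τ (I v) := by
      by_contra hne
      exact hv (hs.tI v hne)
    have hoff : ∀ u, u ≠ v → u ≠ I v → cur I F s u = cur I F s' u := by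
      intro u h1 h2
      unfold cur
      rw [hτ, hDF, hDI]
      simp only [Finset.mem_insert, h1, h2, false_or]
    cases hτv : s.τ v with
    | true =>
      left
      funext u
      by_cases h1 : u = v
      · rw [h1]
        unfold cur
        rw [hτ, hDF, hτv]
        simp
      · by_cases h2 : u = I v
        · rw [h2]
          unfold cur
          rw [hτ, hDF, ← ht, hτv]
          simp
        · exact hoff u h1 h2
    | false =>
      right
      refine ⟨v, I v, (hI0 v).symm, Or.inr ⟨?_, ?_, ?_, ?_⟩, hoff⟩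
      · unfold cur
        rw [hτ, hτv, hDI]
        simp
      · unfold cur
        rw [hτ, ← ht, hτv, hDI]
        simp
      · unfold cur
        rw [hτv]
        simp [hv]
      · unfold cur
        rw [← ht, hτv]
        simp [hIv, hI v]

/-- Cutting an `F`-edge. -/
theorem cut_step_F {I F : V → V} (hI : ∀ v, I (I v) = v) (hF : ∀ v, F (F v) = v)
    (hI0 : ∀ v, I v ≠ v) (hF0 : ∀ v, F v ≠ v) {s s' : St V} (hs : Vld I F s) (hs' : Vld I F s')
    {v : V} (hτ : s'.τ = s.τ) (hDI : s'.DI = s.DI) (hDF : s'.DF = insert v (insert (F v) s.DF)) :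
    cur I F s = cur I F s' ∨ AdjM (cur I F s) (cur I F s') := by
  by_cases hv : v ∈ s.DF
  · left
    have h1 : s'.DF = s.DF := by
      rw [hDF, Finset.insert_eq_self.2 (Finset.mem_insert_of_mem hv),
        Finset.insert_eq_self.2 (hs.hF v hv)]
    funext u
    unfold cur
    rw [hτ, hDI, h1]
  · have hFv : F v ∉ s.DF := fun hc => hv (by simpa [hF v] using hs.hF _ hc)
    have ht : s.τ v = s.τ (F v) := by
      by_contra hne
      exact hv (hs.tF v hne)
    have hoff : ∀ u, u ≠ v → u ≠ F v → cur I F s u = cur I F s' u := by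
      intro u h1 h2
      unfold cur
      rw [hτ, hDI, hDF]
      simp only [Finset.mem_insert, h1, h2, false_or]
    cases hτv : s.τ v with
    | false =>
      left
      funext u
      by_cases h1 : u = v
      · rw [h1]
        unfold cur
        rw [hτ, hDI, hτv]
        simp
      · by_cases h2 : u = F v
        · rw [h2]
          unfold cur
          rw [hτ, hDI, ← ht, hτv]
          simp
        · exact hoff u h1 h2
    | true =>
      right
      refine ⟨v, F v, (hF0 v).symm, Or.inr ⟨?_, ?_, ?_, ?_⟩, hoff⟩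
      · unfold cur
        rw [hτ, hτv, hDF]
        simp
      · unfold cur
        rw [hτ, ← ht, hτv, hDF]
        simp
      · unfold cur
        rw [hτv]
        simp [hv]
      · unfold cur
        rw [← ht, hτv]
        simp [hFv, hF v]

/-- Changing the side of a vertex both of whose edges are cut. -/
theorem tog_step {I F : V → V} {s s' : St V} {v : V} (hDI : s'.DI = s.DI) (hDF : s'.DF = s.DF)
    (hτ : ∀ u, u ≠ v → s'.τ u = s.τ u) (hvI : v ∈ s.DI) (hvF : v ∈ s.DF) :
    cur I F s = cur I F s' := by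
  funext u
  by_cases h : u = v
  · rw [h]
    unfold cur
    rw [hDI, hDF]
    simp [hvI, hvF]
  · unfold cur
    rw [hDI, hDF, hτ u h]

/-- The state of the 1-dimensional data on a cycle `g 0, …, g (m - 1)`: `S` = processed, `D` = cut
edges, where the edge `i` (`0 < i < m`) joins `g (i - 1)` and `g i` and is an `F`-edge (if
`X = I`) for odd `i`, and the edges `0` and `m` are the closing edge.  Here `DX` and `DY` are the
vertices with a cut `X`-edge and `Y`-edge. -/
def cycDX (m : ℕ) (g : ℕ → V) (D : Finset ℕ) : Finset V :=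
  univ.filter fun v => ∃ i < m, g i = v ∧
    ((i ∈ D ∧ Even i ∧ 0 < i) ∨ (i + 1 ∈ D ∧ Odd i ∧ i + 1 < m) ∨
      ((0 ∈ D ∨ m ∈ D) ∧ (i = 0 ∨ i = m - 1)))

/-- see `cycDX` -/
def cycDY (m : ℕ) (g : ℕ → V) (D : Finset ℕ) : Finset V :=
  univ.filter fun v => ∃ i < m, g i = v ∧
    ((i ∈ D ∧ Odd i) ∨ (i + 1 ∈ D ∧ Even i ∧ i + 1 < m))

open Classical in
/-- The state (`b = true` if `X = I`). -/
noncomputable def cycSt (τ0 : V → Bool) (b : Bool) (m : ℕ) (g : ℕ → V) (S : ℕ → Prop)
    (D : Finset ℕ) : St V where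
  τ := fun v => if ∃ i < m, g i = v then decide (∃ i < m, g i = v ∧ S i) else τ0 v
  DI := if b then cycDX m g D else cycDY m g D
  DF := if b then cycDY m g D else cycDX m g D

/-- The data of a cycle. -/
structure Cyc (I F : V → V) (b : Bool) (X Y : V → V) (m : ℕ) (g : ℕ → V) (h : V → V → ℕ) :
    Prop where
  hI : ∀ v, I (I v) = v
  hF : ∀ v, F (F v) = v
  hI0 : ∀ v, I v ≠ v
  hF0 : ∀ v, F v ≠ v
  xy : (b = true ∧ X = I ∧ Y = F) ∨ (b = false ∧ X = F ∧ Y = I)
  two : 2 ≤ m
  even : Even m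
  inj : ∀ i j, i < m → j < m → g i = g j → i = j
  step : ∀ i, i + 1 < m → g (i + 1) = if Even i then Y (g i) else X (g i)
  close : X (g 0) = g (m - 1)
  min : ∀ i, i + 1 < m → h (g (m - 1)) (g 0) ≤ h (g i) (g (i + 1))

/-- The heights of the edges. -/
def ht (m : ℕ) (g : ℕ → V) (h : V → V → ℕ) (i : ℕ) : ℕ :=
  if i = 0 ∨ m ≤ i then h (g (m - 1)) (g 0) else h (g (i - 1)) (g i)

theorem cyc_card {I F X Y : V → V} {b : Bool} {m : ℕ} {g : ℕ → V} {h : V → V → ℕ}
    (H : Cyc I F b X Y m g h) (τ0 : V → Bool) (S : ℕ → Prop) (D : Finset ℕ) :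
    (cycSt τ0 b m g S D).DI.card + (cycSt τ0 b m g S D).DF.card ≤ 2 * D.card := by
  have hm := H.even
  have h2 := H.two
  let ep : ℕ → Finset V := fun e => if e = 0 ∨ m ≤ e then {g (m - 1), g 0} else {g (e - 1), g e}
  have hep : ∀ e, (ep e).card ≤ 2 := by
    intro e
    simp only [ep]
    split_ifs
    · exact Finset.card_le_two
    · exact Finset.card_le_two
  have hX : cycDX m g D ⊆ (D.filter fun e => Even e).biUnion ep := by
    intro v hv
    unfold cycDX at hv
    rw [Finset.mem_filter] at hv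
    obtain ⟨_, i, hi, rfl, hc⟩ := hv
    rw [Finset.mem_biUnion]
    rcases hc with ⟨h3, h4, h5⟩ | ⟨h3, h4, h5⟩ | ⟨h3, h4⟩
    · refine ⟨i, Finset.mem_filter.2 ⟨h3, h4⟩, ?_⟩
      have : ¬ (i = 0 ∨ m ≤ i) := by omega
      simp only [ep, this, if_false, Finset.mem_insert, Finset.mem_singleton, or_true]
    · refine ⟨i + 1, Finset.mem_filter.2 ⟨h3, by
        rw [Nat.even_add_one, Nat.not_even_iff_odd]; exact h4⟩, ?_⟩
      have : ¬ (i + 1 = 0 ∨ m ≤ i + 1) := by omega
      simp only [ep, this, if_false, Finset.mem_insert, Finset.mem_singleton,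
        Nat.add_sub_cancel, true_or]
    · have hg : g i ∈ ({g (m - 1), g 0} : Finset V) := by
        rcases h4 with rfl | rfl <;> simp
      rcases h3 with h3 | h3
      · refine ⟨0, Finset.mem_filter.2 ⟨h3, by simp⟩, ?_⟩
        have : (0 = 0 ∨ m ≤ 0) := by omega
        simp only [ep, this, if_true]
        exact hg
      · refine ⟨m, Finset.mem_filter.2 ⟨h3, hm⟩, ?_⟩
        have : (m = 0 ∨ m ≤ m) := by omega
        simp only [ep, this, if_true]
        exact hg
  have hY : cycDY m g D ⊆ (D.filter fun e => ¬ Even e).biUnion ep := by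
    intro v hv
    unfold cycDY at hv
    rw [Finset.mem_filter] at hv
    obtain ⟨_, i, hi, rfl, hc⟩ := hv
    rw [Finset.mem_biUnion]
    rcases hc with ⟨h3, h4⟩ | ⟨h3, h4, h5⟩
    · refine ⟨i, Finset.mem_filter.2 ⟨h3, Nat.not_even_iff_odd.2 h4⟩, ?_⟩
      have h6 : i ≠ 0 := by
        rintro rfl
        exact absurd h4 (by decide)
      have : ¬ (i = 0 ∨ m ≤ i) := by omega
      simp only [ep, this, if_false, Finset.mem_insert, Finset.mem_singleton, or_true]
    · refine ⟨i + 1, Finset.mem_filter.2 ⟨h3, by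
        rw [Nat.even_add_one, not_not]; exact h4⟩, ?_⟩
      have : ¬ (i + 1 = 0 ∨ m ≤ i + 1) := by omega
      simp only [ep, this, if_false, Finset.mem_insert, Finset.mem_singleton,
        Nat.add_sub_cancel, true_or]
  have cX := (Finset.card_le_card hX).trans
    (Finset.card_biUnion_le_card_mul _ _ 2 fun e _ => hep e)
  have cY := (Finset.card_le_card hY).trans
    (Finset.card_biUnion_le_card_mul _ _ 2 fun e _ => hep e)
  have hc := Finset.card_filter_add_card_filter_not (s := D) (fun e => Even e)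
  have hsum : (cycSt τ0 b m g S D).DI.card + (cycSt τ0 b m g S D).DF.card =
      (cycDX m g D).card + (cycDY m g D).card := by
    unfold cycSt
    cases b
    · simp only [Bool.false_eq_true, if_false]
      rw [add_comm]
    · simp only [if_true]
  rw [hsum]
  omega

namespace Cyc

variable {I F X Y : V → V} {b : Bool} {m : ℕ} {g : ℕ → V} {h : V → V → ℕ}

omit [Fintype V] [DecidableEq V] in
theorem cvXX (H : Cyc I F b X Y m g h) (v : V) : X (X v) = v := by
  rcases H.xy with ⟨_, h1, _⟩ | ⟨_, h1, _⟩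
  · rw [h1]; exact H.hI v
  · rw [h1]; exact H.hF v

omit [Fintype V] [DecidableEq V] in
theorem cvYY (H : Cyc I F b X Y m g h) (v : V) : Y (Y v) = v := by
  rcases H.xy with ⟨_, _, h1⟩ | ⟨_, _, h1⟩
  · rw [h1]; exact H.hF v
  · rw [h1]; exact H.hI v

omit [Fintype V] [DecidableEq V] in
theorem cvX_odd (H : Cyc I F b X Y m g h) {i : ℕ} (hi : i + 1 < m) (ho : Odd i) :
    X (g i) = g (i + 1) := by
  rw [H.step i hi, if_neg (Nat.not_even_iff_odd.2 ho)]

omit [Fintype V] [DecidableEq V] in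
theorem cvY_even (H : Cyc I F b X Y m g h) {i : ℕ} (hi : i + 1 < m) (he : Even i) :
    Y (g i) = g (i + 1) := by
  rw [H.step i hi, if_pos he]

omit [Fintype V] [DecidableEq V] in
theorem cvX_even (H : Cyc I F b X Y m g h) {i : ℕ} (hi : i + 1 < m) (he : Even (i + 1)) :
    X (g (i + 1)) = g i := by
  have ho : Odd i := by
    rcases Nat.even_or_odd i with h1 | h1
    · exact absurd he (Nat.not_even_iff_odd.2 h1.add_one)
    · exact h1
  rw [← H.cvX_odd hi ho, H.cvXX]

omit [Fintype V] [DecidableEq V] in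
theorem cvY_odd (H : Cyc I F b X Y m g h) {i : ℕ} (hi : i + 1 < m) (ho : Odd (i + 1)) :
    Y (g (i + 1)) = g i := by
  have he : Even i := by
    rcases Nat.even_or_odd i with h1 | h1
    · exact h1
    · exact absurd ho (Nat.not_odd_iff_even.2 h1.add_one)
  rw [← H.cvY_even hi he, H.cvYY]

omit [Fintype V] [DecidableEq V] in
theorem cvX_last (H : Cyc I F b X Y m g h) : X (g (m - 1)) = g 0 := by
  rw [← H.close, H.cvXX]

omit [Fintype V] [DecidableEq V] in
/-- `X` on the cycle -/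
theorem cvX_cases (H : Cyc I F b X Y m g h) {i : ℕ} (hi : i < m) :
    (i = 0 ∧ X (g i) = g (m - 1)) ∨ (i = m - 1 ∧ X (g i) = g 0) ∨
      (Even i ∧ 0 < i ∧ X (g i) = g (i - 1)) ∨ (Odd i ∧ i + 1 < m ∧ X (g i) = g (i + 1)) := by
  rcases Nat.even_or_odd i with he | ho
  · rcases Nat.eq_zero_or_pos i with h0 | h0
    · exact Or.inl ⟨h0, by rw [h0]; exact H.close⟩
    · refine Or.inr (Or.inr (Or.inl ⟨he, h0, ?_⟩))
      obtain ⟨k, rfl⟩ : ∃ k, i = k + 1 := ⟨i - 1, by omega⟩
      rw [Nat.add_sub_cancel]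
      exact H.cvX_even hi he
  · rcases Nat.lt_or_ge (i + 1) m with h1 | h1
    · exact Or.inr (Or.inr (Or.inr ⟨ho, h1, H.cvX_odd h1 ho⟩))
    · have h2 : i = m - 1 := by omega
      exact Or.inr (Or.inl ⟨h2, by rw [h2]; exact H.cvX_last⟩)

omit [Fintype V] [DecidableEq V] in
/-- `Y` on the cycle -/
theorem cvY_cases (H : Cyc I F b X Y m g h) {i : ℕ} (hi : i < m) :
    (Odd i ∧ 0 < i ∧ Y (g i) = g (i - 1)) ∨ (Even i ∧ i + 1 < m ∧ Y (g i) = g (i + 1)) := by
  rcases Nat.even_or_odd i with he | ho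
  · have h1 : i + 1 < m := by
      obtain ⟨a, ha⟩ := he
      obtain ⟨c, hc⟩ := H.even
      omega
    exact Or.inr ⟨he, h1, H.cvY_even h1 he⟩
  · have h0 : 0 < i := ho.pos
    refine Or.inl ⟨ho, h0, ?_⟩
    obtain ⟨k, rfl⟩ : ∃ k, i = k + 1 := ⟨i - 1, by omega⟩
    rw [Nat.add_sub_cancel]
    exact H.cvY_odd hi ho

theorem cv_memX {m : ℕ} {g : ℕ → V} {D : Finset ℕ} {v : V} :
    v ∈ cycDX m g D ↔ ∃ i < m, g i = v ∧
    ((i ∈ D ∧ Even i ∧ 0 < i) ∨ (i + 1 ∈ D ∧ Odd i ∧ i + 1 < m) ∨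
      ((0 ∈ D ∨ m ∈ D) ∧ (i = 0 ∨ i = m - 1))) := by
  rw [cycDX, Finset.mem_filter]
  exact ⟨fun h => h.2, fun h => ⟨Finset.mem_univ _, h⟩⟩

theorem cv_memY {m : ℕ} {g : ℕ → V} {D : Finset ℕ} {v : V} :
    v ∈ cycDY m g D ↔ ∃ i < m, g i = v ∧
    ((i ∈ D ∧ Odd i) ∨ (i + 1 ∈ D ∧ Even i ∧ i + 1 < m)) := by
  rw [cycDY, Finset.mem_filter]
  exact ⟨fun h => h.2, fun h => ⟨Finset.mem_univ _, h⟩⟩

theorem cvX_closed (H : Cyc I F b X Y m g h) (D : Finset ℕ) :
    ∀ v ∈ cycDX m g D, X v ∈ cycDX m g D := by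
  intro v hv
  obtain ⟨i, hi, rfl, hc⟩ := cv_memX.1 hv
  have h2 := H.two
  rw [cv_memX]
  rcases hc with ⟨hD, he, h0⟩ | ⟨hD, ho, h1⟩ | ⟨hD, h0⟩
  · obtain ⟨k, rfl⟩ : ∃ k, i = k + 1 := ⟨i - 1, by omega⟩
    have ho : Odd k := by
      rcases Nat.even_or_odd k with h1 | h1
      · exact absurd he (Nat.not_even_iff_odd.2 h1.add_one)
      · exact h1
    exact ⟨k, by omega, (H.cvX_even hi he).symm, Or.inr (Or.inl ⟨hD, ho, hi⟩)⟩
  · exact ⟨i + 1, h1, (H.cvX_odd h1 ho).symm, Or.inl ⟨hD, ho.add_one, by omega⟩⟩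
  · rcases h0 with h0 | h0
    · subst h0
      exact ⟨m - 1, by omega, H.close.symm, Or.inr (Or.inr ⟨hD, Or.inr rfl⟩)⟩
    · subst h0
      exact ⟨0, by omega, H.cvX_last.symm, Or.inr (Or.inr ⟨hD, Or.inl rfl⟩)⟩

theorem cvY_closed (H : Cyc I F b X Y m g h) (D : Finset ℕ) :
    ∀ v ∈ cycDY m g D, Y v ∈ cycDY m g D := by
  intro v hv
  obtain ⟨i, hi, rfl, hc⟩ := cv_memY.1 hv
  rw [cv_memY]
  rcases hc with ⟨hD, ho⟩ | ⟨hD, he, h1⟩
  · obtain ⟨k, rfl⟩ : ∃ k, i = k + 1 := ⟨i - 1, by have := ho.pos; omega⟩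
    have he : Even k := by
      rcases Nat.even_or_odd k with h1 | h1
      · exact h1
      · exact absurd ho (Nat.not_odd_iff_even.2 h1.add_one)
    exact ⟨k, by omega, (H.cvY_odd hi ho).symm, Or.inr ⟨hD, he, hi⟩⟩
  · exact ⟨i + 1, h1, (H.cvY_even h1 he).symm, Or.inl ⟨hD, he.add_one⟩⟩

theorem cvτ_on (H : Cyc I F b X Y m g h) (τ0 : V → Bool) (S : ℕ → Prop) (D : Finset ℕ) {i : ℕ}
    (hi : i < m) : (cycSt τ0 b m g S D).τ (g i) = true ↔ S i := by
  have h1 : ∃ k < m, g k = g i := ⟨i, hi, rfl⟩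
  simp only [cycSt, if_pos h1, decide_eq_true_eq]
  constructor
  · rintro ⟨k, hk, hki, hS⟩
    rwa [H.inj k i hk hi hki] at hS
  · intro hS
    exact ⟨i, hi, rfl, hS⟩

theorem cvτ_off (τ0 : V → Bool) (S : ℕ → Prop) (D : Finset ℕ) {v : V}
    (hv : ¬ ∃ i < m, g i = v) : (cycSt τ0 b m g S D).τ v = τ0 v := by
  simp only [cycSt, if_neg hv]

omit [Fintype V] [DecidableEq V] in
theorem cvX_on (H : Cyc I F b X Y m g h) {v : V} (hv : ∃ i < m, g i = v) :
    ∃ i < m, g i = X v := by
  obtain ⟨i, hi, rfl⟩ := hv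
  have h2 := H.two
  rcases H.cvX_cases hi with ⟨_, h1⟩ | ⟨_, h1⟩ | ⟨_, h0, h1⟩ | ⟨_, h0, h1⟩
  · exact ⟨m - 1, by omega, h1.symm⟩
  · exact ⟨0, by omega, h1.symm⟩
  · exact ⟨i - 1, by omega, h1.symm⟩
  · exact ⟨i + 1, h0, h1.symm⟩

omit [Fintype V] [DecidableEq V] in
theorem cvY_on (H : Cyc I F b X Y m g h) {v : V} (hv : ∃ i < m, g i = v) :
    ∃ i < m, g i = Y v := by
  obtain ⟨i, hi, rfl⟩ := hv
  rcases H.cvY_cases hi with ⟨_, h0, h1⟩ | ⟨_, h0, h1⟩
  · exact ⟨i - 1, by omega, h1.symm⟩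
  · exact ⟨i + 1, h0, h1.symm⟩

theorem cvX_cut (H : Cyc I F b X Y m g h) {τ0 : V → Bool} (hτX : ∀ v, τ0 (X v) = τ0 v)
    {S : ℕ → Prop} {D : Finset ℕ}
    (hD1 : ∀ i, 0 < i → i < m → ¬ (S (i - 1) ↔ S i) → i ∈ D)
    (hD2 : ¬ (S 0 ↔ S (m - 1)) → 0 ∈ D ∨ m ∈ D) (v : V)
    (hv : (cycSt τ0 b m g S D).τ v ≠ (cycSt τ0 b m g S D).τ (X v)) : v ∈ cycDX m g D := by
  have h2 := H.two
  by_cases hon : ∃ i < m, g i = v
  · obtain ⟨i, hi, rfl⟩ := hon
    have key : ∀ i', i' < m → X (g i) = g i' → ¬ (S i ↔ S i') := by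
      intro i' hi' he hiff
      apply hv
      rw [he, Bool.eq_iff_iff, H.cvτ_on τ0 S D hi, H.cvτ_on τ0 S D hi']
      exact hiff
    rw [cv_memX]
    refine ⟨i, hi, rfl, ?_⟩
    rcases H.cvX_cases hi with ⟨h0, h1⟩ | ⟨h0, h1⟩ | ⟨he, h0, h1⟩ | ⟨ho, h0, h1⟩
    · have h3 := key _ (by omega) h1
      rw [h0] at h3
      exact Or.inr (Or.inr ⟨hD2 h3, Or.inl h0⟩)
    · have h3 := key _ (by omega) h1
      rw [h0] at h3
      exact Or.inr (Or.inr ⟨hD2 (fun h => h3 h.symm), Or.inr h0⟩)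
    · have h3 := key _ (by omega) h1
      exact Or.inl ⟨hD1 i h0 hi (fun h => h3 h.symm), he, h0⟩
    · have h3 := key _ h0 h1
      exact Or.inr (Or.inl ⟨hD1 (i + 1) (by omega) h0 (by rwa [Nat.add_sub_cancel]), ho, h0⟩)
  · exfalso
    apply hv
    have hoff : ¬ ∃ i < m, g i = X v := by
      intro hc
      apply hon
      have := H.cvX_on hc
      rwa [H.cvXX] at this
    rw [cvτ_off τ0 S D hon, cvτ_off τ0 S D hoff, hτX]

theorem cvY_cut (H : Cyc I F b X Y m g h) {τ0 : V → Bool} (hτY : ∀ v, τ0 (Y v) = τ0 v)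
    {S : ℕ → Prop} {D : Finset ℕ}
    (hD1 : ∀ i, 0 < i → i < m → ¬ (S (i - 1) ↔ S i) → i ∈ D) (v : V)
    (hv : (cycSt τ0 b m g S D).τ v ≠ (cycSt τ0 b m g S D).τ (Y v)) : v ∈ cycDY m g D := by
  by_cases hon : ∃ i < m, g i = v
  · obtain ⟨i, hi, rfl⟩ := hon
    have key : ∀ i', i' < m → Y (g i) = g i' → ¬ (S i ↔ S i') := by
      intro i' hi' he hiff
      apply hv
      rw [he, Bool.eq_iff_iff, H.cvτ_on τ0 S D hi, H.cvτ_on τ0 S D hi']
      exact hiff
    rw [cv_memY]
    refine ⟨i, hi, rfl, ?_⟩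
    rcases H.cvY_cases hi with ⟨ho, h0, h1⟩ | ⟨he, h0, h1⟩
    · have h3 := key _ (by omega) h1
      exact Or.inl ⟨hD1 i h0 hi (fun h => h3 h.symm), ho⟩
    · have h3 := key _ h0 h1
      exact Or.inr ⟨hD1 (i + 1) (by omega) h0 (by rwa [Nat.add_sub_cancel]), he, h0⟩
  · exfalso
    apply hv
    have hoff : ¬ ∃ i < m, g i = Y v := by
      intro hc
      apply hon
      have := H.cvY_on hc
      rwa [H.cvYY] at this
    rw [cvτ_off τ0 S D hon, cvτ_off τ0 S D hoff, hτY]

end Cyc

/-- Validity. -/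
theorem cyc_vld {I F X Y : V → V} {b : Bool} {m : ℕ} {g : ℕ → V} {h : V → V → ℕ}
    (H : Cyc I F b X Y m g h) {τ0 : V → Bool} (hτI : ∀ v, τ0 (I v) = τ0 v)
    (hτF : ∀ v, τ0 (F v) = τ0 v) {S : ℕ → Prop} {D : Finset ℕ}
    (hD : (∀ i ∈ D, i ≤ m) ∧ (∀ i, 0 < i → i < m → ¬ (S (i - 1) ↔ S i) → i ∈ D) ∧
      (¬ (S 0 ↔ S (m - 1)) → 0 ∈ D ∨ m ∈ D)) :
    Vld I F (cycSt τ0 b m g S D) := by
  rcases H.xy with ⟨hb, hX, hY⟩ | ⟨hb, hX, hY⟩
  · subst hb
    constructor
    · intro v hv
      have := H.cvX_closed D v hv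
      rwa [hX] at this
    · intro v hv
      have := H.cvY_closed D v hv
      rwa [hY] at this
    · intro v hv
      exact H.cvX_cut (by rw [hX]; exact hτI) hD.2.1 hD.2.2 v (by rw [hX]; exact hv)
    · intro v hv
      exact H.cvY_cut (by rw [hY]; exact hτF) hD.2.1 v (by rw [hY]; exact hv)
  · subst hb
    constructor
    · intro v hv
      have := H.cvY_closed D v hv
      rwa [hY] at this
    · intro v hv
      have := H.cvX_closed D v hv
      rwa [hX] at this
    · intro v hv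
      exact H.cvY_cut (by rw [hY]; exact hτI) hD.2.1 v (by rw [hY]; exact hv)
    · intro v hv
      exact H.cvX_cut (by rw [hX]; exact hτF) hD.2.1 hD.2.2 v (by rw [hX]; exact hv)

section RCaux

variable {I F X Y : V → V} {b : Bool} {m : ℕ} {g : ℕ → V} {h : V → V → ℕ}

theorem Cyc.rcX (H : Cyc I F b X Y m g h) (v : V) : X (X v) = v := by
  rcases H.xy with ⟨_, h1, _⟩ | ⟨_, h1, _⟩
  · rw [h1, H.hI]
  · rw [h1, H.hF]

theorem Cyc.rcY (H : Cyc I F b X Y m g h) (v : V) : Y (Y v) = v := by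
  rcases H.xy with ⟨_, _, h1⟩ | ⟨_, _, h1⟩
  · rw [h1, H.hF]
  · rw [h1, H.hI]

theorem Cyc.rcX0 (H : Cyc I F b X Y m g h) (v : V) : X v ≠ v := by
  rcases H.xy with ⟨_, h1, _⟩ | ⟨_, h1, _⟩
  · rw [h1]; exact H.hI0 v
  · rw [h1]; exact H.hF0 v

theorem Cyc.rcY0 (H : Cyc I F b X Y m g h) (v : V) : Y v ≠ v := by
  rcases H.xy with ⟨_, _, h1⟩ | ⟨_, _, h1⟩
  · rw [h1]; exact H.hF0 v
  · rw [h1]; exact H.hI0 v

theorem Cyc.rc_lt (H : Cyc I F b X Y m g h) {i : ℕ} (hi : i < m) (he : Even i) : i + 1 < m := by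
  rcases Nat.lt_or_ge (i + 1) m with h1 | h1
  · exact h1
  · exfalso
    have h2 : m = i + 1 := by omega
    have h3 := H.even
    rw [h2] at h3
    exact (Nat.not_even_iff_odd.2 he.add_one) h3

/-- even vertices: the `Y`-edge goes up -/
theorem Cyc.rc_Y_even (H : Cyc I F b X Y m g h) {i : ℕ} (hi : i < m) (he : Even i) :
    Y (g i) = g (i + 1) := by
  rw [H.step i (H.rc_lt hi he), if_pos he]

/-- odd vertices: the `Y`-edge goes down -/
theorem Cyc.rc_Y_odd (H : Cyc I F b X Y m g h) {i : ℕ} (hi : i < m) (he : ¬ Even i) :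
    Y (g i) = g (i - 1) := by
  have h0 : i ≠ 0 := by rintro rfl; exact he Even.zero
  have h1 : Even (i - 1) := by
    rw [Nat.even_sub (by omega)]
    constructor
    · intro h; exact absurd h he
    · intro h; exact absurd h (by decide)
  have h2 := H.step (i - 1) (by omega)
  rw [if_pos h1, Nat.sub_add_cancel (by omega)] at h2
  rw [h2, H.rcY]

/-- even vertices: the `X`-edge goes down -/
theorem Cyc.rc_X_even (H : Cyc I F b X Y m g h) {i : ℕ} (hi : i < m) (he : Even i) (h0 : 0 < i) :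
    X (g i) = g (i - 1) := by
  have h1 : ¬ Even (i - 1) := by
    rw [Nat.even_sub (by omega)]
    intro h2
    exact absurd (h2.1 he) (by decide)
  have h2 := H.step (i - 1) (by omega)
  rw [if_neg h1, Nat.sub_add_cancel (by omega)] at h2
  rw [h2, H.rcX]

/-- odd vertices: the `X`-edge goes up -/
theorem Cyc.rc_X_odd (H : Cyc I F b X Y m g h) {i : ℕ} (hi : i + 1 < m) (he : ¬ Even i) :
    X (g i) = g (i + 1) := by
  rw [H.step i hi, if_neg he]

theorem Cyc.rc_X_last (H : Cyc I F b X Y m g h) : X (g (m - 1)) = g 0 := by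
  rw [← H.close, H.rcX]

/-- the height of the `X`-edge -/
theorem Cyc.rc_hX (hs : ∀ u v, h u v = h v u) (H : Cyc I F b X Y m g h) {i : ℕ} (hi : i < m) :
    h (g i) (X (g i)) = ht m g h (if Even i then i else i + 1) := by
  by_cases he : Even i
  · rw [if_pos he]
    rcases Nat.eq_zero_or_pos i with rfl | h0
    · rw [H.close, ht, if_pos (Or.inl rfl), hs]
    · rw [H.rc_X_even hi he h0, ht, if_neg (by omega), hs]
  · rw [if_neg he]
    rcases Nat.lt_or_ge (i + 1) m with h1 | h1
    · rw [H.rc_X_odd h1 he, ht, if_neg (by omega)]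
      rfl
    · have h2 : i = m - 1 := by omega
      rw [ht, if_pos (Or.inr h1), h2, H.rc_X_last]

/-- the height of the `Y`-edge -/
theorem Cyc.rc_hY (hs : ∀ u v, h u v = h v u) (H : Cyc I F b X Y m g h) {i : ℕ} (hi : i < m) :
    h (g i) (Y (g i)) = ht m g h (if Even i then i + 1 else i) := by
  by_cases he : Even i
  · rw [if_pos he, H.rc_Y_even hi he, ht, if_neg (by have := H.rc_lt hi he; omega)]
    rfl
  · have h0 : i ≠ 0 := by rintro rfl; exact he Even.zero
    rw [if_neg he, H.rc_Y_odd hi he, ht, if_neg (by omega), hs]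

/-- the closing edge is the lowest -/
theorem Cyc.rc_min (H : Cyc I F b X Y m g h) (i : ℕ) : ht m g h 0 ≤ ht m g h i := by
  by_cases h0 : i = 0 ∨ m ≤ i
  · rw [ht, if_pos (Or.inl rfl), ht, if_pos h0]
  · rw [ht, if_pos (Or.inl rfl), ht, if_neg h0]
    have h1 := H.min (i - 1) (by omega)
    rwa [Nat.sub_add_cancel (by omega)] at h1

end RCaux

theorem cycrc_lev_iff {E : Exps V} {L t : ℕ} {Z : V → V} {v : V} (h0 : Z v ≠ v) :
    lev E L t Z v = v ↔ sim E L v (Z v) < t := by
  unfold lev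
  split_ifs with h1
  · exact ⟨fun h => absurd h h0, fun h => by omega⟩
  · exact ⟨fun _ => by omega, fun _ => rfl⟩

theorem cycrc_orb_swap {a b : V → V} {z v : V} (h : Orb a b id z v) : Orb b a id z v := by
  unfold Orb at h ⊢
  refine Relation.ReflTransGen.mono ?_ _ _ h
  rintro x y (h1 | h1 | h1)
  · exact Or.inr (Or.inl h1)
  · exact Or.inl h1
  · exact Or.inr (Or.inr h1)

/-- invariants of orbits -/
theorem cycrc_orb_inv {a b : V → V} {z v : V} (h : Orb a b id z v) (P : V → Prop) (ha : ∀ x, P x → P (a x))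
    (hb : ∀ x, P x → P (b x)) (hz : P z) : P v := by
  induction h with
  | refl => exact hz
  | tail _ h1 ih =>
    rcases h1 with h1 | h1 | h1
    · rw [h1]; exact ha _ ih
    · rw [h1]; exact hb _ ih
    · rw [h1]; exact ih

/-- the main case of the run condition -/
theorem Cyc.rc_main (E : Exps V) (L : ℕ) {I F X Y : V → V} {b : Bool} {m : ℕ} {g : ℕ → V}
    (H : Cyc I F b X Y m g (sim E L)) {S : ℕ → Prop} {D : Finset ℕ}
    (hblock : ∀ a b', a < b' → b' ≤ m → (∀ i, a < i → i < b' →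
      ht m g (sim E L) a < ht m g (sim E L) i ∧ ht m g (sim E L) b' < ht m g (sim E L) i) →
      (S a ↔ S (b' - 1)) ∨ a ∈ D ∨ b' ∈ D) {t i i' : ℕ} (hi : i < m) (hi' : i' < m)
    (ho : Orb (lev E L t X) (lev E L t Y) id (g i) (g i'))
    (hb : lev E L t X (g i) = g i ∨ lev E L t Y (g i) = g i)
    (hb' : lev E L t X (g i') = g i' ∨ lev E L t Y (g i') = g i') (hS : ¬ (S i ↔ S i')) :
    ∃ u, (u = g i ∨ u = g i') ∧
      ((lev E L t X u = u ∧ u ∈ cycDX m g D) ∨ (lev E L t Y u = u ∧ u ∈ cycDY m g D)) := by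
  classical
  have hsym : ∀ u v, sim E L u v = sim E L v u := sim_symm E L
  have hX : ∀ x, x < m → (lev E L t X (g x) = g x ↔
      ht m g (sim E L) (if Even x then x else x + 1) < t) := fun x hx => by
    rw [cycrc_lev_iff (H.rcX0 _), H.rc_hX hsym hx]
  have hY : ∀ x, x < m → (lev E L t Y (g x) = g x ↔
      ht m g (sim E L) (if Even x then x + 1 else x) < t) := fun x hx => by
    rw [cycrc_lev_iff (H.rcY0 _), H.rc_hY hsym hx]
  -- a boundary vertex has a low edge
  have hbd : ∀ x, x < m → (lev E L t X (g x) = g x ∨ lev E L t Y (g x) = g x) →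
      ht m g (sim E L) x < t ∨ ht m g (sim E L) (x + 1) < t := by
    intro x hx h1
    rw [hX x hx, hY x hx] at h1
    by_cases he : Even x
    · rw [if_pos he, if_pos he] at h1
      exact h1
    · rw [if_neg he, if_neg he] at h1
      exact h1.symm
  have h0 : ht m g (sim E L) 0 < t := by
    rcases hbd i hi hb with h1 | h1
    · exact lt_of_le_of_lt (H.rc_min i) h1
    · exact lt_of_le_of_lt (H.rc_min (i + 1)) h1
  have hm : ht m g (sim E L) m < t := by
    have h1 : ht m g (sim E L) m = ht m g (sim E L) 0 := by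
      rw [ht, ht, if_pos (Or.inr le_rfl), if_pos (Or.inl rfl)]
    rw [h1]; exact h0
  -- the maximal interval
  obtain ⟨a, ha1, ha2, ha3⟩ : ∃ a, a ≤ i ∧ ht m g (sim E L) a < t ∧
      ∀ x, a < x → x ≤ i → t ≤ ht m g (sim E L) x := by
    have hne : ((Finset.range (i + 1)).filter fun x => ht m g (sim E L) x < t).Nonempty :=
      ⟨0, Finset.mem_filter.2 ⟨Finset.mem_range.2 (by omega), h0⟩⟩
    refine ⟨Finset.max' _ hne, ?_, ?_, ?_⟩
    · have h1 := (Finset.mem_filter.1 (Finset.max'_mem _ hne)).1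
      have h2 := Finset.mem_range.1 h1
      omega
    · exact (Finset.mem_filter.1 (Finset.max'_mem _ hne)).2
    · intro x h1 h2
      by_contra h3
      have h4 := Finset.le_max' ((Finset.range (i + 1)).filter fun x => ht m g (sim E L) x < t) x
        (Finset.mem_filter.2 ⟨Finset.mem_range.2 (by omega : x < i + 1), by omega⟩)
      omega
  obtain ⟨c, hc1, hc2, hc3, hc4⟩ : ∃ c, i < c ∧ c ≤ m ∧ ht m g (sim E L) c < t ∧
      ∀ x, i < x → x < c → t ≤ ht m g (sim E L) x := by
    have hex : ∃ c, i < c ∧ ht m g (sim E L) c < t := ⟨m, hi, hm⟩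
    refine ⟨Nat.find hex, (Nat.find_spec hex).1, Nat.find_min' hex ⟨hi, hm⟩,
      (Nat.find_spec hex).2, ?_⟩
    intro x h1 h2
    by_contra h3
    exact Nat.find_min hex h2 ⟨h1, by omega⟩
  have hin : ∀ x, a < x → x < c → t ≤ ht m g (sim E L) x := by
    intro x h1 h2
    rcases le_or_gt x i with h3 | h3
    · exact ha3 x h1 h3
    · exact hc4 x h3 h2
  -- the interval is closed
  have hcl : ∃ x, a ≤ x ∧ x < c ∧ g x = g i' := by
    refine cycrc_orb_inv ho (fun v => ∃ x, a ≤ x ∧ x < c ∧ g x = v) ?_ ?_ ⟨i, ha1, hc1, rfl⟩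
    · rintro _ ⟨x, h1, h2, rfl⟩
      by_cases h3 : lev E L t X (g x) = g x
      · exact ⟨x, h1, h2, h3.symm⟩
      · have h4 : lev E L t X (g x) = X (g x) := by
          unfold lev at h3 ⊢
          split_ifs at h3 ⊢ with h5
          · rfl
          · exact absurd rfl h3
        rw [hX x (by omega)] at h3
        by_cases he : Even x
        · rw [if_pos he] at h3
          have h5 : x ≠ a := by rintro rfl; exact h3 ha2
          refine ⟨x - 1, by omega, by omega, ?_⟩
          rw [h4, H.rc_X_even (by omega) he (by omega)]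
        · rw [if_neg he] at h3
          have h5 : x + 1 ≠ c := by intro h6; rw [h6] at h3; exact h3 hc3
          refine ⟨x + 1, by omega, by omega, ?_⟩
          rw [h4, H.rc_X_odd (by omega) he]
    · rintro _ ⟨x, h1, h2, rfl⟩
      by_cases h3 : lev E L t Y (g x) = g x
      · exact ⟨x, h1, h2, h3.symm⟩
      · have h4 : lev E L t Y (g x) = Y (g x) := by
          unfold lev at h3 ⊢
          split_ifs at h3 ⊢ with h5
          · rfl
          · exact absurd rfl h3
        rw [hY x (by omega)] at h3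
        by_cases he : Even x
        · rw [if_pos he] at h3
          have h5 : x + 1 ≠ c := by intro h6; rw [h6] at h3; exact h3 hc3
          refine ⟨x + 1, by omega, by omega, ?_⟩
          rw [h4, H.rc_Y_even (by omega) he]
        · rw [if_neg he] at h3
          have h5 : x ≠ a := by rintro rfl; exact h3 ha2
          refine ⟨x - 1, by omega, by omega, ?_⟩
          rw [h4, H.rc_Y_odd (by omega) he]
  obtain ⟨x, hx1, hx2, hx3⟩ := hcl
  have hxi : x = i' := H.inj x i' (by omega) hi' hx3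
  subst hxi
  -- boundary vertices are at the ends
  have hend : ∀ y, a ≤ y → y < c → (lev E L t X (g y) = g y ∨ lev E L t Y (g y) = g y) →
      y = a ∨ y = c - 1 := by
    intro y h1 h2 h3
    rcases hbd y (by omega) h3 with h4 | h4
    · left
      by_contra h5
      have := hin y (by omega) h2
      omega
    · right
      by_contra h5
      have := hin (y + 1) (by omega) (by omega)
      omega
  have hi1 := hend i ha1 hc1 hb
  have hx4 := hend x hx1 hx2 hb'
  have hne : i ≠ x := by rintro rfl; exact hS Iff.rfl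
  have hac : ¬ (S a ↔ S (c - 1)) := by
    rcases hi1 with h1 | h1 <;> rcases hx4 with h2 | h2
    · omega
    · rw [← h1, ← h2]; exact hS
    · rw [← h1, ← h2]; exact fun h => hS h.symm
    · omega
  have hga : g a = g i ∨ g a = g x := by
    rcases hi1 with h1 | h1
    · exact Or.inl (by rw [h1])
    · rcases hx4 with h2 | h2
      · exact Or.inr (by rw [h2])
      · omega
  have hgc : g (c - 1) = g i ∨ g (c - 1) = g x := by
    rcases hi1 with h1 | h1
    · rcases hx4 with h2 | h2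
      · omega
      · exact Or.inr (by rw [h2])
    · exact Or.inl (by rw [h1])
  rcases hblock a c (by omega) hc2 (fun y h1 h2 => ⟨lt_of_lt_of_le ha2 (hin y h1 h2),
      lt_of_lt_of_le hc3 (hin y h1 h2)⟩) with h1 | h1 | h1
  · exact absurd h1 hac
  · refine ⟨g a, hga, ?_⟩
    by_cases he : Even a
    · left
      refine ⟨(hX a (by omega)).2 (by rw [if_pos he]; exact ha2), ?_⟩
      unfold cycDX
      rw [Finset.mem_filter]
      refine ⟨Finset.mem_univ _, a, by omega, rfl, ?_⟩
      rcases Nat.eq_zero_or_pos a with h2 | h2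
      · right; right
        rw [h2] at h1
        exact ⟨Or.inl h1, Or.inl h2⟩
      · exact Or.inl ⟨h1, he, h2⟩
    · right
      refine ⟨(hY a (by omega)).2 (by rw [if_neg he]; exact ha2), ?_⟩
      unfold cycDY
      rw [Finset.mem_filter]
      exact ⟨Finset.mem_univ _, a, by omega, rfl, Or.inl ⟨h1, Nat.not_even_iff_odd.1 he⟩⟩
  · refine ⟨g (c - 1), hgc, ?_⟩
    have hc5 : c - 1 + 1 = c := by omega
    by_cases he : Even (c - 1)
    · right
      refine ⟨(hY (c - 1) (by omega)).2 (by rw [if_pos he, hc5]; exact hc3), ?_⟩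
      unfold cycDY
      rw [Finset.mem_filter]
      refine ⟨Finset.mem_univ _, c - 1, by omega, rfl, Or.inr ⟨by rw [hc5]; exact h1, he, ?_⟩⟩
      exact H.rc_lt (by omega) he
    · left
      refine ⟨(hX (c - 1) (by omega)).2 (by rw [if_neg he, hc5]; exact hc3), ?_⟩
      unfold cycDX
      rw [Finset.mem_filter]
      refine ⟨Finset.mem_univ _, c - 1, by omega, rfl, ?_⟩
      rcases Nat.lt_or_ge c m with h2 | h2
      · exact Or.inr (Or.inl ⟨by rw [hc5]; exact h1, Nat.not_even_iff_odd.1 he, by omega⟩)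
      · right; right
        have h3 : c = m := by omega
        rw [h3] at h1
        exact ⟨Or.inr h1, Or.inr (by omega)⟩

theorem cycrc_lev_inv {E : Exps V} {L t : ℕ} {Z : V → V} (P : V → Prop) (h : ∀ v, P v → P (Z v)) (v : V)
    (hv : P v) : P (lev E L t Z v) := by
  unfold lev
  split_ifs
  · exact h v hv
  · exact hv

/-- The run condition. -/
theorem cyc_rc (E : Exps V) (L : ℕ) {I F X Y : V → V} {b : Bool} {m : ℕ} {g : ℕ → V}
    (H : Cyc I F b X Y m g (sim E L)) {τ0 : V → Bool} (hτI : ∀ v, τ0 (I v) = τ0 v)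
    (hτF : ∀ v, τ0 (F v) = τ0 v) {S : ℕ → Prop} {D : Finset ℕ}
    (hblock : ∀ a b', a < b' → b' ≤ m → (∀ i, a < i → i < b' →
      ht m g (sim E L) a < ht m g (sim E L) i ∧ ht m g (sim E L) b' < ht m g (sim E L) i) →
      (S a ↔ S (b' - 1)) ∨ a ∈ D ∨ b' ∈ D) :
    RC E L I F (cycSt τ0 b m g S D) := by
  classical
  -- the cycle is closed under `X`, `Y`
  have hcX : ∀ v, (∃ i < m, g i = v) → ∃ i < m, g i = X v := by
    rintro _ ⟨i, hi, rfl⟩
    by_cases he : Even i
    · rcases Nat.eq_zero_or_pos i with h1 | h1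
      · exact ⟨m - 1, by omega, by rw [h1, H.close]⟩
      · exact ⟨i - 1, by omega, by rw [H.rc_X_even hi he h1]⟩
    · rcases Nat.lt_or_ge (i + 1) m with h1 | h1
      · exact ⟨i + 1, h1, by rw [H.rc_X_odd h1 he]⟩
      · have h2 : i = m - 1 := by omega
        exact ⟨0, by omega, by rw [h2, H.rc_X_last]⟩
  have hcY : ∀ v, (∃ i < m, g i = v) → ∃ i < m, g i = Y v := by
    rintro _ ⟨i, hi, rfl⟩
    by_cases he : Even i
    · exact ⟨i + 1, H.rc_lt hi he, by rw [H.rc_Y_even hi he]⟩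
    · exact ⟨i - 1, by omega, by rw [H.rc_Y_odd hi he]⟩
  have hcI : ∀ v, (∃ i < m, g i = v) → ∃ i < m, g i = I v := by
    rcases H.xy with ⟨_, h1, h2⟩ | ⟨_, h1, h2⟩
    · rw [← h1]; exact hcX
    · rw [← h2]; exact hcY
  have hcF : ∀ v, (∃ i < m, g i = v) → ∃ i < m, g i = F v := by
    rcases H.xy with ⟨_, h1, h2⟩ | ⟨_, h1, h2⟩
    · rw [← h2]; exact hcY
    · rw [← h1]; exact hcX
  intro t _ v v' ho hb hb' hS
  have hinvI : ∀ x, (¬ ∃ i < m, g i = x) → ¬ ∃ i < m, g i = I x := by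
    intro x hx h1
    have h2 := hcI _ h1
    rw [H.hI] at h2
    exact hx h2
  have hinvF : ∀ x, (¬ ∃ i < m, g i = x) → ¬ ∃ i < m, g i = F x := by
    intro x hx h1
    have h2 := hcF _ h1
    rw [H.hF] at h2
    exact hx h2
  by_cases hv : ∃ i < m, g i = v
  · have hv' : ∃ i < m, g i = v' :=
      cycrc_orb_inv ho (fun x => ∃ i < m, g i = x) (cycrc_lev_inv _ hcI) (cycrc_lev_inv _ hcF) hv
    obtain ⟨i, hi, rfl⟩ := hv
    obtain ⟨i', hi', rfl⟩ := hv'
    have hτ : ∀ x, x < m → ((cycSt τ0 b m g S D).τ (g x) = true ↔ S x) := by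
      intro x hx
      show (if ∃ i < m, g i = g x then decide (∃ i < m, g i = g x ∧ S i) else τ0 (g x)) = true ↔ _
      rw [if_pos ⟨x, hx, rfl⟩, decide_eq_true_iff]
      constructor
      · rintro ⟨y, hy, h1, h2⟩
        rw [← H.inj y x hy hx h1]; exact h2
      · intro h1
        exact ⟨x, hx, rfl, h1⟩
    have hS' : ¬ (S i ↔ S i') := by
      rw [← hτ i hi, ← hτ i' hi']
      intro h1
      exact hS (Bool.eq_iff_iff.2 h1)
    rcases H.xy with ⟨h0, h1, h2⟩ | ⟨h0, h1, h2⟩
    · subst h0 h1 h2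
      obtain ⟨u, hu1, hu2⟩ := H.rc_main E L hblock hi hi' ho hb hb' hS'
      refine ⟨u, ?_, ?_⟩
      · rcases hu1 with h1 | h1
        · rw [h1]; exact Relation.ReflTransGen.refl
        · rw [h1]; exact ho
      · simpa [cycSt] using hu2
    · subst h0 h1 h2
      obtain ⟨u, hu1, hu2⟩ := H.rc_main E L hblock hi hi' (cycrc_orb_swap ho) hb.symm hb'.symm hS'
      refine ⟨u, ?_, ?_⟩
      · rcases hu1 with h1 | h1
        · rw [h1]; exact Relation.ReflTransGen.refl
        · rw [h1]; exact ho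
      · simpa [cycSt] using hu2.symm
  · exfalso
    have hv' : ¬ ∃ i < m, g i = v' :=
      cycrc_orb_inv ho (fun x => ¬ ∃ i < m, g i = x) (cycrc_lev_inv _ hinvI) (cycrc_lev_inv _ hinvF) hv
    have h1 : (cycSt τ0 b m g S D).τ v = τ0 v := if_neg hv
    have h2 : (cycSt τ0 b m g S D).τ v' = τ0 v' := if_neg hv'
    rw [h1, h2] at hS
    have h3 : τ0 v' = τ0 v :=
      cycrc_orb_inv ho (fun x => τ0 x = τ0 v) (cycrc_lev_inv _ (fun x hx => by rw [hτI]; exact hx))
        (cycrc_lev_inv _ (fun x hx => by rw [hτF]; exact hx)) rfl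
    exact hS h3.symm

/-! ### CYCPATH: helper lemmas -/

theorem cp_mem_DX {m : ℕ} {g : ℕ → V} {D : Finset ℕ} {v : V} :
    v ∈ cycDX m g D ↔ ∃ i < m, g i = v ∧
    ((i ∈ D ∧ Even i ∧ 0 < i) ∨ (i + 1 ∈ D ∧ Odd i ∧ i + 1 < m) ∨
      ((0 ∈ D ∨ m ∈ D) ∧ (i = 0 ∨ i = m - 1))) := by
  simp only [cycDX, mem_filter, mem_univ, true_and]

theorem cp_mem_DY {m : ℕ} {g : ℕ → V} {D : Finset ℕ} {v : V} :
    v ∈ cycDY m g D ↔ ∃ i < m, g i = v ∧
    ((i ∈ D ∧ Odd i) ∨ (i + 1 ∈ D ∧ Even i ∧ i + 1 < m)) := by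
  simp only [cycDY, mem_filter, mem_univ, true_and]

theorem cp_DX_empty (m : ℕ) (g : ℕ → V) : cycDX m g ∅ = ∅ := by
  ext v; rw [cp_mem_DX]; simp

theorem cp_DY_empty (m : ℕ) (g : ℕ → V) : cycDY m g ∅ = ∅ := by
  ext v; rw [cp_mem_DY]; simp

theorem cp_St_ext {s s' : St V} (h1 : s.τ = s'.τ) (h2 : s.DI = s'.DI) (h3 : s.DF = s'.DF) :
    s = s' := by
  cases s; cases s'; simp_all

/-- the states depend only on `S` on `[0, m)` -/
theorem cp_St_congr {τ0 : V → Bool} {b : Bool} {m : ℕ} {g : ℕ → V} {S S' : ℕ → Prop}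
    {D : Finset ℕ} (h : ∀ i < m, (S i ↔ S' i)) :
    cycSt τ0 b m g S D = cycSt τ0 b m g S' D := by
  refine cp_St_ext ?_ rfl rfl
  funext v
  simp only [cycSt]
  split_ifs with hv
  · congr 1
    apply propext
    constructor
    · rintro ⟨i, hi, hg, hs⟩; exact ⟨i, hi, hg, (h i hi).1 hs⟩
    · rintro ⟨i, hi, hg, hs⟩; exact ⟨i, hi, hg, (h i hi).2 hs⟩
  · rfl

theorem cp_start {τ0 : V → Bool} {b : Bool} {m : ℕ} {g : ℕ → V}
    (h0 : ∀ i < m, τ0 (g i) = false) :
    cycSt τ0 b m g (fun _ => False) ∅ = ⟨τ0, ∅, ∅⟩ := by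
  refine cp_St_ext ?_ ?_ ?_
  · funext v
    simp only [cycSt]
    split_ifs with hv
    · obtain ⟨i, hi, rfl⟩ := hv
      simp [h0 i hi]
    · rfl
  · simp [cycSt, cp_DX_empty, cp_DY_empty]
  · simp [cycSt, cp_DX_empty, cp_DY_empty]

theorem cp_out {τ0 : V → Bool} {b : Bool} {m : ℕ} {g : ℕ → V} {S : ℕ → Prop} {D : Finset ℕ}
    {v : V} (hv : ∀ i < m, g i ≠ v) :
    (cycSt τ0 b m g S D).τ v = τ0 v ∧ v ∉ (cycSt τ0 b m g S D).DI ∧
      v ∉ (cycSt τ0 b m g S D).DF := by
  have h1 : v ∉ cycDX m g D := by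
    rw [cp_mem_DX]; rintro ⟨i, hi, hg, _⟩; exact hv i hi hg
  have h2 : v ∉ cycDY m g D := by
    rw [cp_mem_DY]; rintro ⟨i, hi, hg, _⟩; exact hv i hi hg
  refine ⟨?_, ?_, ?_⟩
  · simp only [cycSt]
    rw [if_neg]
    rintro ⟨i, hi, hg⟩; exact hv i hi hg
  · simp only [cycSt]; split_ifs <;> assumption
  · simp only [cycSt]; split_ifs <;> assumption

theorem PathS.refl {I F : V → V} {P : St V → Prop} {s : St V} (h : P s) (N : ℕ) :
    PathS I F P s s N :=
  ⟨0, fun _ => s, Nat.zero_le _, rfl, rfl, fun _ _ => h, fun i hi => absurd hi (Nat.not_lt_zero i)⟩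

theorem PathS.single {I F : V → V} {P : St V → Prop} {s s' : St V} (h : P s) (h' : P s')
    (hs : cur I F s = cur I F s' ∨ AdjM (cur I F s) (cur I F s')) : PathS I F P s s' 1 := by
  refine ⟨1, fun i => if i = 0 then s else s', le_rfl, by simp, by simp, ?_, ?_⟩
  · intro i _
    by_cases h0 : i = 0
    · simpa [h0] using h
    · simpa [h0] using h'
  · intro i hi
    have : i = 0 := by omega
    subst this
    simpa using hs

theorem PathS.symm {I F : V → V} {P : St V → Prop} {s s' : St V} {N : ℕ}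
    (h : PathS I F P s s' N) : PathS I F P s' s N := by
  obtain ⟨n, f, hn, h0, h1, hP, hst⟩ := h
  refine ⟨n, fun i => f (n - i), hn, by simpa using h1, by simpa using h0,
    fun i _ => hP _ (Nat.sub_le _ _), fun i hi => ?_⟩
  have h2 := hst (n - (i + 1)) (by omega)
  have h3 : n - (i + 1) + 1 = n - i := by omega
  rw [h3] at h2
  rcases h2 with h2 | h2
  · exact Or.inl h2.symm
  · exact Or.inr h2.symm

theorem PathS.le {I F : V → V} {P : St V → Prop} {s s' : St V} {N N' : ℕ}
    (h : PathS I F P s s' N) (hN : N ≤ N') : PathS I F P s s' N' := by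
  obtain ⟨n, f, hn, h0, h1, hP, hst⟩ := h
  exact ⟨n, f, hn.trans hN, h0, h1, hP, hst⟩

/-- inserting an index into `D` cuts one edge -/
theorem cp_insert {I F X Y : V → V} {b : Bool} {m : ℕ} {g : ℕ → V} {h : V → V → ℕ}
    (H : Cyc I F b X Y m g h) {D : Finset ℕ} {i : ℕ} (hi : i ≤ m) :
    (∃ v, cycDX m g (insert i D) = insert v (insert (X v) (cycDX m g D)) ∧
      cycDY m g (insert i D) = cycDY m g D) ∨
    (∃ v, cycDY m g (insert i D) = insert v (insert (Y v) (cycDY m g D)) ∧
      cycDX m g (insert i D) = cycDX m g D) := by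
  have hX : ∀ v, X (X v) = v := by
    rcases H.xy with ⟨_, rfl, _⟩ | ⟨_, rfl, _⟩
    · exact H.hI
    · exact H.hF
  have hY : ∀ v, Y (Y v) = v := by
    rcases H.xy with ⟨_, _, rfl⟩ | ⟨_, _, rfl⟩
    · exact H.hF
    · exact H.hI
  have htwo := H.two
  have heven := H.even
  by_cases hc : i = 0 ∨ i = m
  · -- the closing edge
    left
    refine ⟨g 0, ?_, ?_⟩
    · rw [H.close]
      ext v
      rw [mem_insert, mem_insert, cp_mem_DX, cp_mem_DX]
      constructor
      · rintro ⟨j, hj, hg, h1⟩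
        rcases h1 with ⟨h1, h2, h3⟩ | ⟨h1, h2, h3⟩ | ⟨_, h2⟩
        · rw [mem_insert] at h1
          have : j ∈ D := by
            rcases h1 with h1 | h1
            · omega
            · exact h1
          exact Or.inr (Or.inr ⟨j, hj, hg, Or.inl ⟨this, h2, h3⟩⟩)
        · rw [mem_insert] at h1
          have : j + 1 ∈ D := by
            rcases h1 with h1 | h1
            · omega
            · exact h1
          exact Or.inr (Or.inr ⟨j, hj, hg, Or.inr (Or.inl ⟨this, h2, h3⟩)⟩)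
        · rcases h2 with rfl | rfl
          · exact Or.inl hg.symm
          · exact Or.inr (Or.inl hg.symm)
      · rintro (rfl | rfl | ⟨j, hj, hg, h1⟩)
        · refine ⟨0, by omega, rfl, Or.inr (Or.inr ⟨?_, Or.inl rfl⟩)⟩
          rcases hc with rfl | rfl
          · exact Or.inl (mem_insert_self _ _)
          · exact Or.inr (mem_insert_self _ _)
        · refine ⟨m - 1, by omega, rfl, Or.inr (Or.inr ⟨?_, Or.inr rfl⟩)⟩
          rcases hc with rfl | rfl
          · exact Or.inl (mem_insert_self _ _)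
          · exact Or.inr (mem_insert_self _ _)
        · refine ⟨j, hj, hg, ?_⟩
          rcases h1 with ⟨h1, h2, h3⟩ | ⟨h1, h2, h3⟩ | ⟨h1, h2⟩
          · exact Or.inl ⟨mem_insert_of_mem h1, h2, h3⟩
          · exact Or.inr (Or.inl ⟨mem_insert_of_mem h1, h2, h3⟩)
          · exact Or.inr (Or.inr ⟨h1.imp mem_insert_of_mem mem_insert_of_mem, h2⟩)
    · ext v
      rw [cp_mem_DY, cp_mem_DY]
      constructor
      · rintro ⟨j, hj, hg, h1⟩
        refine ⟨j, hj, hg, ?_⟩
        rcases h1 with ⟨h1, h2⟩ | ⟨h1, h2, h3⟩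
        · rw [mem_insert] at h1
          rcases h1 with h1 | h1
          · exfalso
            obtain ⟨q, hq⟩ := h2
            omega
          · exact Or.inl ⟨h1, h2⟩
        · rw [mem_insert] at h1
          rcases h1 with h1 | h1
          · omega
          · exact Or.inr ⟨h1, h2, h3⟩
      · rintro ⟨j, hj, hg, h1⟩
        refine ⟨j, hj, hg, ?_⟩
        rcases h1 with ⟨h1, h2⟩ | ⟨h1, h2, h3⟩
        · exact Or.inl ⟨mem_insert_of_mem h1, h2⟩
        · exact Or.inr ⟨mem_insert_of_mem h1, h2, h3⟩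
  · have hi0 : 0 < i := by omega
    have him : i < m := by omega
    obtain ⟨k, rfl⟩ : ∃ k, i = k + 1 := ⟨i - 1, by omega⟩
    have hst := H.step k him
    rcases Nat.even_or_odd k with hk | hk
    · -- a `Y`-edge
      rw [if_pos hk] at hst
      right
      refine ⟨g k, ?_, ?_⟩
      · rw [← hst]
        ext v
        rw [mem_insert, mem_insert, cp_mem_DY, cp_mem_DY]
        constructor
        · rintro ⟨j, hj, hg, h1⟩
          rcases h1 with ⟨h1, h2⟩ | ⟨h1, h2, h3⟩
          · rw [mem_insert] at h1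
            rcases h1 with h1 | h1
            · subst h1; exact Or.inr (Or.inl hg.symm)
            · exact Or.inr (Or.inr ⟨j, hj, hg, Or.inl ⟨h1, h2⟩⟩)
          · rw [mem_insert] at h1
            rcases h1 with h1 | h1
            · have : j = k := by omega
              subst this; exact Or.inl hg.symm
            · exact Or.inr (Or.inr ⟨j, hj, hg, Or.inr ⟨h1, h2, h3⟩⟩)
        · rintro (rfl | rfl | ⟨j, hj, hg, h1⟩)
          · exact ⟨k, by omega, rfl, Or.inr ⟨mem_insert_self _ _, hk, him⟩⟩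
          · exact ⟨k + 1, him, rfl, Or.inl ⟨mem_insert_self _ _, hk.add_one⟩⟩
          · refine ⟨j, hj, hg, ?_⟩
            rcases h1 with ⟨h1, h2⟩ | ⟨h1, h2, h3⟩
            · exact Or.inl ⟨mem_insert_of_mem h1, h2⟩
            · exact Or.inr ⟨mem_insert_of_mem h1, h2, h3⟩
      · ext v
        rw [cp_mem_DX, cp_mem_DX]
        constructor
        · rintro ⟨j, hj, hg, h1⟩
          refine ⟨j, hj, hg, ?_⟩
          rcases h1 with ⟨h1, h2, h3⟩ | ⟨h1, h2, h3⟩ | ⟨h1, h2⟩
          · rw [mem_insert] at h1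
            rcases h1 with h1 | h1
            · exfalso
              obtain ⟨q, hq⟩ := h2
              obtain ⟨q', hq'⟩ := hk
              omega
            · exact Or.inl ⟨h1, h2, h3⟩
          · rw [mem_insert] at h1
            rcases h1 with h1 | h1
            · exfalso
              obtain ⟨q, hq⟩ := h2
              obtain ⟨q', hq'⟩ := hk
              omega
            · exact Or.inr (Or.inl ⟨h1, h2, h3⟩)
          · rw [mem_insert, mem_insert] at h1
            refine Or.inr (Or.inr ⟨?_, h2⟩)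
            rcases h1 with (h1 | h1) | (h1 | h1)
            · omega
            · exact Or.inl h1
            · omega
            · exact Or.inr h1
        · rintro ⟨j, hj, hg, h1⟩
          refine ⟨j, hj, hg, ?_⟩
          rcases h1 with ⟨h1, h2, h3⟩ | ⟨h1, h2, h3⟩ | ⟨h1, h2⟩
          · exact Or.inl ⟨mem_insert_of_mem h1, h2, h3⟩
          · exact Or.inr (Or.inl ⟨mem_insert_of_mem h1, h2, h3⟩)
          · exact Or.inr (Or.inr ⟨h1.imp mem_insert_of_mem mem_insert_of_mem, h2⟩)
    · -- an inner `X`-edge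
      rw [if_neg (Nat.not_even_iff_odd.2 hk)] at hst
      left
      refine ⟨g k, ?_, ?_⟩
      · rw [← hst]
        ext v
        rw [mem_insert, mem_insert, cp_mem_DX, cp_mem_DX]
        constructor
        · rintro ⟨j, hj, hg, h1⟩
          rcases h1 with ⟨h1, h2, h3⟩ | ⟨h1, h2, h3⟩ | ⟨h1, h2⟩
          · rw [mem_insert] at h1
            rcases h1 with h1 | h1
            · subst h1; exact Or.inr (Or.inl hg.symm)
            · exact Or.inr (Or.inr ⟨j, hj, hg, Or.inl ⟨h1, h2, h3⟩⟩)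
          · rw [mem_insert] at h1
            rcases h1 with h1 | h1
            · have : j = k := by omega
              subst this; exact Or.inl hg.symm
            · exact Or.inr (Or.inr ⟨j, hj, hg, Or.inr (Or.inl ⟨h1, h2, h3⟩)⟩)
          · rw [mem_insert, mem_insert] at h1
            refine Or.inr (Or.inr ⟨j, hj, hg, Or.inr (Or.inr ⟨?_, h2⟩)⟩)
            rcases h1 with (h1 | h1) | (h1 | h1)
            · omega
            · exact Or.inl h1
            · omega
            · exact Or.inr h1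
        · rintro (rfl | rfl | ⟨j, hj, hg, h1⟩)
          · exact ⟨k, by omega, rfl, Or.inr (Or.inl ⟨mem_insert_self _ _, hk, him⟩)⟩
          · exact ⟨k + 1, him, rfl, Or.inl ⟨mem_insert_self _ _, hk.add_one, by omega⟩⟩
          · refine ⟨j, hj, hg, ?_⟩
            rcases h1 with ⟨h1, h2, h3⟩ | ⟨h1, h2, h3⟩ | ⟨h1, h2⟩
            · exact Or.inl ⟨mem_insert_of_mem h1, h2, h3⟩
            · exact Or.inr (Or.inl ⟨mem_insert_of_mem h1, h2, h3⟩)
            · exact Or.inr (Or.inr ⟨h1.imp mem_insert_of_mem mem_insert_of_mem, h2⟩)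
      · ext v
        rw [cp_mem_DY, cp_mem_DY]
        constructor
        · rintro ⟨j, hj, hg, h1⟩
          refine ⟨j, hj, hg, ?_⟩
          rcases h1 with ⟨h1, h2⟩ | ⟨h1, h2, h3⟩
          · rw [mem_insert] at h1
            rcases h1 with h1 | h1
            · exfalso
              obtain ⟨q, hq⟩ := h2
              obtain ⟨q', hq'⟩ := hk
              omega
            · exact Or.inl ⟨h1, h2⟩
          · rw [mem_insert] at h1
            rcases h1 with h1 | h1
            · exfalso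
              obtain ⟨q, hq⟩ := h2
              obtain ⟨q', hq'⟩ := hk
              omega
            · exact Or.inr ⟨h1, h2, h3⟩
        · rintro ⟨j, hj, hg, h1⟩
          refine ⟨j, hj, hg, ?_⟩
          rcases h1 with ⟨h1, h2⟩ | ⟨h1, h2, h3⟩
          · exact Or.inl ⟨mem_insert_of_mem h1, h2⟩
          · exact Or.inr ⟨mem_insert_of_mem h1, h2, h3⟩

/-- one step: `D` grows by one index -/
theorem cp_step {I F X Y : V → V} {b : Bool} {m : ℕ} {g : ℕ → V} {h : V → V → ℕ}
    (H : Cyc I F b X Y m g h) {τ0 : V → Bool} {S : ℕ → Prop} {D : Finset ℕ} {i : ℕ} (hi : i ≤ m)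
    (h1 : Vld I F (cycSt τ0 b m g S D)) (h2 : Vld I F (cycSt τ0 b m g S (insert i D))) :
    cur I F (cycSt τ0 b m g S D) = cur I F (cycSt τ0 b m g S (insert i D)) ∨
      AdjM (cur I F (cycSt τ0 b m g S D)) (cur I F (cycSt τ0 b m g S (insert i D))) := by
  rcases H.xy with ⟨rfl, rfl, rfl⟩ | ⟨rfl, rfl, rfl⟩
  · rcases cp_insert H (D := D) hi with ⟨v, e1, e2⟩ | ⟨v, e1, e2⟩
    · exact cut_step_I H.hI H.hF H.hI0 H.hF0 h1 h2 (v := v) rfl
        (by simp only [cycSt, if_true]; exact e2) (by simp only [cycSt, if_true]; exact e1)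
    · exact cut_step_F H.hI H.hF H.hI0 H.hF0 h1 h2 (v := v) rfl
        (by simp only [cycSt, if_true]; exact e2) (by simp only [cycSt, if_true]; exact e1)
  · rcases cp_insert H (D := D) hi with ⟨v, e1, e2⟩ | ⟨v, e1, e2⟩
    · exact cut_step_F H.hI H.hF H.hI0 H.hF0 h1 h2 (v := v) rfl
        (by simp only [cycSt, Bool.false_eq_true, if_false]; exact e2)
        (by simp only [cycSt, Bool.false_eq_true, if_false]; exact e1)
    · exact cut_step_I H.hI H.hF H.hI0 H.hF0 h1 h2 (v := v) rfl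
        (by simp only [cycSt, Bool.false_eq_true, if_false]; exact e2)
        (by simp only [cycSt, Bool.false_eq_true, if_false]; exact e1)

/-- toggling a vertex both of whose edges are cut -/
theorem cp_toggle {I F X Y : V → V} {b : Bool} {m : ℕ} {g : ℕ → V} {h : V → V → ℕ}
    (H : Cyc I F b X Y m g h) {τ0 : V → Bool} {S S' : ℕ → Prop} {D : Finset ℕ} {k : ℕ}
    (hk : k < m) (hS : ∀ i, i ≠ k → (S' i ↔ S i)) (hkD : k ∈ D) (hkD' : k + 1 ∈ D) :
    cur I F (cycSt τ0 b m g S D) = cur I F (cycSt τ0 b m g S' D) := by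
  have htwo := H.two
  have heven := H.even
  have hX : g k ∈ cycDX m g D := by
    rw [cp_mem_DX]
    refine ⟨k, hk, rfl, ?_⟩
    rcases Nat.even_or_odd k with he | ho
    · rcases Nat.eq_zero_or_pos k with h0 | h0
      · subst h0; exact Or.inr (Or.inr ⟨Or.inl hkD, Or.inl rfl⟩)
      · exact Or.inl ⟨hkD, he, h0⟩
    · by_cases hm : k + 1 < m
      · exact Or.inr (Or.inl ⟨hkD', ho, hm⟩)
      · have hm' : k + 1 = m := by omega
        exact Or.inr (Or.inr ⟨Or.inr (by rw [← hm']; exact hkD'), Or.inr (by omega)⟩)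
  have hY : g k ∈ cycDY m g D := by
    rw [cp_mem_DY]
    refine ⟨k, hk, rfl, ?_⟩
    rcases Nat.even_or_odd k with he | ho
    · refine Or.inr ⟨hkD', he, ?_⟩
      obtain ⟨q, hq⟩ := he
      obtain ⟨q', hq'⟩ := heven
      omega
    · exact Or.inl ⟨hkD, ho⟩
  refine tog_step (v := g k) rfl rfl ?_ ?_ ?_
  · intro u hu
    simp only [cycSt]
    split_ifs with hv
    · congr 1
      apply propext
      constructor
      · rintro ⟨i, hi, hg, hs⟩
        exact ⟨i, hi, hg, (hS i (fun e => hu (by rw [← hg, e]))).1 hs⟩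
      · rintro ⟨i, hi, hg, hs⟩
        exact ⟨i, hi, hg, (hS i (fun e => hu (by rw [← hg, e]))).2 hs⟩
    · rfl
  · simp only [cycSt]; split_ifs <;> assumption
  · simp only [cycSt]; split_ifs <;> assumption

/-- growing `D` -/
theorem cp_grow {I F X Y : V → V} {b : Bool} {m : ℕ} {g : ℕ → V} {h : V → V → ℕ}
    (H : Cyc I F b X Y m g h) {τ0 : V → Bool} {S : ℕ → Prop} {P : St V → Prop}
    (hPV : ∀ s, P s → Vld I F s) (D : Finset ℕ) (T : Finset ℕ) (hT : ∀ i ∈ T, i ≤ m)
    (hP : ∀ D', D ⊆ D' → D' ⊆ D ∪ T → P (cycSt τ0 b m g S D')) :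
    PathS I F P (cycSt τ0 b m g S D) (cycSt τ0 b m g S (D ∪ T)) T.card := by
  induction T using Finset.induction_on with
  | empty =>
    rw [union_empty]
    exact PathS.refl (hP D (Subset.refl _) (by rw [union_empty])) _
  | insert a T ha ih =>
    have e1 : D ∪ insert a T = insert a (D ∪ T) := by
      ext x; simp only [mem_union, mem_insert]; tauto
    have hP1 : P (cycSt τ0 b m g S (D ∪ T)) :=
      hP _ subset_union_left (by rw [e1]; exact subset_insert _ _)
    have hP2 : P (cycSt τ0 b m g S (insert a (D ∪ T))) :=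
      hP _ (subset_union_left.trans (subset_insert _ _)) (by rw [e1])
    have h1 := ih (fun i hi => hT i (mem_insert_of_mem hi)) (fun D' h1 h2 => hP D' h1
      (h2.trans (by rw [e1]; exact subset_insert _ _)))
    have h2 := PathS.single hP1 hP2 (cp_step H (hT a (mem_insert_self _ _))
      (hPV _ hP1) (hPV _ hP2))
    rw [e1, card_insert_of_notMem ha]
    exact h1.trans h2

/-- the property along the path -/
def cpP (E : Exps V) (L : ℕ) (I F : V → V) (m : ℕ) (g : ℕ → V) (τ0 : V → Bool) (s : St V) : Prop :=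
  Vld I F s ∧ RC E L I F s ∧
        s.DI.card + s.DF.card ≤ 2 * (6 * Nat.log 2 (Fintype.card V) + 6) ∧
        ∀ v, (∀ i < m, g i ≠ v) → s.τ v = τ0 v ∧ v ∉ s.DI ∧ v ∉ s.DF

theorem cp_good (E : Exps V) (L : ℕ) {I F X Y : V → V} {b : Bool} {m : ℕ} {g : ℕ → V}
    (H : Cyc I F b X Y m g (sim E L)) {τ0 : V → Bool} (hτI : ∀ v, τ0 (I v) = τ0 v)
    (hτF : ∀ v, τ0 (F v) = τ0 v) {S : ℕ → Prop} {D : Finset ℕ}
    (hO : OCond (ht m g (sim E L)) 0 m S D)
    (hc : D.card ≤ 6 * Nat.log 2 (Fintype.card V) + 6) :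
    cpP E L I F m g τ0 (cycSt τ0 b m g S D) := by
  refine ⟨?_, ?_, ?_, fun v hv => cp_out hv⟩
  · refine cyc_vld H hτI hτF ⟨fun i hi => (hO.sub i hi).2, hO.trans, fun hne => ?_⟩
    by_cases h0 : S 0
    · right
      exact hO.right fun hm => hne (iff_of_true h0 hm)
    · left; exact hO.left h0
  · exact cyc_rc E L H hτI hτF fun a b' h1 h2 h3 => hO.block a b' (Nat.zero_le _) h1 h2 h3
  · exact (cyc_card H τ0 S D).trans (by omega)

theorem cp_good_const (E : Exps V) (L : ℕ) {I F X Y : V → V} {b : Bool} {m : ℕ} {g : ℕ → V}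
    (H : Cyc I F b X Y m g (sim E L)) {τ0 : V → Bool} (hτI : ∀ v, τ0 (I v) = τ0 v)
    (hτF : ∀ v, τ0 (F v) = τ0 v) {S : ℕ → Prop} {D : Finset ℕ} (hD : ∀ i ∈ D, i ≤ m)
    (hS : ∀ i j, i < m → j < m → (S i ↔ S j))
    (hc : D.card ≤ 6 * Nat.log 2 (Fintype.card V) + 6) :
    cpP E L I F m g τ0 (cycSt τ0 b m g S D) := by
  have htwo := H.two
  refine ⟨?_, ?_, ?_, fun v hv => cp_out hv⟩
  · refine cyc_vld H hτI hτF ⟨hD, fun i h1 h2 h3 => ?_, fun hne => ?_⟩
    · exact absurd (hS (i - 1) i (by omega) h2) h3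
    · exact absurd (hS 0 (m - 1) (by omega) (by omega)) hne
  · exact cyc_rc E L H hτI hτF fun a b' h1 h2 _ => Or.inl (hS a (b' - 1) (by omega) (by omega))
  · exact (cyc_card H τ0 S D).trans (by omega)

/-- **The path through one cycle.** -/
theorem cyc_path (E : Exps V) (L : ℕ) {I F X Y : V → V} {b : Bool} {m : ℕ} {g : ℕ → V}
    (H : Cyc I F b X Y m g (sim E L)) {τ0 : V → Bool} (hτI : ∀ v, τ0 (I v) = τ0 v)
    (hτF : ∀ v, τ0 (F v) = τ0 v) (h0 : ∀ i < m, τ0 (g i) = false) :
    PathS I F (fun s => Vld I F s ∧ RC E L I F s ∧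
        s.DI.card + s.DF.card ≤ 2 * (6 * Nat.log 2 (Fintype.card V) + 6) ∧
        ∀ v, (∀ i < m, g i ≠ v) → s.τ v = τ0 v ∧ v ∉ s.DI ∧ v ∉ s.DF)
      ⟨τ0, ∅, ∅⟩ (cycSt τ0 b m g (fun _ => True) ∅)
      ((m + 1) * (6 * Nat.log 2 (Fintype.card V) + 9)) := by
  have htwo := H.two
  change PathS I F (cpP E L I F m g τ0) ⟨τ0, ∅, ∅⟩ (cycSt τ0 b m g (fun _ => True) ∅)
      ((m + 1) * (6 * Nat.log 2 (Fintype.card V) + 9))
  have hmV : m ≤ Fintype.card V := by
    have := Fintype.card_le_of_injective (fun i : Fin m => g i) (fun i j hij =>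
      Fin.ext (H.inj i j i.2 j.2 hij))
    simpa using this
  set K := Nat.log 2 (Fintype.card V) with hK
  have hKm : Nat.log 2 m ≤ K := Nat.log_mono_right hmV
  have hPV : ∀ s, cpP E L I F m g τ0 s → Vld I F s := fun s h => h.1
  obtain ⟨o, D, hnd, hmem, hO⟩ := exists_order (ht m g (sim E L)) 0 m (by omega)
  rw [Nat.sub_zero] at hO
  have hlen : o.length = m := by
    have h1 : o.toFinset = range m := by
      ext x
      rw [List.mem_toFinset, hmem, mem_range]
      omega
    rw [← List.toFinset_card_of_nodup hnd, h1, card_range]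
  have hDm : ∀ j ≤ m, ∀ i ∈ D j, i ≤ m := fun j hj i hi =>
    ((hO j (by rw [hlen]; exact hj)).1.sub i hi).2
  have hDc : ∀ j ≤ m, (D j).card ≤ 3 * K + 2 := fun j hj =>
    (hO j (by rw [hlen]; exact hj)).2.trans (by omega)
  -- the middle part
  have hmid : ∀ j ≤ m, PathS I F (cpP E L I F m g τ0)
      (cycSt τ0 b m g (fun x => x ∈ o.take 0) (D 0))
      (cycSt τ0 b m g (fun x => x ∈ o.take j) (D j)) (j * (6 * K + 9)) := by
    intro j
    induction j with
    | zero =>
      intro _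
      rw [Nat.zero_mul]
      exact PathS.refl (cp_good E L H hτI hτF (hO 0 (Nat.zero_le _)).1
        ((hDc 0 (Nat.zero_le _)).trans (by omega))) 0
    | succ j ih =>
      intro hj
      have hjm : j ≤ m := by omega
      have hjl : j < o.length := by rw [hlen]; omega
      set k := o[j] with hk
      have hkm : k < m := ((hmem k).1 (List.getElem_mem hjl)).2
      have hO1 := (hO j (by omega)).1
      have hO2 := (hO (j + 1) (by omega)).1
      have hc1 := hDc j hjm
      have hc2 := hDc (j + 1) hj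
      set T1 : Finset ℕ := D (j + 1) ∪ {k, k + 1} with hT1
      set T2 : Finset ℕ := D j ∪ {k, k + 1} with hT2
      have hpair : ({k, k + 1} : Finset ℕ).card ≤ 2 := card_le_two
      have hT1c : T1.card ≤ 3 * K + 4 := (card_union_le _ _).trans (by omega)
      have hT2c : T2.card ≤ 3 * K + 4 := (card_union_le _ _).trans (by omega)
      have hT1m : ∀ i ∈ T1, i ≤ m := by
        intro i hi
        simp only [hT1, mem_union, mem_insert, mem_singleton] at hi
        rcases hi with hi | rfl | rfl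
        · exact hDm _ hj i hi
        · omega
        · omega
      have hT2m : ∀ i ∈ T2, i ≤ m := by
        intro i hi
        simp only [hT2, mem_union, mem_insert, mem_singleton] at hi
        rcases hi with hi | rfl | rfl
        · exact hDm _ hjm i hi
        · omega
        · omega
      have hEq : D (j + 1) ∪ T2 = D j ∪ T1 := by
        ext x; simp only [hT1, hT2, mem_union]; tauto
      have hbig : ∀ D', D' ⊆ D j ∪ T1 → D'.card ≤ 6 * K + 6 := by
        intro D' hD'
        have h1 := card_le_card hD'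
        have h2 := card_union_le (D j) T1
        omega
      have hsub : ∀ D', D' ⊆ D j ∪ T1 → ∀ i ∈ D', 0 ≤ i ∧ i ≤ m := by
        intro D' hD' i hi
        refine ⟨Nat.zero_le _, ?_⟩
        have h1 := hD' hi
        rw [mem_union] at h1
        rcases h1 with h1 | h1
        · exact hDm _ hjm i h1
        · exact hT1m i h1
      have p1 : PathS I F (cpP E L I F m g τ0)
          (cycSt τ0 b m g (fun x => x ∈ o.take j) (D j))
          (cycSt τ0 b m g (fun x => x ∈ o.take j) (D j ∪ T1)) T1.card :=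
        cp_grow H hPV (D j) T1 hT1m fun D' h1 h2 =>
          cp_good E L H hτI hτF (hO1.mono h1 (hsub D' h2)) (hbig D' h2)
      have p3 : PathS I F (cpP E L I F m g τ0)
          (cycSt τ0 b m g (fun x => x ∈ o.take (j + 1)) (D (j + 1)))
          (cycSt τ0 b m g (fun x => x ∈ o.take (j + 1)) (D (j + 1) ∪ T2)) T2.card :=
        cp_grow H hPV (D (j + 1)) T2 hT2m fun D' h1 h2 => by
          rw [hEq] at h2
          exact cp_good E L H hτI hτF (hO2.mono h1 (hsub D' h2)) (hbig D' h2)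
      rw [hEq] at p3
      have q1 : cpP E L I F m g τ0 (cycSt τ0 b m g (fun x => x ∈ o.take j) (D j ∪ T1)) :=
        cp_good E L H hτI hτF (hO1.mono subset_union_left (hsub _ (Subset.refl _)))
          (hbig _ (Subset.refl _))
      have q2 : cpP E L I F m g τ0 (cycSt τ0 b m g (fun x => x ∈ o.take (j + 1)) (D j ∪ T1)) := by
        refine cp_good E L H hτI hτF (hO2.mono ?_ (hsub _ (Subset.refl _)))
          (hbig _ (Subset.refl _))
        rw [← hEq]; exact subset_union_left
      have htog : cur I F (cycSt τ0 b m g (fun x => x ∈ o.take j) (D j ∪ T1)) =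
          cur I F (cycSt τ0 b m g (fun x => x ∈ o.take (j + 1)) (D j ∪ T1)) := by
        refine cp_toggle H hkm ?_ ?_ ?_
        · intro i hi
          rw [List.take_add_one, List.mem_append, List.getElem?_eq_getElem hjl]
          simp only [Option.toList_some, List.mem_singleton]
          constructor
          · rintro (h1 | h1)
            · exact h1
            · exact absurd h1 hi
          · exact Or.inl
        · rw [mem_union]; right; simp [hT1]
        · rw [mem_union]; right; simp [hT1]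
      have p2 := PathS.single q1 q2 (Or.inl htog)
      refine ((ih hjm).trans ((p1.trans p2).trans p3.symm)).le ?_
      have : (j + 1) * (6 * K + 9) = j * (6 * K + 9) + (6 * K + 9) := by ring
      omega
  -- start and end
  have hst : PathS I F (cpP E L I F m g τ0) (cycSt τ0 b m g (fun _ => False) ∅)
      (cycSt τ0 b m g (fun _ => False) (∅ ∪ D 0)) (D 0).card :=
    cp_grow H hPV ∅ (D 0) (hDm 0 (Nat.zero_le _)) fun D' _ h2 => by
      rw [empty_union] at h2
      exact cp_good_const E L H hτI hτF (fun i hi => hDm 0 (Nat.zero_le _) i (h2 hi))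
        (fun _ _ _ _ => Iff.rfl) ((card_le_card h2).trans ((hDc 0 (Nat.zero_le _)).trans (by omega)))
  have hen : PathS I F (cpP E L I F m g τ0) (cycSt τ0 b m g (fun _ => True) ∅)
      (cycSt τ0 b m g (fun _ => True) (∅ ∪ D m)) (D m).card :=
    cp_grow H hPV ∅ (D m) (hDm m le_rfl) fun D' _ h2 => by
      rw [empty_union] at h2
      exact cp_good_const E L H hτI hτF (fun i hi => hDm m le_rfl i (h2 hi))
        (fun _ _ _ _ => Iff.rfl) ((card_le_card h2).trans ((hDc m le_rfl).trans (by omega)))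
  rw [empty_union] at hst hen
  have e0 : cycSt τ0 b m g (fun x => x ∈ o.take 0) (D 0) =
      cycSt τ0 b m g (fun _ => False) (D 0) := cp_St_congr fun i _ => by simp
  have e1 : cycSt τ0 b m g (fun x => x ∈ o.take m) (D m) =
      cycSt τ0 b m g (fun _ => True) (D m) := cp_St_congr fun i hi => by
    rw [List.take_of_length_le (by rw [hlen]), hmem]
    simp [hi]
  have hm := hmid m le_rfl
  rw [e0, e1] at hm
  rw [← cp_start (b := b) h0]
  refine ((hst.trans hm).trans hen.symm).le ?_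
  have h1 := hDc 0 (Nat.zero_le _)
  have h2 := hDc m le_rfl
  have : (m + 1) * (6 * K + 9) = m * (6 * K + 9) + (6 * K + 9) := by ring
  omega

end Vale.Agent.P308Q
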