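import Vale.Agent.P308Q.State

/-!
# The encoding of the canonical paths is injective
-/

namespace Vale.Agent.P308Q

open Finset

variable {V : Type} [Fintype V] [DecidableEq V]

/-- The states on the canonical path from `I` to `F` when the orbit of `c` is processed: the orbits
with an element before `c` (in the order given by `rk`) are processed and those with all elements
after `c` are not. -/
structure Enc (E : Exps V) (L D : ℕ) (rk : V → ℕ) (I F : V → V) (c : V) (s : St V) : Prop where
  vld : Vld I F s
  rc : RC E L I F s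
  card : s.DI.card + s.DF.card ≤ D
  proc : ∀ v, (∃ u, Orb I F id v u ∧ rk u < rk c) → s.τ v = true ∧ v ∉ s.DI ∧ v ∉ s.DF
  unpr : ∀ v, (∀ u, Orb I F id v u → rk c < rk u) → s.τ v = false ∧ v ∉ s.DI ∧ v ∉ s.DF

/-- The cut edges (as ordered pairs). -/
def edg (I F : V → V) (s : St V) : Finset (V × V) :=
  (s.DI.image fun v => (v, I v)) ∪ (s.DF.image fun v => (v, F v))

theorem card_edg_le (I F : V → V) (s : St V) : (edg I F s).card ≤ s.DI.card + s.DF.card := by
  unfold edg
  exact (Finset.card_union_le _ _).trans (add_le_add Finset.card_image_le Finset.card_image_le)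

theorem mem_edg {I F : V → V} {s : St V} {v u : V} :
    (v, u) ∈ edg I F s ↔ (v ∈ s.DI ∧ u = I v) ∨ (v ∈ s.DF ∧ u = F v) := by
  unfold edg
  simp only [Finset.mem_union, Finset.mem_image, Prod.mk.injEq]
  constructor
  · rintro (⟨a, h1, h2, h3⟩ | ⟨a, h1, h2, h3⟩)
    · subst h2
      exact Or.inl ⟨h1, h3.symm⟩
    · subst h2
      exact Or.inr ⟨h1, h3.symm⟩
  · rintro (⟨h1, h2⟩ | ⟨h1, h2⟩)
    · exact Or.inl ⟨v, h1, rfl, h2.symm⟩
    · exact Or.inr ⟨v, h1, rfl, h2.symm⟩

theorem nbr_eq {I F : V → V} (hI : ∀ v, I v ≠ v) (hF : ∀ v, F v ≠ v) (s : St V) (v u : V) :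
    (u = I v ∨ u = F v) ↔
      (u ≠ v ∧ (u = cur I F s v ∨ u = cmpl I F s v)) ∨ (v, u) ∈ edg I F s := by
  rw [mem_edg]
  have h1 := hI v
  have h2 := hF v
  rcases ht : s.τ v with _ | _ <;> by_cases hd : v ∈ s.DI <;> by_cases he : v ∈ s.DF <;>
    simp only [cur, cmpl, ht, hd, he, if_true, if_false, true_and, false_and, or_false,
      Bool.false_eq_true] <;>
    constructor <;> intro h <;> grind

/-- **The encoding is injective.** -/
theorem enc_inj {E : Exps V} {L D : ℕ} {rk : V → ℕ} (hrk : Function.Injective rk)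
    {I F I' F' : V → V}
    (hI : ∀ v, I (I v) = v) (hF : ∀ v, F (F v) = v) (hI0 : ∀ v, I v ≠ v) (hF0 : ∀ v, F v ≠ v)
    (hI' : ∀ v, I' (I' v) = v) (hF' : ∀ v, F' (F' v) = v) (hI0' : ∀ v, I' v ≠ v)
    (hF0' : ∀ v, F' v ≠ v) {c : V} {s s' : St V} (h : Enc E L D rk I F c s)
    (h' : Enc E L D rk I' F' c s') (hcur : cur I F s = cur I' F' s')
    (hcmpl : cmpl I F s = cmpl I' F' s') (he : edg I F s = edg I' F' s') (hc : I c = I' c) :
    I = I' ∧ F = F' := by
  have nbr : ∀ v u, (u = I v ∨ u = F v) ↔ (u = I' v ∨ u = F' v) := fun v u => by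
    rw [nbr_eq hI0 hF0 s v u, nbr_eq hI0' hF0' s' v u, hcur, hcmpl, he]
  have horb : ∀ v u, Orb I F id v u ↔ Orb I' F' id v u := by
    have hrel : (fun x y => y = I x ∨ y = F x ∨ y = id x) =
        (fun x y => y = I' x ∨ y = F' x ∨ y = id x) := by
      funext x y
      apply propext
      have := nbr x y
      tauto
    intro v u
    unfold Orb
    rw [hrel]
  -- if the `I`-neighbours agree then so do the `F`-neighbours, and conversely
  have hIF : ∀ v, I v = I' v → F v = F' v := fun v hv => by
    have h1 := (nbr v (F v)).1 (Or.inr rfl)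
    have h2 := (nbr v (F' v)).2 (Or.inr rfl)
    rcases h1 with h1 | h1
    · rcases h2 with h2 | h2
      · rw [h1, h2, hv]
      · exact h2.symm
    · exact h1
  have hFI : ∀ v, F v = F' v → I v = I' v := fun v hv => by
    have h1 := (nbr v (I v)).1 (Or.inl rfl)
    have h2 := (nbr v (I' v)).2 (Or.inl rfl)
    rcases h1 with h1 | h1
    · exact h1
    · rcases h2 with h2 | h2
      · exact h2.symm
      · rw [h1, h2, hv]
  have hall : ∀ v, I v = I' v ∧ F v = F' v := by
    intro v
    by_cases h1 : ∃ u, Orb I F id v u ∧ rk u < rk c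
    · obtain ⟨ht, hd, he1⟩ := h.proc v h1
      obtain ⟨u, hu, hu'⟩ := h1
      obtain ⟨ht', hd', he1'⟩ := h'.proc v ⟨u, (horb v u).1 hu, hu'⟩
      have e1 := congrFun hcur v
      have e2 := congrFun hcmpl v
      simp only [cur, cmpl, ht, ht', hd, hd', he1, he1', if_true, if_false] at e1 e2
      exact ⟨e2, e1⟩
    · by_cases h2 : ∀ u, Orb I F id v u → rk c < rk u
      · obtain ⟨ht, hd, he1⟩ := h.unpr v h2
        obtain ⟨ht', hd', he1'⟩ := h'.unpr v (fun u hu => h2 u ((horb v u).2 hu))
        have e1 := congrFun hcur v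
        have e2 := congrFun hcmpl v
        simp only [cur, cmpl, ht, ht', hd, hd', he1, he1', if_false,
          Bool.false_eq_true] at e1 e2
        exact ⟨e1, e2⟩
      · push Not at h1 h2
        obtain ⟨u, hu, hu'⟩ := h2
        have huc : u = c := hrk (le_antisymm hu' (h1 u hu))
        subst huc
        have base : I u = I' u ∧ F u = F' u := ⟨hc, hIF u hc⟩
        have hind : ∀ x, Relation.ReflTransGen (fun x y => y = I x ∨ y = F x ∨ y = id x) x u →
            I x = I' x ∧ F x = F' x := by
          intro x hx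
          induction hx using Relation.ReflTransGen.head_induction_on with
          | refl => exact base
          | @head a b hstep _ ih =>
            rcases hstep with h3 | h3 | h3
            · have h4 : I b = a := by rw [h3, hI]
              have h5 : I a = I' a := by
                rw [← h4, hI, ih.1, hI']
              exact ⟨h5, hIF _ h5⟩
            · have h4 : F b = a := by rw [h3, hF]
              have h5 : F a = F' a := by
                rw [← h4, hF, ih.2, hF']
              exact ⟨hFI _ h5, h5⟩
            · have h4 : b = a := h3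
              rw [← h4]
              exact ih
        exact hind v hu
  exact ⟨funext fun v => (hall v).1, funext fun v => (hall v).2⟩

end Vale.Agent.P308Q
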