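import Vale.Agent.P308Q.Scal

/-!
# The initial exponents: total weight and rows (helper58)
-/

namespace Vale.Agent.P308Q

open Finset

variable {n : ℕ}

/-- the partner -/
def eaPar (k : ℕ) : ℕ := if k % 2 = 0 then k + 1 else k - 1

theorem eaPar_lt (hn : Even n) {k : ℕ} (hk : k < n) : eaPar k < n := by
  obtain ⟨m, hm⟩ := hn
  unfold eaPar
  split_ifs <;> omega

theorem eaPar_ne (k : ℕ) : eaPar k ≠ k := by
  unfold eaPar
  split_ifs <;> omega

theorem eaPar_par (k : ℕ) : eaPar (eaPar k) = k := by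
  unfold eaPar
  split_ifs <;> omega

theorem eaPar_div (k : ℕ) : eaPar k / 2 = k / 2 := by
  unfold eaPar
  split_ifs <;> omega

theorem eq_eaPar {j k : ℕ} (h : j / 2 = k / 2) (hne : j ≠ k) : j = eaPar k := by
  unfold eaPar
  split_ifs <;> omega

theorem ea_sym_a0 (L : ℕ) : Sym (a0 L) := by
  intro u v
  unfold a0
  by_cases h : u / 2 = v / 2
  · rw [if_pos h, if_pos h.symm]
  · rw [if_neg h, if_neg fun h' => h h'.symm]

theorem ea_b_val (L : ℕ) (u v : Fin (n + 2)) : scl n (a0 L) (fun _ => 0) u v =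
    if (u : ℕ) < n ∧ (v : ℕ) < n ∧ u ≠ v then a0 L u v else 0 := by
  unfold scl
  rw [add_zero, add_zero]

theorem ea_b_nonpos (L : ℕ) (u v : Fin (n + 2)) : scl n (a0 L) (fun _ => 0) u v ≤ 0 := by
  rw [ea_b_val]
  unfold a0
  split_ifs <;> omega

/-- weight one -/
theorem ea_wb_one (L : ℕ) (M : Stt n)
    (h : ∀ v : Fin (n + 2), (v : ℕ) < n → (M v : ℕ) < n → (v : ℕ) / 2 = (M v : ℕ) / 2) :
    wb (scl n (a0 L) fun _ => 0) M = 1 := by
  unfold wb
  rw [Finset.sum_eq_zero, zpow_zero]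
  intro v _
  rw [ea_b_val]
  split_ifs with h1
  · unfold a0
    rw [if_pos (h v h1.1 h1.2.1)]
  · rfl

/-- small weight -/
theorem ea_wb_le (L : ℕ) (M : Stt n) (hM : ∀ v, M (M v) = v) (w : Fin (n + 2))
    (h1 : (w : ℕ) < n) (h2 : (M w : ℕ) < n) (hd : (w : ℕ) / 2 ≠ (M w : ℕ) / 2) :
    wb (scl n (a0 L) fun _ => 0) M ≤ (2 : ℝ)⁻¹ ^ L := by
  have hne : w ≠ M w := fun h => hd (by rw [← h])
  have h3 : ∑ v, scl n (a0 L) (fun _ => 0) v (M v) ≤ -(2 * L : ℤ) := by
    rw [← Finset.sum_add_sum_compl {w, M w}, Finset.sum_pair hne, hM]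
    have h4 : ∑ i ∈ ({w, M w} : Finset (Fin (n + 2)))ᶜ, scl n (a0 L) (fun _ => 0) i (M i) ≤ 0 :=
      Finset.sum_nonpos fun i _ => ea_b_nonpos L i (M i)
    have h5 : scl n (a0 L) (fun _ => 0) w (M w) = -(L : ℤ) := by
      rw [ea_b_val, if_pos ⟨h1, h2, hne⟩]
      unfold a0
      rw [if_neg hd]
    have h6 : scl n (a0 L) (fun _ => 0) (M w) w = -(L : ℤ) := by
      rw [ea_b_val, if_pos ⟨h2, h1, hne.symm⟩]
      unfold a0
      rw [if_neg fun h => hd h.symm]
    rw [h5, h6]
    linarith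
  unfold wb
  refine (zpow_le_zpow_right₀ one_le_q2 h3).trans (le_of_eq ?_)
  have h7 : -(2 * L : ℤ) = 2 * (-(L : ℤ)) := by ring
  rw [h7, zpow_mul, show (q2 ^ (2 : ℤ) : ℝ) = 2 by exact_mod_cast q2_sq, zpow_neg, inv_pow]
  norm_cast

/-- the bounds from one state of weight one and small weights -/
theorem ea_bounds (L : ℕ) (U : Finset (Fin (n + 2))) (Ms : Stt n) (h1 : ∀ v, Ms (Ms v) = v)
    (h2 : holes Ms = U) (h3 : wb (scl n (a0 L) fun _ => 0) Ms = 1)
    (h4 : ∀ M : Stt n, (∀ v, M (M v) = v) → holes M = U → M ≠ Ms →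
      wb (scl n (a0 L) fun _ => 0) M ≤ (2 : ℝ)⁻¹ ^ L)
    (h5 : (univ.filter (fun M : Stt n => (∀ v, M (M v) = v) ∧ holes M = U)).card ≤ n ^ n) :
    1 ≤ NB (scl n (a0 L) fun _ => 0) U ∧
      NB (scl n (a0 L) fun _ => 0) U ≤ 1 + n ^ n * (2 : ℝ)⁻¹ ^ L := by
  classical
  have h6 : Ms ∈ univ.filter (fun M : Stt n => (∀ v, M (M v) = v) ∧ holes M = U) := by
    rw [Finset.mem_filter]
    exact ⟨Finset.mem_univ _, h1, h2⟩
  unfold NB
  rw [← Finset.add_sum_erase _ _ h6, h3]
  constructor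
  · have h7 : 0 ≤ ∑ M ∈ (univ.filter (fun M : Stt n => (∀ v, M (M v) = v) ∧ holes M = U)).erase Ms,
        wb (scl n (a0 L) fun _ => 0) M :=
      Finset.sum_nonneg fun M _ => (zpow_pos q2_pos _).le
    linarith
  · have h8 : ∑ M ∈ (univ.filter (fun M : Stt n => (∀ v, M (M v) = v) ∧ holes M = U)).erase Ms,
        wb (scl n (a0 L) fun _ => 0) M ≤
        ((univ.filter (fun M : Stt n => (∀ v, M (M v) = v) ∧ holes M = U)).erase Ms).card •
          (2 : ℝ)⁻¹ ^ L := by
      refine Finset.sum_le_card_nsmul _ _ _ fun M hM => ?_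
      rw [Finset.mem_erase, Finset.mem_filter] at hM
      exact h4 M hM.2.2.1 hM.2.2.2 hM.1
    have h9 : ((univ.filter (fun M : Stt n => (∀ v, M (M v) = v) ∧ holes M = U)).erase Ms).card •
          (2 : ℝ)⁻¹ ^ L ≤ (n ^ n : ℕ) * (2 : ℝ)⁻¹ ^ L := by
      rw [nsmul_eq_mul]
      refine mul_le_mul_of_nonneg_right ?_ (by positivity)
      exact_mod_cast (Finset.card_erase_le).trans h5
    have h10 : ((n ^ n : ℕ) : ℝ) = (n : ℝ) ^ n := by push_cast; rfl
    rw [h10] at h9
    linarith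

/-- counting the states with the hole `α` -/
theorem ea_count (U : Finset (Fin (n + 2))) (hU : vα n ∈ U) :
    (univ.filter (fun M : Stt n => (∀ v, M (M v) = v) ∧ holes M = U)).card ≤ n ^ n := by
  classical
  have h0 : (univ.filter (fun M : Stt n => (∀ v, M (M v) = v) ∧ holes M = U)).card ≤
      (univ : Finset (Fin n → Fin n)).card := by
    refine Finset.card_le_card_of_injOn
      (fun M w => if h : (M (vv w) : ℕ) < n then ⟨_, h⟩ else w) (fun _ _ => Finset.mem_univ _) ?_
    intro M hM M' hM' hf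
    rw [Finset.mem_coe, Finset.mem_filter] at hM hM'
    obtain ⟨_, hM1, hM2⟩ := hM
    obtain ⟨_, hM1', hM2'⟩ := hM'
    have hα : M (vα n) = vα n := by
      rw [← mem_holes, hM2]
      exact hU
    have hα' : M' (vα n) = vα n := by
      rw [← mem_holes, hM2']
      exact hU
    -- the vertices of the graph
    have aux : ∀ (N : Stt n), (∀ v, N (N v) = v) → N (vα n) = vα n → ∀ w : Fin n,
        ¬ (N (vv w) : ℕ) < n → N (vv w) = vβ n := by
      intro N hN hNα w hw
      have h1 : N (vv w) ≠ vα n := by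
        intro h
        have h2 := hN (vv w)
        rw [h, hNα] at h2
        have h3 := congrArg Fin.val h2
        have h4 := w.2
        simp only [vα, vv] at h3
        omega
      apply Fin.ext
      have h2 := (N (vv w)).2
      have h3 : (N (vv w) : ℕ) ≠ n := fun h => h1 (Fin.ext h)
      simp only [vβ]
      omega
    have key : ∀ w : Fin n, M (vv w) = M' (vv w) := by
      intro w
      have h1 := congrFun hf w
      simp only at h1
      by_cases hw : vv w ∈ U
      · rw [mem_holes.1 (hM2 ▸ hw : vv w ∈ holes M), mem_holes.1 (hM2' ▸ hw : vv w ∈ holes M')]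
      · have h2 : M (vv w) ≠ vv w := fun h => hw (hM2 ▸ mem_holes.2 h)
        have h2' : M' (vv w) ≠ vv w := fun h => hw (hM2' ▸ mem_holes.2 h)
        split_ifs at h1 with h3 h4 h4
        · have h5 := congrArg Fin.val h1
          exact Fin.ext h5
        · exfalso
          have h5 := congrArg Fin.val h1
          exact h2 (Fin.ext h5)
        · exfalso
          have h5 := congrArg Fin.val h1
          exact h2' (Fin.ext h5.symm)
        · rw [aux M hM1 hα w h3, aux M' hM1' hα' w h4]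
    funext v
    by_cases hv : (v : ℕ) < n
    · have h1 := key ⟨v, hv⟩
      exact h1
    · by_cases hvα : v = vα n
      · rw [hvα, hα, hα']
      · have hvβ : v = vβ n := by
          apply Fin.ext
          have h1 : (v : ℕ) ≠ n := fun h => hvα (Fin.ext h)
          have h2 := v.2
          simp only [vβ]
          omega
        by_cases hβ : vβ n ∈ U
        · rw [hvβ, mem_holes.1 (hM2 ▸ hβ : vβ n ∈ holes M),
            mem_holes.1 (hM2' ▸ hβ : vβ n ∈ holes M')]
        · have h1 : M (vβ n) ≠ vβ n := fun h => hβ (hM2 ▸ mem_holes.2 h)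
          have h2 : M (vβ n) ≠ vα n := by
            intro h
            have h3 := hM1 (vβ n)
            rw [h, hα] at h3
            have h4 := congrArg Fin.val h3
            simp only [vα, vβ] at h4
            omega
          have h3 : (M (vβ n) : ℕ) < n := by
            have h4 := (M (vβ n)).2
            have h5 : (M (vβ n) : ℕ) ≠ n := fun h => h2 (Fin.ext h)
            have h6 : (M (vβ n) : ℕ) ≠ n + 1 := fun h => h1 (Fin.ext h)
            omega
          have h4 : M (vv ⟨(M (vβ n) : ℕ), h3⟩) = vβ n := hM1 (vβ n)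
          have h5 := key ⟨(M (vβ n) : ℕ), h3⟩
          rw [h4] at h5
          have h6 : M' (M (vβ n)) = vβ n := h5.symm
          rw [hvβ, ← h6, hM1', h6]
  refine h0.trans (le_of_eq ?_)
  rw [Finset.card_univ, Fintype.card_fun, Fintype.card_fin]

/-- the state `2 i ~ 2 i + 1` with the holes `α`, `β` -/
def eaA (n : ℕ) : Stt n := fun v =>
  if h : (v : ℕ) < n ∧ eaPar v < n + 2 then ⟨eaPar v, h.2⟩ else v

theorem eaA_lt (hn : Even n) {v : Fin (n + 2)} (hv : (v : ℕ) < n) :
    (eaA n v : ℕ) = eaPar v := by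
  have h1 := eaPar_lt hn hv
  unfold eaA
  rw [dif_pos ⟨hv, by omega⟩]

theorem eaA_ge {v : Fin (n + 2)} (hv : ¬ (v : ℕ) < n) : eaA n v = v := by
  unfold eaA
  rw [dif_neg fun h => hv h.1]

theorem eaA_invol (hn : Even n) (v : Fin (n + 2)) : eaA n (eaA n v) = v := by
  by_cases hv : (v : ℕ) < n
  · have h1 := eaA_lt hn hv
    have h2 : (eaA n v : ℕ) < n := by
      rw [h1]
      exact eaPar_lt hn hv
    apply Fin.ext
    rw [eaA_lt hn h2, h1, eaPar_par]
  · rw [eaA_ge hv, eaA_ge hv]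

theorem eaA_fix (hn : Even n) (v : Fin (n + 2)) : eaA n v = v ↔ ¬ (v : ℕ) < n := by
  constructor
  · intro h hv
    have h1 := eaA_lt hn hv
    rw [h] at h1
    exact eaPar_ne _ h1.symm
  · exact eaA_ge

theorem ea_mem_pair (v : Fin (n + 2)) :
    v ∈ ({vα n, vβ n} : Finset (Fin (n + 2))) ↔ ¬ (v : ℕ) < n := by
  rw [Finset.mem_insert, Finset.mem_singleton, Fin.ext_iff, Fin.ext_iff]
  have := v.2
  simp only [vα, vβ]
  omega

/-- the bounds for `ZG` -/
theorem ea_ZG (hn : Even n) (L : ℕ) :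
    1 ≤ NB (scl n (a0 L) fun _ => 0) {vα n, vβ n} ∧
      NB (scl n (a0 L) fun _ => 0) {vα n, vβ n} ≤ 1 + n ^ n * (2 : ℝ)⁻¹ ^ L := by
  refine ea_bounds L _ (eaA n) (eaA_invol hn) ?_ ?_ ?_ (ea_count _ (Finset.mem_insert_self _ _))
  · ext v
    rw [mem_holes, eaA_fix hn, ea_mem_pair]
  · refine ea_wb_one L _ fun v hv _ => ?_
    rw [eaA_lt hn hv, eaPar_div]
  · intro M hM hU hne
    by_contra hcon
    apply hne
    have h1 : ∀ w : Fin (n + 2), (w : ℕ) < n → (M w : ℕ) < n → (w : ℕ) / 2 = (M w : ℕ) / 2 := by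
      intro w hw1 hw2
      by_contra hd
      exact hcon (ea_wb_le L M hM w hw1 hw2 hd)
    have h2 : ∀ v : Fin (n + 2), M v = v ↔ ¬ (v : ℕ) < n := by
      intro v
      rw [← mem_holes, hU, ea_mem_pair]
    funext v
    by_cases hv : (v : ℕ) < n
    · have h3 : (M v : ℕ) < n := by
        by_contra h4
        have h5 := (h2 (M v)).2 h4
        rw [hM] at h5
        exact h4 (h5 ▸ hv)
      apply Fin.ext
      rw [eaA_lt hn hv]
      refine eq_eaPar (h1 v hv h3).symm fun h4 => ?_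
      exact (h2 v).1 (Fin.ext h4) hv
    · rw [eaA_ge hv]
      exact (h2 v).2 hv

/-- the state with the holes `α`, `u` -/
def eaB (n : ℕ) (x x' : Fin (n + 2)) : Stt n := fun v =>
  if v = x then x else if v = x' then vβ n else if v = vβ n then x' else eaA n v

/-- the bounds for the rows -/
theorem ea_row (hn : Even n) (L : ℕ) (u : Fin n) :
    1 ≤ NB (scl n (a0 L) fun _ => 0) {vα n, vv u} ∧
      NB (scl n (a0 L) fun _ => 0) {vα n, vv u} ≤ 1 + n ^ n * (2 : ℝ)⁻¹ ^ L := by
  have hun : ((vv u : Fin (n + 2)) : ℕ) < n := u.2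
  obtain ⟨x, hx⟩ : ∃ x : Fin (n + 2), x = vv u := ⟨_, rfl⟩
  obtain ⟨x', hx'⟩ : ∃ x' : Fin (n + 2), x' = eaA n (vv u) := ⟨_, rfl⟩
  rw [← hx] at hun hx' ⊢
  have hx'v : (x' : ℕ) = eaPar x := by rw [hx', eaA_lt hn hun]
  have hx'n : (x' : ℕ) < n := by
    rw [hx'v]
    exact eaPar_lt hn hun
  have hβn : ¬ ((vβ n : Fin (n + 2)) : ℕ) < n := by
    simp only [vβ]
    omega
  have hαn : ¬ ((vα n : Fin (n + 2)) : ℕ) < n := by
    simp only [vα]
    omega
  have hAx : eaA n x = x' := hx'.symm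
  have hAx' : eaA n x' = x := by rw [hx', eaA_invol hn]
  have hxx' : x' ≠ x := fun h => eaPar_ne (x : ℕ) (by rw [← hx'v, h])
  have hxβ : x ≠ vβ n := fun h => hβn (h ▸ hun)
  have hx'β : x' ≠ vβ n := fun h => hβn (h ▸ hx'n)
  have hαβ : vα n ≠ vβ n := by
    intro h
    have h1 := congrArg Fin.val h
    simp only [vα, vβ] at h1
    omega
  have hxα : x ≠ vα n := fun h => hαn (h ▸ hun)
  have hx'α : x' ≠ vα n := fun h => hαn (h ▸ hx'n)
  -- values
  have e1 : eaB n x x' x = x := by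
    unfold eaB
    rw [if_pos rfl]
  have e2 : eaB n x x' x' = vβ n := by
    unfold eaB
    rw [if_neg hxx', if_pos rfl]
  have e3 : eaB n x x' (vβ n) = x' := by
    unfold eaB
    rw [if_neg hxβ.symm, if_neg hx'β.symm, if_pos rfl]
  have e4 : ∀ v, v ≠ x → v ≠ x' → v ≠ vβ n → eaB n x x' v = eaA n v := by
    intro v h1 h2 h3
    unfold eaB
    rw [if_neg h1, if_neg h2, if_neg h3]
  have hmem : ∀ v : Fin (n + 2), v ∈ ({vα n, x} : Finset (Fin (n + 2))) ↔ v = vα n ∨ v = x := by
    intro v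
    rw [Finset.mem_insert, Finset.mem_singleton]
  refine ea_bounds L _ (eaB n x x') ?_ ?_ ?_ ?_ (ea_count _ (Finset.mem_insert_self _ _))
  · intro v
    by_cases h1 : v = x
    · rw [h1, e1, e1]
    by_cases h2 : v = x'
    · rw [h2, e2, e3]
    by_cases h3 : v = vβ n
    · rw [h3, e3, e2]
    rw [e4 v h1 h2 h3, e4, eaA_invol hn]
    · intro h
      apply h2
      rw [← eaA_invol hn v, h, hAx]
    · intro h
      apply h1
      rw [← eaA_invol hn v, h, hAx']
    · intro h
      apply h3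
      rw [← eaA_invol hn v, h, eaA_ge hβn]
  · ext v
    rw [mem_holes, hmem]
    by_cases h1 : v = x
    · rw [h1, e1]
      simp
    by_cases h2 : v = x'
    · rw [h2, e2]
      exact ⟨fun h => absurd h.symm hx'β, fun h => h.elim (fun h => absurd h hx'α)
        (fun h => absurd h hxx')⟩
    by_cases h3 : v = vβ n
    · rw [h3, e3]
      exact ⟨fun h => absurd h hx'β, fun h => h.elim (fun h => absurd h.symm hαβ)
        (fun h => absurd h.symm hxβ)⟩
    rw [e4 v h1 h2 h3, eaA_fix hn]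
    constructor
    · intro h
      refine Or.inl (Fin.ext ?_)
      have h4 : (v : ℕ) ≠ n + 1 := fun h4 => h3 (Fin.ext h4)
      have h5 := v.2
      simp only [vα]
      omega
    · rintro (h | h)
      · rw [h]
        exact hαn
      · exact absurd h h1
  · refine ea_wb_one L _ fun v hv hv2 => ?_
    by_cases h1 : v = x
    · rw [h1, e1]
    by_cases h2 : v = x'
    · exfalso
      rw [h2, e2] at hv2
      exact hβn hv2
    by_cases h3 : v = vβ n
    · exact absurd (h3 ▸ hv) hβn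
    rw [e4 v h1 h2 h3, eaA_lt hn hv, eaPar_div]
  · intro M hM hU hne
    by_contra hcon
    apply hne
    have h1 : ∀ w : Fin (n + 2), (w : ℕ) < n → (M w : ℕ) < n → (w : ℕ) / 2 = (M w : ℕ) / 2 := by
      intro w hw1 hw2
      by_contra hd
      exact hcon (ea_wb_le L M hM w hw1 hw2 hd)
    have h2 : ∀ v : Fin (n + 2), M v = v ↔ v = vα n ∨ v = x := by
      intro v
      rw [← mem_holes, hU, hmem]
    have hMα : M (vα n) = vα n := (h2 _).2 (Or.inl rfl)
    have hMx : M x = x := (h2 _).2 (Or.inr rfl)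
    -- small partners
    have h3 : ∀ w : Fin (n + 2), w ≠ x → (w : ℕ) < n → M w = eaA n w ∨ M w = vβ n := by
      intro w hw hwn
      by_cases h4 : (M w : ℕ) < n
      · left
        apply Fin.ext
        rw [eaA_lt hn hwn]
        refine eq_eaPar (h1 w hwn h4).symm fun h5 => ?_
        rcases (h2 w).1 (Fin.ext h5) with h6 | h6
        · exact hαn (h6 ▸ hwn)
        · exact hw h6
      · right
        have h5 : M w ≠ vα n := by
          intro h5
          have h6 := hM w
          rw [h5, hMα] at h6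
          exact hαn (h6 ▸ hwn)
        apply Fin.ext
        have h6 : (M w : ℕ) ≠ n := fun h => h5 (Fin.ext h)
        have h7 := (M w).2
        simp only [vβ]
        omega
    have hMx' : M x' = vβ n := by
      rcases h3 x' hxx' hx'n with h4 | h4
      · exfalso
        rw [hAx'] at h4
        have h5 := hM x'
        rw [h4, hMx] at h5
        exact hxx' h5.symm
      · exact h4
    have hMβ : M (vβ n) = x' := by rw [← hMx', hM]
    funext v
    by_cases k1 : v = x
    · rw [k1, e1, hMx]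
    by_cases k2 : v = x'
    · rw [k2, e2, hMx']
    by_cases k3 : v = vβ n
    · rw [k3, e3, hMβ]
    rw [e4 v k1 k2 k3]
    by_cases hv : (v : ℕ) < n
    · rcases h3 v k1 hv with h4 | h4
      · exact h4
      · exfalso
        apply k2
        rw [← hM v, h4, hMβ]
    · rw [eaA_ge hv]
      refine (h2 v).2 (Or.inl (Fin.ext ?_))
      have h4 : (v : ℕ) ≠ n + 1 := fun h4 => k3 (Fin.ext h4)
      have h5 := v.2
      simp only [vα]
      omega

theorem ea_rows_a0 (hn : Even n) (L : ℕ) (hL : (n : ℝ) ^ (n + 1) * (2 : ℝ)⁻¹ ^ L ≤ 1 / 2)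
    (u : Fin n) :
    1 / 2 ≤ rw' (scl n (a0 L) fun _ => 0) u ∧ rw' (scl n (a0 L) fun _ => 0) u ≤ 2 := by
  have h1 := ea_ZG hn L
  have h2 := ea_row hn L u
  have hn1 : (1 : ℝ) ≤ n := by
    have := u.2
    exact_mod_cast (show 1 ≤ n by omega)
  have h3 : (n : ℝ) ^ n * (2 : ℝ)⁻¹ ^ L ≤ 1 / 2 := by
    refine le_trans (mul_le_mul_of_nonneg_right ?_ (by positivity)) hL
    exact pow_le_pow_right₀ hn1 (Nat.le_succ n)
  unfold rw'
  have h4 : 0 < NB (scl n (a0 L) fun _ => 0) {vα n, vβ n} := by linarith [h1.1]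
  constructor
  · rw [le_div_iff₀ h4]
    linarith [h1.1, h1.2, h2.1, h2.2]
  · rw [div_le_iff₀ h4]
    linarith [h1.1, h1.2, h2.1, h2.2]

end Vale.Agent.P308Q
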