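import Vale.Agent.P308Q.Psi
import Vale.Agent.P308Q.EndsA

/-!
# The initial and the final exponents
-/

namespace Vale.Agent.P308Q

open Finset Vale.Agent.P308

variable {n : ℕ}

theorem sym_a0 (L : ℕ) : Sym (a0 L) := ea_sym_a0 L

/-- The total weight at the start. -/
theorem ZG_a0 (hn : Even n) (L : ℕ) : 1 ≤ ZG n (a0 L) ∧ ZG n (a0 L) ≤ 1 + n ^ n * (2 : ℝ)⁻¹ ^ L :=
  ea_ZG hn L

/-- The rows at the start. -/
theorem rows_a0 (hn : Even n) (L : ℕ) (hL : (n : ℝ) ^ (n + 1) * (2 : ℝ)⁻¹ ^ L ≤ 1 / 2)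
    (u : Fin n) :
    1 / 2 ≤ rw' (scl n (a0 L) fun _ => 0) u ∧ rw' (scl n (a0 L) fun _ => 0) u ≤ 2 :=
  ea_rows_a0 hn L hL u

/-- The start of a pass. -/
theorem M0_mem (hn : Even n) : M0 n ∈ PS n := by
  have h := kr_M0_mem hn 0
  simp only [FS, Finset.mem_filter, Finset.mem_univ, true_and] at h
  simp only [PS, Finset.mem_filter, Finset.mem_univ, true_and]
  exact ⟨h.1, Finset.card_eq_zero.1 (Nat.le_zero.1 h.2)⟩

theorem endsm_wb (hn : Even n) (L : ℕ) : wb (scl n (a0 L) fun _ => 0) (M0 n) = 1 := by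
  have h : (∑ v, scl n (a0 L) (fun _ => 0) v (M0 n v)) = 0 := by
    refine Finset.sum_eq_zero fun v _ => ?_
    unfold scl
    split_ifs with h
    · have hv := kr_M0_val hn v
      have h2 : (v : ℕ) / 2 = ((M0 n v : Fin (n + 2)) : ℕ) / 2 := by
        rw [hv]
        split_ifs <;> omega
      unfold a0
      rw [if_pos h2]
      simp
    · rfl
  unfold wb
  rw [h, zpow_zero]

theorem dens_M0 (hn : Even n) (L : ℕ) (hL : (n : ℝ) ^ (n + 1) * (2 : ℝ)⁻¹ ^ L ≤ 1 / 2)
    (M : Stt n) :
    ((PMF.pure (M0 n) : PMF (Stt n)) M).toReal ≤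
      16 * (n + 1) * (piP (scl n (a0 L) fun _ => 0) M).toReal := by
  have hn0 : (0 : ℝ) ≤ n := Nat.cast_nonneg n
  by_cases hM : M = M0 n
  · subst hM
    have h1 : ((PMF.pure (M0 n) : PMF (Stt n)) (M0 n)).toReal = 1 := by
      simp
    rw [h1]
    set b : Ext n := scl n (a0 L) fun _ => 0 with hb
    have hscl : IsScl b := isScl_scl (sym_a0 L) _
    have hrow : ∀ u, rw' b u ≤ 8 := fun u => ((rows_a0 hn L hL u).2).trans (by norm_num)
    have hab := ab_prob b hscl hn hrow
    have hZ := (ZG_a0 hn L).2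
    have hZ1 := (ZG_a0 hn L).1
    have hZG : ZG n (a0 L) = NB b {vα n, vβ n} := rfl
    have hnL : (n : ℝ) ^ n * (2 : ℝ)⁻¹ ^ L ≤ 1 := by
      rcases Nat.eq_zero_or_pos n with h0 | h0
      · subst h0
        simp only [pow_zero, one_mul]
        exact pow_le_one₀ (by norm_num) (by norm_num)
      · have hn1 : (1 : ℝ) ≤ n := by exact_mod_cast h0
        have h2 : (n : ℝ) ^ n * (2 : ℝ)⁻¹ ^ L ≤ (n : ℝ) ^ (n + 1) * (2 : ℝ)⁻¹ ^ L := by
          refine mul_le_mul_of_nonneg_right ?_ (by positivity)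
          exact pow_le_pow_right₀ hn1 (by omega)
        linarith
    have hZ2 : NB b {vα n, vβ n} ≤ 2 := by rw [← hZG]; linarith
    have hpos : 0 < NB b ∅ := NB_pos b ∅ hn (by simp)
    have hle : NB b ∅ ≤ 16 * (n + 1) := by
      rw [div_le_div_iff₀ (by positivity) hpos] at hab
      nlinarith
    have hPS : ∑ x ∈ PS n, (fun M : Stt n => q2 ^ (∑ v, b v (M v))) x = NB b ∅ := rfl
    have hval : (piP b (M0 n)).toReal = 1 / NB b ∅ := by
      unfold piP
      rw [gibbs_apply (fun x _ => (zpow_pos q2_pos _).le) (by rw [hPS]; exact hpos) (M0_mem hn),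
        hPS]
      congr 1
      exact endsm_wb hn L
    rw [hval, mul_one_div, le_div_iff₀ hpos, one_mul]
    exact hle
  · have h1 : ((PMF.pure (M0 n) : PMF (Stt n)) M).toReal = 0 := by
      rw [PMF.pure_apply, if_neg hM]
      rfl
    rw [h1]
    positivity

/-- the state of an involution of the vertices of the graph -/
def upS (m : Fin n → Fin n) : Stt n := fun v =>
  if h : (v : ℕ) < n then ⟨m ⟨v, h⟩, by have := (m ⟨v, h⟩).2; omega⟩ else v

theorem upS_lt (m : Fin n → Fin n) (v : Fin (n + 2)) (h : (v : ℕ) < n) :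
    ((upS m v : Fin (n + 2)) : ℕ) = m ⟨v, h⟩ := by
  unfold upS
  rw [dif_pos h]

theorem upS_ge (m : Fin n → Fin n) (v : Fin (n + 2)) (h : ¬ (v : ℕ) < n) :
    upS m v = v := by
  unfold upS
  rw [dif_neg h]

/-- involutions without fixed points -/
def InvF (n : ℕ) : Finset (Fin n → Fin n) := univ.filter fun m => (∀ v, m (m v) = v) ∧ ∀ v, m v ≠ v

theorem NB_inv (b : Ext n) : NB b {vα n, vβ n} = ∑ m ∈ InvF n, wb b (upS m) := by
  unfold NB
  symm
  refine Finset.sum_nbij upS ?_ ?_ ?_ (fun _ _ => rfl)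
  · intro m hm
    obtain ⟨h1, h2⟩ := (Finset.mem_filter.1 hm).2
    refine Finset.mem_filter.2 ⟨Finset.mem_univ _, ?_, ?_⟩
    · intro v
      by_cases hv : (v : ℕ) < n
      · apply Fin.ext
        have h3 := upS_lt m v hv
        have h4 : ((upS m v : Fin (n + 2)) : ℕ) < n := by rw [h3]; exact (m ⟨v, hv⟩).2
        rw [upS_lt m _ h4]
        have h5 : (⟨(upS m v : Fin (n + 2)), h4⟩ : Fin n) = m ⟨v, hv⟩ := Fin.ext h3
        rw [h5, h1]
      · rw [upS_ge m v hv, upS_ge m v hv]
    · ext v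
      rw [mem_holes, Finset.mem_insert, Finset.mem_singleton]
      constructor
      · intro hv
        by_cases hvn : (v : ℕ) < n
        · exfalso
          have h3 := upS_lt m v hvn
          rw [hv] at h3
          exact h2 ⟨v, hvn⟩ (Fin.ext h3.symm)
        · have h6 := v.2
          have h7 : (v : ℕ) = n ∨ (v : ℕ) = n + 1 := by omega
          rcases h7 with h7 | h7
          · exact Or.inl (Fin.ext h7)
          · exact Or.inr (Fin.ext h7)
      · intro hv
        apply upS_ge
        rcases hv with rfl | rfl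
        · show ¬ (n < n)
          omega
        · show ¬ (n + 1 < n)
          omega
  · intro m _ m' _ h
    funext v
    have h1 := upS_lt m ⟨v, by omega⟩ v.2
    have h2 := upS_lt m' ⟨v, by omega⟩ v.2
    have h3 : upS m ⟨v, by omega⟩ = upS m' ⟨v, by omega⟩ := congrFun h _
    rw [h3, h2] at h1
    exact (Fin.ext h1).symm
  · intro M hM
    obtain ⟨h1, h2⟩ := (Finset.mem_filter.1 (Finset.mem_coe.1 hM)).2
    have hα : M (vα n) = vα n := mem_holes.1 (by rw [h2]; simp)
    have hβ : M (vβ n) = vβ n := mem_holes.1 (by rw [h2]; simp)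
    have h3 : ∀ v : Fin n, ((M ⟨v, by omega⟩ : Fin (n + 2)) : ℕ) < n := by
      intro v
      by_contra hcon
      have h6 := (M ⟨v, by omega⟩).2
      have h7 : ((M ⟨v, by omega⟩ : Fin (n + 2)) : ℕ) = n ∨
          ((M ⟨v, by omega⟩ : Fin (n + 2)) : ℕ) = n + 1 := by omega
      have h8 := h1 ⟨v, by omega⟩
      have hv := v.2
      rcases h7 with h7 | h7
      · have h9 : M ⟨v, by omega⟩ = vα n := Fin.ext h7
        rw [h9, hα] at h8
        have h10 : n = (v : ℕ) := congrArg Fin.val h8
        omega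
      · have h9 : M ⟨v, by omega⟩ = vβ n := Fin.ext h7
        rw [h9, hβ] at h8
        have h10 : n + 1 = (v : ℕ) := congrArg Fin.val h8
        omega
    refine ⟨fun v => ⟨M ⟨v, by omega⟩, h3 v⟩, Finset.mem_coe.2 (Finset.mem_filter.2
      ⟨Finset.mem_univ _, ?_, ?_⟩), ?_⟩
    · intro v
      apply Fin.ext
      show ((M ⟨(M ⟨v, by omega⟩ : Fin (n + 2)), _⟩ : Fin (n + 2)) : ℕ) = v
      have h4 : (⟨((M ⟨v, by omega⟩ : Fin (n + 2)) : ℕ), by omega⟩ : Fin (n + 2)) = M ⟨v, by omega⟩ :=
        Fin.ext rfl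
      rw [h4, h1]
    · intro v hv
      have hv1 : ((M ⟨v, by omega⟩ : Fin (n + 2)) : ℕ) = v := congrArg Fin.val hv
      have h4 : M ⟨v, by omega⟩ = ⟨v, by omega⟩ := Fin.ext hv1
      have h5 := mem_holes.2 h4
      rw [h2, Finset.mem_insert, Finset.mem_singleton] at h5
      have hv2 := v.2
      rcases h5 with h5 | h5
      · have h6 : (v : ℕ) = n := congrArg Fin.val h5
        omega
      · have h6 : (v : ℕ) = n + 1 := congrArg Fin.val h5
        omega
    · funext v
      by_cases hv : (v : ℕ) < n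
      · apply Fin.ext
        rw [upS_lt _ v hv]
      · rw [upS_ge _ v hv]
        have h6 := v.2
        have h7 : (v : ℕ) = n ∨ (v : ℕ) = n + 1 := by omega
        rcases h7 with h7 | h7
        · have h8 : v = vα n := Fin.ext h7
          rw [h8, hα]
        · have h8 : v = vβ n := Fin.ext h7
          rw [h8, hβ]

/-- perfect matchings are involutions along edges -/
theorem numPerfect_eq (G : SimpleGraph (Fin n)) [DecidableRel G.Adj] :
    numPerfect G = ((InvF n).filter fun m => ∀ v, G.Adj v (m v)).card := by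
  classical
  have h0 : ((InvF n).filter fun m => ∀ v, G.Adj v (m v)).card =
      Nat.card {m : Fin n → Fin n // (∀ v, m (m v) = v) ∧ ∀ v, G.Adj v (m v)} := by
    rw [Nat.card_eq_fintype_card, Fintype.card_subtype]
    congr 1
    ext m
    simp only [InvF, Finset.mem_filter, Finset.mem_univ, true_and]
    constructor
    · rintro ⟨⟨h1, _⟩, h3⟩
      exact ⟨h1, h3⟩
    · rintro ⟨h1, h3⟩
      exact ⟨⟨h1, fun v hv => G.loopless.irrefl v (by have := h3 v; rwa [hv] at this)⟩, h3⟩
  rw [h0]
  unfold numPerfect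
  symm
  let Φ : {m : Fin n → Fin n // (∀ v, m (m v) = v) ∧ ∀ v, G.Adj v (m v)} →
      {M : G.Subgraph // M.IsPerfectMatching} := fun m =>
    ⟨{ verts := Set.univ
       Adj := fun u v => m.1 u = v
       adj_sub := fun {u v} h => h ▸ m.2.2 u
       edge_vert := fun _ => Set.mem_univ _
       symm := ⟨fun u v h => by rw [← h]; exact m.2.1 u⟩ },
      ⟨fun v _ => ⟨m.1 v, rfl, fun w hw => Eq.symm (show m.1 v = w from hw)⟩, fun v => Set.mem_univ v⟩⟩
  refine Nat.card_eq_of_bijective Φ ⟨?_, ?_⟩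
  · intro m m' h
    apply Subtype.ext
    funext v
    have h1 : (Φ m).1.Adj v (m.1 v) := rfl
    rw [h] at h1
    exact Eq.symm (show m'.1 v = m.1 v from h1)
  · rintro ⟨M, hM⟩
    have hex : ∀ v, ∃! w, M.Adj v w := fun v => hM.1 (hM.2 v)
    choose u hu huu using hex
    refine ⟨⟨u, fun v => ((huu (u v)) v (hu v).symm).symm, fun v => M.adj_sub (hu v)⟩, ?_⟩
    apply Subtype.ext
    refine SimpleGraph.Subgraph.ext ?_ ?_
    · symm
      exact SimpleGraph.Subgraph.isSpanning_iff.1 hM.2
    · funext v w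
      apply propext
      constructor
      · intro h
        have h1 : u v = w := h
        rw [← h1]
        exact hu v
      · intro h
        exact (huu v w h).symm

theorem card_InvF_le : (InvF n).card ≤ n ^ n := by
  calc (InvF n).card ≤ (univ : Finset (Fin n → Fin n)).card := Finset.card_filter_le _ _
    _ = n ^ n := by rw [Finset.card_univ]; simp

/-- The total weight with the target exponents. -/
theorem ZG_tgt (hn : Even n) (L : ℕ) (G : SimpleGraph (Fin n)) (a : ℕ → ℕ → ℤ) (ha : Sym a)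
    (h : ∀ u v : ℕ, u < v → v < n → a u v = tgt L G u v) :
    (numPerfect G : ℝ) ≤ ZG n a ∧ ZG n a ≤ numPerfect G + n ^ n * (2 : ℝ)⁻¹ ^ L := by
  classical
  have ht : ∀ u v : Fin n, u ≠ v → a u v = if G.Adj u v then 0 else -(L : ℤ) := by
    intro u v huv
    have h1 : ∀ u v : Fin n, (u : ℕ) < v → a u v = if G.Adj u v then 0 else -(L : ℤ) := by
      intro u v huv
      rw [h u v huv v.2]
      unfold tgt
      by_cases hA : G.Adj u v
      · rw [if_pos ⟨⟨u.2, v.2⟩, hA⟩, if_pos hA]
      · rw [if_neg (fun ⟨_, h3⟩ => hA h3), if_neg hA]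
    rcases lt_or_gt_of_ne (fun e : (u : ℕ) = v => huv (Fin.ext e)) with h2 | h2
    · exact h1 u v h2
    · rw [ha u v, h1 v u h2, G.adj_comm]
  have hw : ∀ m ∈ InvF n, wb (scl n a fun _ => 0) (upS m) =
      q2 ^ (∑ u : Fin n, if G.Adj u (m u) then 0 else -(L : ℤ)) := by
    intro m hm
    obtain ⟨h1, h2⟩ := (Finset.mem_filter.1 hm).2
    unfold wb
    congr 1
    rw [Fin.sum_univ_castSucc, Fin.sum_univ_castSucc]
    have e1 : scl n a (fun _ => 0) (Fin.last (n + 1)) (upS m (Fin.last (n + 1))) = 0 := by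
      unfold scl
      rw [if_neg]
      rintro ⟨h3, _⟩
      simp at h3
    have e2 : scl n a (fun _ => 0) (Fin.last n).castSucc (upS m (Fin.last n).castSucc) = 0 := by
      unfold scl
      rw [if_neg]
      rintro ⟨h3, _⟩
      simp at h3
    rw [e1, e2, add_zero, add_zero]
    refine Finset.sum_congr rfl (fun u _ => ?_)
    have h3 : ((u.castSucc.castSucc : Fin (n + 2)) : ℕ) < n := u.2
    have h4 : ((upS m u.castSucc.castSucc : Fin (n + 2)) : ℕ) = m u := upS_lt m _ h3
    unfold scl
    rw [if_pos ⟨h3, by rw [h4]; exact (m u).2, fun e => h2 u (Fin.ext (by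
      have := congrArg Fin.val e
      rw [h4] at this
      exact this.symm))⟩, h4]
    show a u (m u) + 0 + 0 = _
    rw [add_zero, add_zero, ht u (m u) (h2 u).symm]
  have hZ : ZG n a = ∑ m ∈ InvF n, q2 ^ (∑ u : Fin n, if G.Adj u (m u) then 0 else -(L : ℤ)) := by
    unfold ZG
    rw [NB_inv]
    exact Finset.sum_congr rfl hw
  have hgood : ∀ m ∈ (InvF n).filter (fun m => ∀ v, G.Adj v (m v)),
      q2 ^ (∑ u : Fin n, if G.Adj u (m u) then 0 else -(L : ℤ)) = 1 := by
    intro m hm
    have h1 := (Finset.mem_filter.1 hm).2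
    have e : (∑ u : Fin n, if G.Adj u (m u) then 0 else -(L : ℤ)) = 0 :=
      Finset.sum_eq_zero (fun u _ => by rw [if_pos (h1 u)])
    rw [e, zpow_zero]
  have hbad : ∀ m ∈ (InvF n).filter (fun m => ¬ ∀ v, G.Adj v (m v)),
      q2 ^ (∑ u : Fin n, if G.Adj u (m u) then 0 else -(L : ℤ)) ≤ (2 : ℝ)⁻¹ ^ L := by
    intro m hm
    obtain ⟨h1, h2⟩ := Finset.mem_filter.1 hm
    obtain ⟨h3, h4⟩ := (Finset.mem_filter.1 h1).2
    push Not at h2
    obtain ⟨v, hv⟩ := h2
    have e : (∑ u : Fin n, if G.Adj u (m u) then 0 else -(L : ℤ)) ≤ -(2 * L : ℤ) := by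
      have e1 : ∀ u ∈ univ \ ({v, m v} : Finset (Fin n)),
          (if G.Adj u (m u) then 0 else -(L : ℤ)) ≤ 0 := by
        intro u _
        split_ifs <;> omega
      have e2 := Finset.sum_nonpos e1
      rw [← Finset.sum_sdiff (Finset.subset_univ ({v, m v} : Finset (Fin n)))]
      have e3 : (∑ u ∈ ({v, m v} : Finset (Fin n)), if G.Adj u (m u) then 0 else -(L : ℤ)) =
          -(2 * L : ℤ) := by
        rw [Finset.sum_pair (h4 v).symm, if_neg hv, h3, if_neg (fun e => hv e.symm)]
        ring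
      rw [e3]
      omega
    calc q2 ^ (∑ u : Fin n, if G.Adj u (m u) then 0 else -(L : ℤ)) ≤ q2 ^ (-(2 * L : ℤ)) :=
          zpow_le_zpow_right₀ one_le_q2 e
      _ = (2 : ℝ)⁻¹ ^ L := by
          rw [zpow_neg, zpow_mul]
          have : q2 ^ (2 : ℤ) = 2 := by
            rw [← q2_sq]
            norm_cast
          rw [this, zpow_natCast, inv_pow]
  have hnn : ∀ m ∈ (InvF n).filter (fun m => ¬ ∀ v, G.Adj v (m v)),
      0 ≤ q2 ^ (∑ u : Fin n, if G.Adj u (m u) then 0 else -(L : ℤ)) := fun m _ =>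
    (zpow_pos q2_pos _).le
  rw [hZ, ← Finset.sum_filter_add_sum_filter_not (InvF n) (fun m => ∀ v, G.Adj v (m v)),
    Finset.sum_congr rfl hgood, Finset.sum_const, nsmul_eq_mul, mul_one, numPerfect_eq G]
  constructor
  · have := Finset.sum_nonneg hnn
    linarith
  · have h1 := Finset.sum_le_sum hbad
    rw [Finset.sum_const, nsmul_eq_mul] at h1
    have h2 : (((InvF n).filter (fun m => ¬ ∀ v, G.Adj v (m v))).card : ℝ) ≤ (n : ℝ) ^ n := by
      have h3 : ((InvF n).filter (fun m => ¬ ∀ v, G.Adj v (m v))).card ≤ n ^ n :=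
        (Finset.card_filter_le _ _).trans card_InvF_le
      exact_mod_cast h3
    have h4 : (0 : ℝ) ≤ (2 : ℝ)⁻¹ ^ L := by positivity
    have h5 := mul_le_mul_of_nonneg_right h2 h4
    linarith

/-- An odd number of vertices. -/
theorem numPerfect_odd (G : SimpleGraph (Fin n)) (hn : ¬ Even n) : numPerfect G = 0 := by
  unfold numPerfect
  have : IsEmpty {M : G.Subgraph // M.IsPerfectMatching} := by
    refine ⟨fun M => hn ?_⟩
    have h := M.2.even_card
    rwa [Fintype.card_fin] at h
  exact Nat.card_of_isEmpty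

/-- The edge exponents after `q` operations. -/
noncomputable def aSeq (L : ℕ) (G : SimpleGraph (Fin n)) : ℕ → ℕ → ℕ → ℤ
  | 0 => a0 L
  | q + 1 => addE (aSeq L G q) (opE n q) (dlt L G (aSeq L G q) (opE n q))

theorem aSeq_sym (L : ℕ) (G : SimpleGraph (Fin n)) (q : ℕ) : Sym (aSeq L G q) := by
  induction q with
  | zero =>
    intro u v
    show a0 L u v = a0 L v u
    unfold a0
    simp only [eq_comm]
  | succ q ih =>
    intro u v
    show addE (aSeq L G q) (opE n q) _ u v = addE (aSeq L G q) (opE n q) _ v u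
    unfold addE
    rw [ih u v]
    congr 1
    refine if_congr ?_ rfl rfl
    tauto

theorem aseq_tgt (L : ℕ) (G : SimpleGraph (Fin n)) (u v : ℕ) :
    tgt L G u v = 0 ∨ tgt L G u v = -(L : ℤ) := by
  unfold tgt
  split_ifs
  · exact Or.inl rfl
  · exact Or.inr rfl

theorem aSeq_range (L : ℕ) (G : SimpleGraph (Fin n)) (q : ℕ) (u v : ℕ) :
    -(L : ℤ) ≤ aSeq L G q u v ∧ aSeq L G q u v ≤ 0 := by
  induction q generalizing u v with
  | zero =>
    show -(L : ℤ) ≤ a0 L u v ∧ a0 L u v ≤ 0
    unfold a0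
    split_ifs <;> constructor <;> omega
  | succ q ih =>
    show -(L : ℤ) ≤ addE (aSeq L G q) (opE n q) (dlt L G (aSeq L G q) (opE n q)) u v ∧
      addE (aSeq L G q) (opE n q) (dlt L G (aSeq L G q) (opE n q)) u v ≤ 0
    have h1 := ih u v
    have hs := aSeq_sym L G q
    have ht := aseq_tgt L G (opE n q).1 (opE n q).2
    unfold addE
    split_ifs with h
    · have he : aSeq L G q u v = aSeq L G q (opE n q).1 (opE n q).2 := by
        rcases h with ⟨h2, h3⟩ | ⟨h2, h3⟩
        · rw [h2, h3]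
        · rw [h2, h3, hs]
      rw [he] at h1 ⊢
      unfold dlt
      split_ifs <;> rcases ht with ht | ht <;> constructor <;> omega
    · constructor <;> omega

/-- one operation does not increase the distance to the target -/
theorem aseq_step (L : ℕ) (G : SimpleGraph (Fin n)) {u v : ℕ} (huv : u < v) (q : ℕ) :
    |aSeq L G (q + 1) u v - tgt L G u v| ≤ |aSeq L G q u v - tgt L G u v| ∧
      (opE n q = (u, v) → |aSeq L G (q + 1) u v - tgt L G u v| ≤
        max 0 (|aSeq L G q u v - tgt L G u v| - 1)) := by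
  have hdef : aSeq L G (q + 1) u v = aSeq L G q u v +
      if (u = (opE n q).1 ∧ v = (opE n q).2) ∨ (u = (opE n q).2 ∧ v = (opE n q).1) then
        dlt L G (aSeq L G q) (opE n q) else 0 := rfl
  have hd : dlt L G (aSeq L G q) (opE n q) = if (opE n q).1 < (opE n q).2 then
      (if aSeq L G q (opE n q).1 (opE n q).2 < tgt L G (opE n q).1 (opE n q).2 then 1 else
        if tgt L G (opE n q).1 (opE n q).2 < aSeq L G q (opE n q).1 (opE n q).2 then -1 else 0)
      else 0 := rfl
  by_cases h1 : u = (opE n q).1 ∧ v = (opE n q).2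
  · have hlt : (opE n q).1 < (opE n q).2 := by rw [← h1.1, ← h1.2]; exact huv
    rw [if_pos (Or.inl h1), hd, if_pos hlt, ← h1.1, ← h1.2] at hdef
    generalize aSeq L G (q + 1) u v = x' at *
    generalize aSeq L G q u v = x at *
    generalize tgt L G u v = t at *
    constructor
    · split_ifs at hdef <;> rw [hdef] <;> rw [abs_le] <;> constructor <;>
        cases abs_cases (x - t) <;> omega
    · intro _
      split_ifs at hdef with g1 g2
      · rw [hdef, abs_of_nonpos (by omega : x - t ≤ 0), abs_of_nonpos (by omega : x + 1 - t ≤ 0)]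
        exact le_max_of_le_right (by omega)
      · rw [hdef, abs_of_nonneg (by omega : 0 ≤ x - t), abs_of_nonneg (by omega : 0 ≤ x + -1 - t)]
        exact le_max_of_le_right (by omega)
      · have : x = t := by omega
        rw [hdef, this]
        simp
  · refine ⟨?_, fun h => absurd ?_ h1⟩
    · by_cases h2 : u = (opE n q).2 ∧ v = (opE n q).1
      · have hlt : ¬ (opE n q).1 < (opE n q).2 := by rw [← h2.1, ← h2.2]; omega
        rw [if_pos (Or.inr h2), hd, if_neg hlt, add_zero] at hdef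
        rw [hdef]
      · rw [if_neg (by tauto), add_zero] at hdef
        rw [hdef]
    · rw [h]
      exact ⟨rfl, rfl⟩

/-- After `L n²` operations the exponents are the target exponents. -/
theorem aSeq_end (L : ℕ) (G : SimpleGraph (Fin n)) {u v : ℕ} (huv : u < v) (hv : v < n) :
    aSeq L G (L * (n * n)) u v = tgt L G u v := by
  set D : ℕ → ℤ := fun q => |aSeq L G q u v - tgt L G u v| with hD
  have hanti : Antitone D := antitone_nat_of_succ_le fun q => (aseq_step L G huv q).1
  have hr : u * n + v < n * n := by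
    calc u * n + v < u * n + n := by omega
      _ = (u + 1) * n := by ring
      _ ≤ n * n := Nat.mul_le_mul_right _ (by omega)
  have hstep : ∀ k : ℕ, D ((k + 1) * (n * n)) ≤ max 0 (D (k * (n * n)) - 1) := by
    intro k
    have hop : opE n (k * (n * n) + (u * n + v)) = (u, v) := by
      unfold opE
      have h1 : (k * (n * n) + (u * n + v)) % (n * n) = u * n + v := by
        rw [Nat.add_comm, Nat.add_mul_mod_self_right, Nat.mod_eq_of_lt hr]
      have hn : 0 < n := by omega
      rw [h1]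
      have h2 : (u * n + v) / n = u := by
        rw [Nat.add_comm, Nat.add_mul_div_right _ _ hn, Nat.div_eq_of_lt hv, Nat.zero_add]
      have h3 : (u * n + v) % n = v := by
        rw [Nat.add_comm, Nat.add_mul_mod_self_right, Nat.mod_eq_of_lt hv]
      rw [h2, h3]
    have h1 : D (k * (n * n) + (u * n + v) + 1) ≤ max 0 (D (k * (n * n) + (u * n + v)) - 1) :=
      (aseq_step L G huv _).2 hop
    have h2 : D ((k + 1) * (n * n)) ≤ D (k * (n * n) + (u * n + v) + 1) := by
      refine hanti ?_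
      have : (k + 1) * (n * n) = k * (n * n) + n * n := by ring
      omega
    have h3 : D (k * (n * n) + (u * n + v)) ≤ D (k * (n * n)) := hanti (by omega)
    refine h2.trans (h1.trans ?_)
    exact max_le_max le_rfl (by omega)
  have hmain : ∀ k : ℕ, k ≤ L → D (k * (n * n)) ≤ (L : ℤ) - k := by
    intro k
    induction k with
    | zero =>
      intro _
      have h1 := aSeq_range L G (0 * (n * n)) u v
      have h2 := aseq_tgt L G u v
      show |aSeq L G (0 * (n * n)) u v - tgt L G u v| ≤ (L : ℤ) - ((0 : ℕ) : ℤ)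
      rw [abs_le]
      rcases h2 with h2 | h2 <;> rw [h2] <;> push_cast <;> constructor <;> omega
    | succ k ih =>
      intro hk
      have h1 := ih (by omega)
      refine (hstep k).trans (max_le ?_ ?_)
      · push_cast
        omega
      · push_cast
        omega
  have hfin := hmain L le_rfl
  have h0 : |aSeq L G (L * (n * n)) u v - tgt L G u v| ≤ 0 := by
    refine hfin.trans ?_
    omega
  have := abs_nonpos_iff.1 h0
  omega

end Vale.Agent.P308Q
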