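import Vale.Agent.P308Q.Flip

/-!
# The sum over a family of pairs of matchings, after an exchange
-/

namespace Vale.Agent.P308Q

open Finset

variable {V : Type} [Fintype V] [DecidableEq V]

/-- The product of two totals as a sum over pairs. -/
theorem flipSum_mul (E : Exps V) (X Y : Finset V) : NN E X * NN E Y =
    ∑ p ∈ (univ : Finset (Mat V × Mat V)).filter (fun p => holes p.1.1 = X ∧ holes p.2.1 = Y),
      wt E p.1.1 * wt E p.2.1 := by
  unfold NN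
  rw [Finset.sum_mul_sum, sum_filter, Fintype.sum_prod_type]
  refine sum_congr rfl fun a _ => sum_congr rfl fun b _ => ?_
  by_cases h1 : holes a.1 = X <;> by_cases h2 : holes b.1 = Y <;> simp [h1, h2]

/-- If the pairs of `S` are exchanged on closed sets `O p` that can be recovered from the exchanged
pair, and the exchanged pairs have holes `X`, `Y`, then the total weight of `S` is at most
`N(X) N(Y)`. -/
theorem flip_sum (E : Exps V) (S : Finset (Mat V × Mat V)) (O : (V → V) → (V → V) → Set V)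
    (h1 : ∀ p ∈ S, ∀ v ∈ O p.1.1 p.2.1, p.1.1 v ∈ O p.1.1 p.2.1)
    (h2 : ∀ p ∈ S, ∀ v ∈ O p.1.1 p.2.1, p.2.1 v ∈ O p.1.1 p.2.1)
    (hO : ∀ p ∈ S, O (glue p.1.1 p.2.1 (O p.1.1 p.2.1)) (glue p.2.1 p.1.1 (O p.1.1 p.2.1)) =
      O p.1.1 p.2.1) (X Y : Finset V)
    (hX : ∀ p ∈ S, holes (glue p.1.1 p.2.1 (O p.1.1 p.2.1)) = X)
    (hY : ∀ p ∈ S, holes (glue p.2.1 p.1.1 (O p.1.1 p.2.1)) = Y) :
    ∑ p ∈ S, wt E p.1.1 * wt E p.2.1 ≤ NN E X * NN E Y := by
  classical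
  rw [flipSum_mul]
  -- the exchanged pair
  let Φ : ∀ p ∈ S, Mat V × Mat V := fun p hp =>
    (⟨glue p.1.1 p.2.1 (O p.1.1 p.2.1),
      glue_invol p.1.2 p.2.2 (h1 p hp) (h2 p hp)⟩,
     ⟨glue p.2.1 p.1.1 (O p.1.1 p.2.1),
      glue_invol p.2.2 p.1.2 (h2 p hp) (h1 p hp)⟩)
  have hΦ : ∀ p (hp : p ∈ S), p.1.1 = glue (Φ p hp).1.1 (Φ p hp).2.1
        (O (Φ p hp).1.1 (Φ p hp).2.1) ∧
      p.2.1 = glue (Φ p hp).2.1 (Φ p hp).1.1 (O (Φ p hp).1.1 (Φ p hp).2.1) := by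
    intro p hp
    have h3 : O (Φ p hp).1.1 (Φ p hp).2.1 = O p.1.1 p.2.1 := hO p hp
    rw [h3]
    exact ⟨(glue_glue p.1.1 p.2.1 _).symm, (glue_glue p.2.1 p.1.1 _).symm⟩
  have hinj : ∀ p (hp : p ∈ S) q (hq : q ∈ S), Φ p hp = Φ q hq → p = q := by
    intro p hp q hq h
    have h3 := hΦ p hp
    have h4 := hΦ q hq
    rw [h] at h3
    refine Prod.ext (Subtype.ext ?_) (Subtype.ext ?_)
    · rw [h3.1, h4.1]
    · rw [h3.2, h4.2]
  calc ∑ p ∈ S, wt E p.1.1 * wt E p.2.1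
      = ∑ p : {p // p ∈ S}, wt E (Φ p.1 p.2).1.1 * wt E (Φ p.1 p.2).2.1 := by
        rw [← sum_attach S]
        refine sum_congr rfl fun p _ => ?_
        exact (wt_glue E p.1.1.1 p.1.2.1 (O p.1.1.1 p.1.2.1)).symm
    _ = ∑ q ∈ (univ : Finset {p // p ∈ S}).image (fun p => Φ p.1 p.2),
          wt E q.1.1 * wt E q.2.1 := by
        rw [sum_image]
        intro p _ q _ h
        exact Subtype.ext (hinj p.1 p.2 q.1 q.2 h)
    _ ≤ ∑ p ∈ (univ : Finset (Mat V × Mat V)).filter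
          (fun p => holes p.1.1 = X ∧ holes p.2.1 = Y), wt E p.1.1 * wt E p.2.1 := by
        refine sum_le_sum_of_subset_of_nonneg ?_ fun q _ _ =>
          (mul_pos (wt_pos E _) (wt_pos E _)).le
        intro q hq
        obtain ⟨p, _, rfl⟩ := mem_image.1 hq
        exact mem_filter.2 ⟨mem_univ _, hX p.1 p.2, hY p.1 p.2⟩

/-- The product of two totals as a sum over pairs. -/
theorem NN_mul (E : Exps V) (X Y : Finset V) : NN E X * NN E Y =
    ∑ p ∈ (univ : Finset (Mat V × Mat V)).filter (fun p => holes p.1.1 = X ∧ holes p.2.1 = Y),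
      wt E p.1.1 * wt E p.2.1 := flipSum_mul E X Y

end Vale.Agent.P308Q
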