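import Vale.Agent.P317R.Freq

/-!
# Laws given by weights on a finite set
-/

namespace Vale.Agent.P308Q

open Finset Vale.Agent.P328R Vale.Agent.P317R Vale.Agent.P328RAM
open scoped ENNReal

open Classical in
/-- The law on `S` proportional to `w` (a point mass if this makes no sense). -/
noncomputable def gibbs {σ : Type} [Inhabited σ] (S : Finset σ) (w : σ → ℝ) : PMF σ :=
  if h : (∀ x ∈ S, 0 ≤ w x) ∧ 0 < ∑ x ∈ S, w x then
    PMF.ofFinset (fun x => if x ∈ S then ENNReal.ofReal (w x / ∑ z ∈ S, w z) else 0) S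
      (by
        rw [Finset.sum_congr rfl fun x hx => if_pos hx, ← ENNReal.ofReal_sum_of_nonneg
          (fun x hx => div_nonneg (h.1 x hx) h.2.le), ← Finset.sum_div, div_self h.2.ne',
          ENNReal.ofReal_one])
      (fun x hx => if_neg hx)
  else PMF.pure default

theorem gibbs_apply {σ : Type} [Inhabited σ] {S : Finset σ} {w : σ → ℝ} (h0 : ∀ x ∈ S, 0 ≤ w x)
    (h1 : 0 < ∑ x ∈ S, w x) {x : σ} (hx : x ∈ S) :
    (gibbs S w x).toReal = w x / ∑ z ∈ S, w z := by
  classical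
  unfold gibbs
  rw [dif_pos ⟨h0, h1⟩, PMF.ofFinset_apply, if_pos hx,
    ENNReal.toReal_ofReal (div_nonneg (h0 x hx) h1.le)]

theorem gibbs_off {σ : Type} [Inhabited σ] {S : Finset σ} {w : σ → ℝ} (h0 : ∀ x ∈ S, 0 ≤ w x)
    (h1 : 0 < ∑ x ∈ S, w x) {x : σ} (hx : x ∉ S) : gibbs S w x = 0 := by
  classical
  unfold gibbs
  rw [dif_pos ⟨h0, h1⟩, PMF.ofFinset_apply, if_neg hx]

/-- The mass of a set. -/
theorem gibbs_mass {σ : Type} [Inhabited σ] {S F : Finset σ} {w : σ → ℝ} (h0 : ∀ x ∈ S, 0 ≤ w x)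
    (h1 : 0 < ∑ x ∈ S, w x) (hFS : F ⊆ S) :
    mass (gibbs S w) F = (∑ z ∈ F, w z) / ∑ z ∈ S, w z := by
  unfold mass
  rw [Finset.sum_div]
  exact Finset.sum_congr rfl fun x hx => gibbs_apply h0 h1 (hFS hx)

/-- The probability of an event. -/
theorem gibbs_prob {σ : Type} [Inhabited σ] {S : Finset σ} {w : σ → ℝ} (h0 : ∀ x ∈ S, 0 ≤ w x)
    (h1 : 0 < ∑ x ∈ S, w x) (A : Set σ) [DecidablePred (· ∈ A)] :
    ((gibbs S w).toOuterMeasure A).toReal = (∑ z ∈ S.filter (· ∈ A), w z) / ∑ z ∈ S, w z := by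
  classical
  have hoff : ∀ x, x ∉ S.filter (· ∈ A) → A.indicator (gibbs S w) x = 0 := by
    intro x hx
    by_cases hA : x ∈ A
    · rw [Set.indicator_of_mem hA]
      exact gibbs_off h0 h1 fun h => hx (Finset.mem_filter.2 ⟨h, hA⟩)
    · exact Set.indicator_of_notMem hA _
  rw [PMF.toOuterMeasure_apply, tsum_eq_sum fun x hx => hoff x hx, ENNReal.toReal_sum,
    Finset.sum_div]
  · refine Finset.sum_congr rfl fun x hx => ?_
    rw [Set.indicator_of_mem (Finset.mem_filter.1 hx).2,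
      gibbs_apply h0 h1 (Finset.mem_filter.1 hx).1]
  · intro x hx
    rw [Set.indicator_of_mem (Finset.mem_filter.1 hx).2]
    exact (gibbs S w).apply_ne_top x

theorem CONV_iter_nonneg {Ω : Type*} [Fintype Ω] {p : Ω → ℝ} {P : Ω → Ω → ℝ} (h : LazyRev p P)
    {f : Ω → ℝ} (hf : ∀ x, 0 ≤ f x) (s : ℕ) : ∀ x, 0 ≤ (opP P)^[s] f x := by
  induction s with
  | zero => simpa using hf
  | succ s ih =>
    intro x
    rw [Function.iterate_succ_apply']
    exact sum_nonneg fun y _ => mul_nonneg (h.nonneg x y) (ih y)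

/-- the real estimate -/
theorem CONV_real {Ω : Type*} [Fintype Ω] [DecidableEq Ω] {p : Ω → ℝ} {P : Ω → Ω → ℝ}
    (h : LazyRev p P) (A : Finset Ω) {η : ℝ} (hA0 : 0 < ∑ x ∈ A, p x)
    (hA : 1 - η ≤ ∑ x ∈ A, p x) {C1 : ℝ}
    (hP : ∀ g : Ω → ℝ, ∑ x ∈ A, p x * (g x - (∑ z ∈ A, p z * g z) / ∑ z ∈ A, p z) ^ 2 ≤
      C1 * Dir p P g) (hC1 : 0 ≤ C1) {f : Ω → ℝ} {M : ℝ} (hf0 : ∀ x, 0 ≤ f x) (hfM : ∀ x, f x ≤ M)
    (hE : Ex p f = 1) (s : ℕ) :
    TVd (fun x => p x * (opP P)^[s] f x) (fun x => if x ∈ A then p x / ∑ z ∈ A, p z else 0) ≤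
      M * η + Real.sqrt (C1 * M / (s + 1)) := by
  set a := ∑ z ∈ A, p z with ha
  set g := (opP P)^[s] f with hg
  have hp := h.p_nonneg
  have hg0 : ∀ x, 0 ≤ g x := CONV_iter_nonneg h hf0 s
  have hM0 : 0 ≤ M := by
    rcases isEmpty_or_nonempty Ω with h0 | ⟨⟨x⟩⟩
    · have := h.p_sum
      simp at this
    · exact (hf0 x).trans (hfM x)
  have hgM : ∀ x, g x ≤ M := fun x =>
    (le_abs_self _).trans (abs_iter_le h (fun y => by rw [abs_of_nonneg (hf0 y)]; exact hfM y) s x)
  have hEg : ∑ x, p x * g x = 1 := by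
    have := Ex_iter h f s
    rw [hE] at this
    exact this
  have hV : Vr p f ≤ M := by
    refine (Vr_le_sq h f).trans ?_
    calc ∑ x, p x * f x ^ 2 ≤ ∑ x, p x * f x * M := sum_le_sum fun x _ => by
          have := mul_le_mul_of_nonneg_left (hfM x) (mul_nonneg (hp x) (hf0 x))
          calc p x * f x ^ 2 = p x * f x * f x := by ring
            _ ≤ _ := this
      _ = M := by
          rw [← sum_mul]
          have : ∑ x, p x * f x = 1 := hE
          rw [this, one_mul]
  have ha1 : a ≤ 1 := by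
    rw [ha, ← h.p_sum]
    exact sum_le_sum_of_subset_of_nonneg (subset_univ A) fun x _ _ => hp x
  set B := univ.filter fun x => x ∉ A with hB
  have split : ∀ u : Ω → ℝ, ∑ x, u x = ∑ x ∈ A, u x + ∑ x ∈ B, u x := by
    intro u
    rw [← sum_filter_add_sum_filter_not univ (fun x => x ∈ A)]
    congr 1
    refine sum_congr ?_ fun _ _ => rfl
    ext; simp
  set r := ∑ x ∈ B, p x * g x with hr
  have hr0 : 0 ≤ r := sum_nonneg fun x _ => mul_nonneg (hp x) (hg0 x)
  have hrM : r ≤ M * η := by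
    have h1 : ∑ x ∈ B, p x = 1 - a := by
      have := split p
      rw [h.p_sum] at this
      linarith
    calc r ≤ ∑ x ∈ B, p x * M := sum_le_sum fun x _ => mul_le_mul_of_nonneg_left (hgM x) (hp x)
      _ = (1 - a) * M := by rw [← sum_mul, h1]
      _ ≤ η * M := mul_le_mul_of_nonneg_right (by linarith) hM0
      _ = _ := mul_comm _ _
  have hAg : ∑ x ∈ A, p x * g x = 1 - r := by
    have := split fun x => p x * g x
    rw [hEg] at this
    linarith
  set m := (∑ x ∈ A, p x * g x) / a with hm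
  -- the deviation on `A`
  have hD : ∑ x ∈ A, p x * |g x - m| ≤ Real.sqrt (C1 * M / (s + 1)) := by
    apply Real.le_sqrt_of_sq_le
    have h1 := wcs A hp (fun _ => 1) fun x => |g x - m|
    simp only [one_pow, mul_one, one_mul, sq_abs] at h1
    have h2 : ∑ x ∈ A, p x * (g x - m) ^ 2 ≤ C1 * Dir p P g := hP g
    have h3 := Dir_iter_le h f s
    have hs : (0 : ℝ) < s + 1 := by positivity
    have h4 : Dir p P g ≤ M / (s + 1) := by
      rw [le_div_iff₀ hs]
      calc Dir p P g * (s + 1) = (s + 1) * Dir p P g := mul_comm _ _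
        _ ≤ Vr p f := h3
        _ ≤ M := hV
    calc (∑ x ∈ A, p x * |g x - m|) ^ 2 ≤ a * ∑ x ∈ A, p x * (g x - m) ^ 2 := h1
      _ ≤ 1 * ∑ x ∈ A, p x * (g x - m) ^ 2 :=
        mul_le_mul_of_nonneg_right ha1 (sum_nonneg fun x _ => mul_nonneg (hp x) (sq_nonneg _))
      _ ≤ 1 * (C1 * Dir p P g) := mul_le_mul_of_nonneg_left h2 zero_le_one
      _ ≤ 1 * (C1 * (M / (s + 1))) :=
        mul_le_mul_of_nonneg_left (mul_le_mul_of_nonneg_left h4 hC1) zero_le_one
      _ = C1 * M / (s + 1) := by ring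
  have hsum : ∑ x, |p x * g x - if x ∈ A then p x / a else 0| =
      ∑ x ∈ A, p x * |g x - 1 / a| + r := by
    rw [split]
    congr 1
    · refine sum_congr rfl fun x hx => ?_
      rw [if_pos hx]
      have : p x * g x - p x / a = p x * (g x - 1 / a) := by ring
      rw [this, abs_mul, abs_of_nonneg (hp x)]
    · refine sum_congr rfl fun x hx => ?_
      rw [if_neg (mem_filter.1 hx).2, sub_zero, abs_of_nonneg (mul_nonneg (hp x) (hg0 x))]
  have h5 : ∑ x ∈ A, p x * |g x - 1 / a| ≤ ∑ x ∈ A, p x * |g x - m| + r := by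
    have e1 : a * |m - 1 / a| = r := by
      have : a * (m - 1 / a) = -r := by
        rw [hm, hAg]; field_simp; ring
      calc a * |m - 1 / a| = |a| * |m - 1 / a| := by rw [abs_of_pos hA0]
        _ = |a * (m - 1 / a)| := (abs_mul _ _).symm
        _ = r := by rw [this, abs_neg, abs_of_nonneg hr0]
    calc ∑ x ∈ A, p x * |g x - 1 / a| ≤ ∑ x ∈ A, (p x * |g x - m| + p x * |m - 1 / a|) :=
          sum_le_sum fun x _ => by
            rw [← mul_add]
            exact mul_le_mul_of_nonneg_left (abs_sub_le _ _ _) (hp x)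
      _ = ∑ x ∈ A, p x * |g x - m| + a * |m - 1 / a| := by
          rw [sum_add_distrib, ← sum_mul]
      _ = _ := by rw [e1]
  unfold TVd
  rw [hsum]
  have h6 : 0 ≤ ∑ x ∈ A, p x * |g x - m| := sum_nonneg fun x _ => mul_nonneg (hp x) (abs_nonneg _)
  linarith

/-- **Convergence to the restricted law.** `F` is a set of almost full stationary mass on which the
variance is controlled by the Dirichlet form; the start law has a bounded density. -/
theorem conv {σ : Type} {S F : Finset σ} {π πF : PMF σ} {κ : σ → PMF σ} (h : RevChain S π κ)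
    (hFS : F ⊆ S) {η : ℝ} (hη : η ≤ 1 / 2) (hA : 1 - η ≤ mass π F)
    (hπ0 : ∀ x, x ∉ F → πF x = 0) (hπ : ∀ x ∈ F, (πF x).toReal = (π x).toReal / mass π F)
    {C1 : ℝ} (hC1 : 0 ≤ C1)
    (hP : ∀ g : σ → ℝ, ∑ x ∈ F, (π x).toReal *
      (g x - (∑ z ∈ F, (π z).toReal * g z) / mass π F) ^ 2 ≤ C1 * dir S π κ g)
    {μ : PMF σ} {B : ℝ} (hB : 0 ≤ B) (hM : ∀ x, (μ x).toReal ≤ B * (πF x).toReal) (s : ℕ) :
    TVle (μ.bind (iterBind κ s)) πF
      (ENNReal.ofReal (2 * B * η + Real.sqrt (2 * C1 * B / (s + 1)))) := by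
  classical
  have ha : 1 / 2 ≤ mass π F := by linarith
  have ha0 : 0 < mass π F := by linarith
  have hM2 : ∀ x, (μ x).toReal ≤ 2 * B * (π x).toReal := by
    intro x
    by_cases hx : x ∈ F
    · refine (hM x).trans ?_
      rw [hπ x hx]
      have h1 : (π x).toReal / mass π F ≤ 2 * (π x).toReal := by
        rw [div_le_iff₀ ha0]
        have := mul_le_mul_of_nonneg_left ha
          (mul_nonneg zero_le_two (ENNReal.toReal_nonneg (a := π x)))
        linarith
      calc B * ((π x).toReal / mass π F) ≤ B * (2 * (π x).toReal) :=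
            mul_le_mul_of_nonneg_left h1 hB
        _ = _ := by ring
    · have h1 := hM x
      rw [hπ0 x hx, ENNReal.toReal_zero, mul_zero] at h1
      exact h1.trans (mul_nonneg (by positivity) ENNReal.toReal_nonneg)
  have hμ : ∀ x, x ∉ S → μ x = 0 := fun x hx => by
    have h1 := hM2 x
    rw [h.supp x hx, ENNReal.toReal_zero, mul_zero] at h1
    have h2 : (μ x).toReal = 0 := le_antisymm h1 ENNReal.toReal_nonneg
    exact (ENNReal.toReal_eq_zero_iff _).1 h2 |>.resolve_right (μ.apply_ne_top x)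
  have hlr := h.lazyRev
  set p := vec S π with hp
  set P := fun x y : S => (κ x y).toReal with hPdef
  set f : S → ℝ := fun x => vec S μ x / p x with hf
  have hMx : ∀ x : S, vec S μ x ≤ 2 * B * p x := fun x => hM2 x
  have hμf : vec S μ = fun x => p x * f x := by
    funext x
    rcases eq_or_ne (p x) 0 with hx | hx
    · have h1 := hMx x
      rw [hx, mul_zero] at h1
      have : vec S μ x = 0 := le_antisymm h1 (vec_nonneg S μ x)
      simp [hx, this]
    · simp only [hf]; field_simp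
  have hf0 : ∀ x, 0 ≤ f x := fun x => div_nonneg (vec_nonneg S μ x) (hlr.p_nonneg x)
  have hfM : ∀ x, f x ≤ 2 * B := by
    intro x
    rcases (hlr.p_nonneg x).eq_or_lt with hx | hx
    · simp only [hf, ← hx, div_zero]; positivity
    · simp only [hf]; rw [div_le_iff₀ hx]; exact hMx x
  have hE : Ex p f = 1 := by
    unfold Ex
    rw [← vec_sum hμ]
    exact sum_congr rfl fun x _ => by rw [hμf]
  set A : Finset S := (univ : Finset S).filter (fun x : S => (x : σ) ∈ F) with hAdef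
  have eA : ∀ u : σ → ℝ, ∑ x ∈ A, u x = ∑ x ∈ F, u x := fun u => sum_subA hFS u
  have emass : ∑ x ∈ A, p x = mass π F := eA fun x => (π x).toReal
  obtain ⟨h1, h2⟩ := vec_iter h.closed s μ hμ
  rw [hμf, pushP_iter_dens hlr] at h1
  refine TVle_of_TVd h2 (fun x hx => hπ0 x fun hxF => hx (hFS hxF)) ?_
  have h3 : vec S πF = fun x => if x ∈ A then p x / ∑ z ∈ A, p z else 0 := by
    funext x
    rw [emass]
    have hxA : x ∈ A ↔ (x : σ) ∈ F := by
      rw [hAdef]
      simp only [mem_filter, mem_univ, true_and]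
    by_cases hx : (x : σ) ∈ F
    · rw [if_pos (hxA.2 hx)]
      exact hπ x hx
    · rw [if_neg fun hx2 => hx (hxA.1 hx2)]
      show (πF x).toReal = 0
      rw [hπ0 x hx, ENNReal.toReal_zero]
  rw [h1, h3]
  have key := CONV_real hlr A (η := η) (by rw [emass]; exact ha0) (by rw [emass]; exact hA)
    (C1 := C1) ?_ hC1 hf0 hfM hE s
  · refine key.trans (le_of_eq ?_)
    congr 2
    ring
  · intro g
    let g' : σ → ℝ := fun x => if hx : x ∈ S then g ⟨x, hx⟩ else 0
    have hg' : ∀ x : S, g' x = g x := fun x => by simp [g']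
    have h4 := hP g'
    have e2 : dir S π κ g' = Dir p P g := by
      unfold dir Dir
      rw [← sum_coe_sort S]
      congr 1
      refine sum_congr rfl fun x _ => ?_
      rw [← sum_coe_sort S]
      exact sum_congr rfl fun y _ => by rw [hg', hg']; rfl
    have e3 : ∑ z ∈ A, p z * g z = ∑ z ∈ F, (π z).toReal * g' z := by
      rw [← eA fun z => (π z).toReal * g' z]
      exact sum_congr rfl fun x _ => by rw [hg']; rfl
    rw [emass, e3, ← e2]
    refine le_trans (le_of_eq ?_) h4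
    rw [← eA fun x => (π x).toReal * (g' x - (∑ z ∈ F, (π z).toReal * g' z) / mass π F) ^ 2]
    exact sum_congr rfl fun x _ => by rw [hg']; rfl

end Vale.Agent.P308Q
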