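import Vale.Agent.P308Q.CKBase

/-!
# The hole bound: one pair of matchings of the second case
-/

namespace Vale.Agent.P308Q

open Finset

variable {V : Type} [Fintype V] [DecidableEq V]

/-- `c` without the pair of `p`. -/
def cut1 (c : V → V) (p : V) : V → V := fun v => if v = p ∨ v = c p then v else c v

omit [Fintype V] in
theorem cut1_invol {c : V → V} (hc : ∀ v, c (c v) = v) (p v : V) :
    cut1 c p (cut1 c p v) = v := by
  unfold cut1
  by_cases h : v = p ∨ v = c p
  · simp only [if_pos h]
  · simp only [if_neg h]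
    have h' : ¬ (c v = p ∨ c v = c p) := by
      rintro (h1 | h1)
      · exact h (Or.inr (by rw [← h1, hc]))
      · exact h (Or.inl (by rw [← hc v, h1, hc]))
    rw [if_neg h', hc]

/-- The common hypotheses of the second case. -/
structure Loc (E : Exps V) (L K j t : ℕ) (W : Finset V) (y w z p : V) (c : V → V) : Prop where
  hj : 1 ≤ j
  ht : 1 ≤ t
  hyW : y ∉ W
  hzW : z ∉ W
  hwW : w ∉ W
  hzy : z ≠ y
  hwy : w ≠ y
  hwz : w ≠ z
  hpz : p ≠ z
  hpw : p ≠ w
  hl : (t : ℤ) ≤ E.l w z
  hs : t ≤ sim E L y z
  cc : ∀ v, c (c v) = v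
  cW : ∀ v, c v ≠ v → v ∈ W
  cj : (mv c).card ≤ 2 * (j - 1)
  hK : W.card + 2 ≤ 2 * K

open Classical in
/-- `c` on `T`, the identity outside -/
noncomputable def gaIn (c : V → V) (T : Set V) : V → V := fun v => if v ∈ T then c v else v

open Classical in
/-- `c` outside `T`, the identity on `T` -/
noncomputable def gaOut (c : V → V) (T : Set V) : V → V := fun v => if v ∈ T then v else c v

omit [Fintype V] [DecidableEq V] in
theorem gaIn_mem (c : V → V) {T : Set V} {v : V} (h : v ∈ T) : gaIn c T v = c v := by
  unfold gaIn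
  rw [if_pos h]

omit [Fintype V] [DecidableEq V] in
theorem gaIn_not (c : V → V) {T : Set V} {v : V} (h : v ∉ T) : gaIn c T v = v := by
  unfold gaIn
  rw [if_neg h]

omit [Fintype V] [DecidableEq V] in
theorem gaOut_mem (c : V → V) {T : Set V} {v : V} (h : v ∈ T) : gaOut c T v = v := by
  unfold gaOut
  rw [if_pos h]

omit [Fintype V] [DecidableEq V] in
theorem gaOut_not (c : V → V) {T : Set V} {v : V} (h : v ∉ T) : gaOut c T v = c v := by
  unfold gaOut
  rw [if_neg h]

omit [Fintype V] [DecidableEq V] in
theorem gaIn_invol {c : V → V} {T : Set V} (hc : ∀ v, c (c v) = v) (hT : ∀ v ∈ T, c v ∈ T)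
    (v : V) : gaIn c T (gaIn c T v) = v := by
  unfold gaIn
  by_cases h : v ∈ T
  · rw [if_pos h, if_pos (hT v h), hc]
  · rw [if_neg h, if_neg h]

omit [Fintype V] [DecidableEq V] in
theorem gaOut_invol {c : V → V} {T : Set V} (hc : ∀ v, c (c v) = v) (hT : ∀ v ∈ T, c v ∈ T)
    (v : V) : gaOut c T (gaOut c T v) = v := by
  unfold gaOut
  by_cases h : v ∈ T
  · rw [if_pos h, if_pos h]
  · rw [if_neg h, if_neg (fun h1 => h (by rw [← hc v]; exact hT _ h1)), hc]

theorem ga_card (c : V → V) (T : Set V) :
    (mv (gaIn c T)).card + (mv (gaOut c T)).card = (mv c).card := by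
  classical
  have h1 : mv (gaIn c T) = (mv c).filter (fun v => v ∈ T) := by
    ext v
    simp only [mem_mv, mem_filter, gaIn]
    by_cases h : v ∈ T <;> simp [h]
  have h2 : mv (gaOut c T) = (mv c).filter (fun v => ¬ v ∈ T) := by
    ext v
    simp only [mem_mv, mem_filter, gaOut]
    by_cases h : v ∈ T <;> simp [h]
  rw [h1, h2]
  exact Finset.card_filter_add_card_filter_not _

theorem ga_SS (E : Exps V) (L : ℕ) (c : V → V) (T : Set V) :
    SS E L (gaIn c T) + SS E L (gaOut c T) = SS E L c := by
  classical
  unfold SS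
  rw [← Finset.sum_add_distrib]
  refine Finset.sum_congr rfl fun v _ => ?_
  unfold gaIn gaOut
  by_cases h : v ∈ T
  · rw [if_pos h, if_pos h, sim_self, add_zero]
  · rw [if_neg h, if_neg h, sim_self, zero_add]

/-- add the pair `(y, z)` -/
def gaAdd (c : V → V) (y z : V) : V → V := fun v => if v = y then z else if v = z then y else c v

omit [Fintype V] in
theorem gaAdd_invol {c : V → V} {y z : V} (hc : ∀ v, c (c v) = v) (hy : c y = y) (hz : c z = z)
    (v : V) : gaAdd c y z (gaAdd c y z v) = v := by
  unfold gaAdd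
  by_cases h1 : v = y
  · subst h1
    by_cases h2 : z = v
    · simp [h2]
    · simp [h2]
  · by_cases h2 : v = z
    · subst h2
      simp [h1]
    · have h3 : c v ≠ y := fun h => h1 (by rw [← hc v, h, hy])
      have h4 : c v ≠ z := fun h => h2 (by rw [← hc v, h, hz])
      simp [h1, h2, h3, h4, hc]

theorem gaAdd_card (c : V → V) (y z : V) : (mv (gaAdd c y z)).card ≤ (mv c).card + 2 := by
  have h : mv (gaAdd c y z) ⊆ insert y (insert z (mv c)) := by
    intro v hv
    simp only [mem_mv, gaAdd] at hv
    simp only [mem_insert, mem_mv]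
    by_cases h1 : v = y
    · exact Or.inl h1
    · by_cases h2 : v = z
      · exact Or.inr (Or.inl h2)
      · rw [if_neg h1, if_neg h2] at hv
        exact Or.inr (Or.inr hv)
  refine (Finset.card_le_card h).trans ?_
  have h1 := Finset.card_insert_le y (insert z (mv c))
  have h2 := Finset.card_insert_le z (mv c)
  omega

theorem gaAdd_SS (E : Exps V) (L : ℕ) {c : V → V} {y z : V} (hyz : z ≠ y) (hy : c y = y)
    (hz : c z = z) : SS E L (gaAdd c y z) = SS E L c + 2 * sim E L y z := by
  unfold SS
  have h : ∀ v, sim E L v (gaAdd c y z v) = sim E L v (c v)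
      + ((if v = y then sim E L y z else 0) + (if v = z then sim E L y z else 0)) := by
    intro v
    unfold gaAdd
    by_cases h1 : v = y
    · subst h1
      rw [if_pos rfl, if_pos rfl, if_neg (fun h => hyz h.symm), hy, sim_self]
      omega
    · by_cases h2 : v = z
      · subst h2
        rw [if_neg h1, if_pos rfl, if_neg h1, if_pos rfl, hz, sim_self, sim_symm E L v y]
        omega
      · rw [if_neg h1, if_neg h2, if_neg h1, if_neg h2]
        omega
  rw [Finset.sum_congr rfl fun v _ => h v, Finset.sum_add_distrib, Finset.sum_add_distrib]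
  simp
  omega

/-- If `w` is not in the `⟨m, m'⟩`-orbit of `z`, then after the exchange on the orbit of `z` under
`m`, `m'` and the pairs, the product of the two `H`'s is small. -/
theorem good_a (E : Exps V) {L K j t : ℕ} {R : ℝ} (hR : RBd E R) (IH : ∀ j' < j, CK E L R K j')
    {W : Finset V} {y w z p : V} {c : V → V} (h : Loc E L K j t W y w z p c)
    {m m' : V → V} (hm : ∀ v, m (m v) = v) (hm' : ∀ v, m' (m' v) = v)
    (hh : holes m = {p, z}) (hh' : holes m' = insert w (insert y W))
    (hno : ¬ Orb m m' id z w) :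
    HH E (holes (glue m m' {v | Orb m m' (cut1 c p) z v})) *
      HH E (holes (glue m' m {v | Orb m m' (cut1 c p) z v})) * q2 ^ (SS E L c + 2 * t) ≤
      R ^ (W.card + 4 + (2 * K + 11) * (j ^ 2 - 1)) := by
  classical
  obtain ⟨hj, ht, hyW, hzW, hwW, hzy, hwy, hwz, hpz, hpw, hl, hs, cc, cW, cj, hK⟩ := h
  set ĉ : V → V := cut1 c p with hĉ
  set O : Set V := {v | Orb m m' ĉ z v} with hO
  have hĉi : ∀ v, ĉ (ĉ v) = v := cut1_invol cc p
  have hzO : z ∈ O := orb_refl _ _ _ _
  have hOm : ∀ v ∈ O, m v ∈ O := fun v hv => orb_closed_a hv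
  have hOm' : ∀ v ∈ O, m' v ∈ O := fun v hv => orb_closed_b hv
  have hOc : ∀ v ∈ O, ĉ v ∈ O := fun v hv => orb_closed_c hv
  have hĉmv : ∀ v, ĉ v ≠ v → c v ≠ v := by
    intro v hv h1
    apply hv
    show (if v = p ∨ v = c p then v else c v) = v
    split_ifs <;> [rfl; exact h1]
  have hmf : ∀ v, m v = v ↔ v = p ∨ v = z := by
    intro v
    have := Finset.ext_iff.1 hh v
    simpa using this
  have hmf' : ∀ v, m' v = v ↔ v = w ∨ v = y ∨ v ∈ W := by
    intro v
    have := Finset.ext_iff.1 hh' v
    simpa using this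
  set X1 := holes (glue m m' O) with hX1
  set X2 := holes (glue m' m O) with hX2
  have mX1 : ∀ v, v ∈ X1 ↔ (v ∉ O ∧ m v = v) ∨ (v ∈ O ∧ m' v = v) := by
    intro v
    rw [hX1, mem_holes_glue, mem_holes, mem_holes]
  have mX2 : ∀ v, v ∈ X2 ↔ (v ∉ O ∧ m' v = v) ∨ (v ∈ O ∧ m v = v) := by
    intro v
    rw [hX2, mem_holes_glue, mem_holes, mem_holes]
  have hcards : X1.card + X2.card = W.card + 4 := by
    rw [hX1, hX2, card_holes_glue, hh, hh', Finset.card_pair hpz,
      Finset.card_insert_of_notMem (by simp [hwy, hwW]), Finset.card_insert_of_notMem hyW]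
    ring
  have hR1 : 1 ≤ R := by linarith [hR.two]
  -- if `c` moves `p`, then `p` is not in the orbit
  have hpO : c p ≠ p → p ∉ O := by
    intro hcp hpO
    have h1 : p ∈ W := cW p hcp
    have h2 : m p = p := (hmf p).2 (Or.inl rfl)
    have h3 : m' p = p := (hmf' p).2 (Or.inr (Or.inr h1))
    have h4 : ĉ p = p := by
      show (if p = p ∨ p = c p then p else c p) = p
      rw [if_pos (Or.inl rfl)]
    have h5 : p ∈ ({v | v ≠ p} : Set V) :=
      orb_subset (a := m) (b := m') (c := ĉ) (z := z) (O := {v | v ≠ p})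
        (fun h => hpz h.symm)
        (fun v hv h => hv (by rw [← hm v, h, h2]))
        (fun v hv h => hv (by rw [← hm' v, h, h3]))
        (fun v hv h => hv (by rw [← hĉi v, h, h4])) hpO
    exact h5 rfl
  by_cases hwO : w ∈ O
  · -- `w` in the orbit
    have hbm : ∀ v, ĉ v ≠ v → m' v = v := fun v hv =>
      (hmf' v).2 (Or.inr (Or.inr (cW v (hĉmv v hv))))
    have hmz : m z = z := (hmf z).2 (Or.inr rfl)
    obtain ⟨e, he⟩ := dih m (m' ∘ ĉ) hm (merge_invol hm' hĉi hbm) z hmz
    have hbf : ∀ v ∈ O, (m v = v ∨ (m' v = v ∧ ĉ v = v)) → v = z ∨ v = e := by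
      intro v hv h1
      refine he v ((orb_merge hm' hĉi hbm z v).1 hv) ?_
      rcases h1 with h1 | h1
      · exact Or.inl h1
      · exact Or.inr ((merge_fixed hm' hĉi hbm v).2 h1)
    have hĉW : ∀ v, v ∉ W → ĉ v = v := by
      intro v hv
      by_contra h1
      exact hv (cW v (hĉmv v h1))
    have hew : w = e := by
      rcases hbf w hwO (Or.inr ⟨(hmf' w).2 (Or.inl rfl), hĉW w hwW⟩) with h1 | h1
      · exact absurd h1 hwz
      · exact h1
    have hfix : ∀ v ∈ O, (m v = v ∨ (m' v = v ∧ ĉ v = v)) → v = z ∨ v = w := by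
      intro v hv h1
      rw [hew]
      exact hbf v hv h1
    have hyO : y ∉ O := by
      intro h1
      rcases hfix y h1 (Or.inr ⟨(hmf' y).2 (Or.inr (Or.inl rfl)), hĉW y hyW⟩) with h2 | h2
      · exact hzy h2.symm
      · exact hwy h2.symm
    have hpO' : p ∉ O := by
      intro h1
      rcases hfix p h1 (Or.inl ((hmf p).2 (Or.inl rfl))) with h2 | h2
      · exact hpz h2
      · exact hpw h2
    have hcpO : c p ∉ O := by
      by_cases hcp : c p = p
      · rw [hcp]
        exact hpO'
      · intro h1
        have h2 : c p ∈ W := cW (c p) (by rw [cc]; exact fun h => hcp h.symm)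
        have h3 : ĉ (c p) = c p := by
          show (if c p = p ∨ c p = c p then c p else c (c p)) = c p
          rw [if_pos (Or.inr rfl)]
        rcases hfix (c p) h1 (Or.inr ⟨(hmf' _).2 (Or.inr (Or.inr h2)), h3⟩) with h4 | h4
        · exact hzW (h4 ▸ h2)
        · exact hwW (h4 ▸ h2)
    have hĉO : ∀ v ∈ O, ĉ v = c v := by
      intro v hv
      show (if v = p ∨ v = c p then v else c v) = c v
      rw [if_neg]
      rintro (h1 | h1)
      · exact hpO' (h1 ▸ hv)
      · exact hcpO (h1 ▸ hv)
    have hcO : ∀ v ∈ O, c v ∈ O := fun v hv => by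
      rw [← hĉO v hv]
      exact hOc v hv
    have hcz : c z = z := by
      by_contra h1
      exact hzW (cW z h1)
    have hcy : c y = y := by
      by_contra h1
      exact hyW (cW y h1)
    have hoy : gaOut c O y = y := by
      unfold gaOut
      rw [if_neg hyO, hcy]
    have hoz : gaOut c O z = z := by
      unfold gaOut
      rw [if_pos hzO]
    set c1 := gaIn c O with hc1
    set c2 := gaAdd (gaOut c O) y z with hc2
    have hX1mem : p ∈ X1 ∧ w ∈ X1 := by
      constructor
      · rw [mX1]; exact Or.inl ⟨hpO', (hmf p).2 (Or.inl rfl)⟩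
      · rw [mX1]; exact Or.inr ⟨hwO, (hmf' w).2 (Or.inl rfl)⟩
    have hX2mem : y ∈ X2 ∧ z ∈ X2 := by
      constructor
      · rw [mX2]; exact Or.inl ⟨hyO, (hmf' y).2 (Or.inr (Or.inl rfl))⟩
      · rw [mX2]; exact Or.inr ⟨hzO, (hmf z).2 (Or.inr rfl)⟩
    have hc1' : 2 ≤ X1.card := by
      rw [← Finset.card_pair hpw]
      exact Finset.card_le_card (by
        intro v hv
        rcases Finset.mem_insert.1 hv with h1 | h1
        · rw [h1]; exact hX1mem.1
        · rw [Finset.mem_singleton.1 h1]; exact hX1mem.2)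
    have hc2' : 2 ≤ X2.card := by
      rw [← Finset.card_pair hzy]
      exact Finset.card_le_card (by
        intro v hv
        rcases Finset.mem_insert.1 hv with h1 | h1
        · rw [h1]; exact hX2mem.2
        · rw [Finset.mem_singleton.1 h1]; exact hX2mem.1)
    have key := CK_prod' E L hR K j IH (U₁ := X1) (U₂ := X2) (by omega) (by omega) c1 c2
      (gaIn_invol cc hcO) (gaAdd_invol (gaOut_invol cc hcO) hoy hoz)
      (by
        intro v hv
        have hvO : v ∈ O := by
          by_contra h1
          exact hv (gaIn_not c h1)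
        have hv' : c v ≠ v := by
          intro h1
          exact hv ((gaIn_mem c hvO).trans h1)
        rw [mX1]
        exact Or.inr ⟨hvO, (hmf' v).2 (Or.inr (Or.inr (cW v hv')))⟩)
      (by
        intro v hv
        by_cases h1 : v = y
        · rw [h1]; exact hX2mem.1
        · by_cases h2 : v = z
          · rw [h2]; exact hX2mem.2
          · have h3 : c2 v = gaOut c O v := by
              show (if v = y then z else if v = z then y else gaOut c O v) = _
              rw [if_neg h1, if_neg h2]
            rw [h3] at hv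
            have hvO : v ∉ O := by
              intro h4
              exact hv (gaOut_mem c h4)
            have hv' : c v ≠ v := by
              intro h4
              exact hv ((gaOut_not c hvO).trans h4)
            rw [mX2]
            exact Or.inl ⟨hvO, (hmf' v).2 (Or.inr (Or.inr (cW v hv')))⟩)
      (by
        have h1 := gaAdd_card (gaOut c O) y z
        have h2 := ga_card c O
        rw [hc1, hc2]
        omega)
      (by
        by_contra h1
        rw [Finset.not_nonempty_iff_eq_empty] at h1
        have h2 : ∀ v ∈ O, ĉ v = v := by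
          intro v hv
          have h3 : v ∉ mv c1 := by rw [h1]; simp
          rw [mem_mv, not_not] at h3
          rw [hĉO v hv]
          have h4 : c1 v = c v := gaIn_mem c hv
          rw [← h4, h3]
        have h3 : w ∈ ({v | Orb m m' id z v ∧ v ∈ O} : Set V) :=
          orb_subset (a := m) (b := m') (c := ĉ) (z := z) (O := {v | Orb m m' id z v ∧ v ∈ O})
            ⟨orb_refl _ _ _ _, hzO⟩
            (fun v hv => ⟨orb_closed_a hv.1, hOm v hv.2⟩)
            (fun v hv => ⟨orb_closed_b hv.1, hOm' v hv.2⟩)
            (fun v hv => by rw [h2 v hv.2]; exact hv) hwO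
        exact hno h3.1)
      ⟨y, by
        rw [mem_mv]
        show (if y = y then z else if y = z then y else gaOut c O y) ≠ y
        rw [if_pos rfl]
        exact hzy⟩
    have hSS : SS E L c + 2 * t ≤ SS E L c1 + SS E L c2 := by
      have h1 := gaAdd_SS E L hzy hoy hoz
      have h2 := ga_SS E L c O
      rw [hc2, h1, hc1]
      omega
    have hH : 0 ≤ HH E X1 * HH E X2 := mul_nonneg (HH_nonneg E _) (HH_nonneg E _)
    calc HH E X1 * HH E X2 * q2 ^ (SS E L c + 2 * t)
        ≤ HH E X1 * HH E X2 * q2 ^ (SS E L c1 + SS E L c2) :=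
          mul_le_mul_of_nonneg_left (pow_le_pow_right₀ one_le_q2 hSS) hH
      _ ≤ R ^ (X1.card + X2.card + (2 * K + 11) * (j ^ 2 - 1)) := key
      _ = R ^ (W.card + 4 + (2 * K + 11) * (j ^ 2 - 1)) := by rw [hcards]
  · -- `w` outside the orbit
    have hzX2 : z ∈ X2 := by
      rw [mX2]; exact Or.inr ⟨hzO, (hmf z).2 (Or.inr rfl)⟩
    have hwX2 : w ∈ X2 := by
      rw [mX2]; exact Or.inl ⟨hwO, (hmf' w).2 (Or.inl rfl)⟩
    set U := (X2.erase z).erase w with hU
    have hwz2 : w ∈ X2.erase z := Finset.mem_erase.2 ⟨hwz, hwX2⟩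
    have hUc : U.card + 2 = X2.card := by
      rw [hU, Finset.card_erase_of_mem hwz2, Finset.card_erase_of_mem hzX2]
      have h1 : 2 ≤ X2.card := by
        rw [← Finset.card_pair hwz]
        exact Finset.card_le_card (by
          intro v hv
          rcases Finset.mem_insert.1 hv with h1 | h1
          · rw [h1]; exact hwX2
          · rw [Finset.mem_singleton.1 h1]; exact hzX2)
      omega
    have hX2U : X2 = insert w (insert z U) := by
      ext v
      simp only [hU, mem_insert, mem_erase]
      constructor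
      · intro hv
        by_cases h1 : v = w
        · exact Or.inl h1
        · by_cases h2 : v = z
          · exact Or.inr (Or.inl h2)
          · exact Or.inr (Or.inr ⟨h1, h2, hv⟩)
      · rintro (h1 | h1 | h1)
        · rw [h1]; exact hwX2
        · rw [h1]; exact hzX2
        · exact h1.2.2
    have hedge := HH_add_edge' E (U := U) (u := w) (v := z) hwz (by simp [hU]) (by simp [hU]) hl
    rw [← hX2U] at hedge
    -- the invariant set
    set T : Set V := {v | v ∈ O ∨ (v = p ∧ c p ∈ O)} with hT
    have hTc : ∀ v ∈ T, c v ∈ T := by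
      intro v hv
      by_cases h1 : v = p
      · rcases hv with hv | hv
        · by_cases hcp : c p = p
          · left
            rw [h1, hcp, ← h1]
            exact hv
          · exact absurd (h1 ▸ hv) (hpO hcp)
        · left
          rw [h1]
          exact hv.2
      · have hvO : v ∈ O := by
          rcases hv with hv | hv
          · exact hv
          · exact absurd hv.1 h1
        by_cases h2 : v = c p
        · right
          exact ⟨by rw [h2, cc], h2 ▸ hvO⟩
        · left
          have h3 : ĉ v = c v := by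
            show (if v = p ∨ v = c p then v else c v) = c v
            rw [if_neg (by tauto)]
          rw [← h3]
          exact hOc v hvO
    set c1 := gaIn c T with hc1
    set c2 := gaOut c T with hc2
    have key := CK_prod E L hR K j hj IH (U₁ := X1) (U₂ := U) (by omega) (by omega) c1 c2
      (gaIn_invol cc hTc) (gaOut_invol cc hTc)
      (by
        intro v hv
        have hvT : v ∈ T := by
          by_contra h1
          exact hv (gaIn_not c h1)
        have hv' : c v ≠ v := by
          intro h1
          exact hv ((gaIn_mem c hvT).trans h1)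
        rw [mX1]
        rcases hvT with h1 | h1
        · exact Or.inr ⟨h1, (hmf' v).2 (Or.inr (Or.inr (cW v hv')))⟩
        · left
          rw [h1.1] at hv' ⊢
          exact ⟨hpO hv', (hmf p).2 (Or.inl rfl)⟩)
      (by
        intro v hv
        have hvT : v ∉ T := by
          intro h4
          exact hv (gaOut_mem c h4)
        have hv' : c v ≠ v := by
          intro h4
          exact hv ((gaOut_not c hvT).trans h4)
        have hvW := cW v hv'
        rw [hU, mem_erase, mem_erase, mX2]
        refine ⟨fun h1 => hwW (h1 ▸ hvW), fun h1 => hzW (h1 ▸ hvW), Or.inl ⟨fun h1 => ?_, ?_⟩⟩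
        · exact hvT (Or.inl h1)
        · exact (hmf' v).2 (Or.inr (Or.inr hvW)))
      (by
        have h2 := ga_card c T
        rw [hc1, hc2]
        omega)
    have hSS := ga_SS E L c T
    rw [hc1, hc2, hSS] at key
    have hq : (0 : ℝ) ≤ q2 ^ SS E L c := pow_nonneg q2_pos.le _
    have hexp : X1.card + U.card + (2 * K + 11) * (j - 1) ^ 2
        ≤ W.card + 4 + (2 * K + 11) * (j ^ 2 - 1) := by
      have h1 : (j - 1) ^ 2 ≤ j ^ 2 - 1 := by
        obtain ⟨i, rfl⟩ : ∃ i, j = i + 1 := ⟨j - 1, by omega⟩
        have h2 : (i + 1) ^ 2 = i ^ 2 + 2 * i + 1 := by ring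
        rw [h2]
        simp
      have h3 := Nat.mul_le_mul_left (2 * K + 11) h1
      omega
    calc HH E X1 * HH E X2 * q2 ^ (SS E L c + 2 * t)
        = HH E X1 * (HH E X2 * q2 ^ (2 * t)) * q2 ^ SS E L c := by rw [pow_add]; ring
      _ ≤ HH E X1 * HH E U * q2 ^ SS E L c :=
          mul_le_mul_of_nonneg_right (mul_le_mul_of_nonneg_left hedge (HH_nonneg E _)) hq
      _ ≤ R ^ (X1.card + U.card + (2 * K + 11) * (j - 1) ^ 2) := key
      _ ≤ R ^ (W.card + 4 + (2 * K + 11) * (j ^ 2 - 1)) := pow_le_pow_right₀ hR1 hexp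

end Vale.Agent.P308Q
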