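import Vale.Agent.P308Q.Pass

/-!
# The invariant of the algorithm
-/

namespace Vale.Agent.P308Q

open Finset Vale.Agent.P328R Vale.Agent.P317R Vale.Agent.P328RAM
open scoped ENNReal

variable {n : ℕ}

/-- what is assumed on the parameters; `θ`: relative error of one ratio, `τ`: error of the
frequencies -/
structure NumOK (p : Par) (n a b : ℕ) (θ τ : ℝ) : Prop where
  hBn : n + 2 ≤ 2 ^ p.Bn
  hH : p.H = 2 * KK (n + 2)
  hη : etaP p n ≤ 1 / 2
  hθ0 : 0 < θ
  hθ1 : θ ≤ 1 / 2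
  hτ0 : 0 < τ
  hτθ : τ ≤ θ / (20 * (1 + 8 * n))
  hε : p.R * epsP p n ≤ τ / 2
  hup : (1 + θ) ^ (p.L * (n * n)) ≤ 1 + 1 / (4 * a)
  hdn : 1 - 1 / (4 * a) ≤ (1 - θ) ^ (p.L * (n * n))
  hL : ((n : ℝ) + 1) ^ (n + 1) * (2 : ℝ)⁻¹ ^ p.L ≤ 1 / (16 * a)
  hR : (p.L : ℝ) * n ^ 2 + 12 * (4 * n + 2 * n * (p.L * n ^ 2) + n ^ 2 * p.L + n ^ 3) < p.R
  hB : 2 * p.R ≤ p.B
  hS : 0 < p.S
  hSb : p.R * (2 * (n + 3) * Real.exp (-(p.S * (τ / 2) ^ 2 / 4))) ≤ 1 / b

/-- **The invariant.** -/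
structure Inv (p : Par) (G : SimpleGraph (Fin n)) (θ : ℝ) (i : ℕ) (x : Al n) : Prop where
  i1 : x.q ≤ p.L * (n * n)
  i2 : x.a = aSeq p.L G x.q
  i3 : 0 < x.den
  i4 : (1 - θ) ^ x.q * (ZG n x.a / ZG n (a0 p.L)) ≤ (x.num : ℝ) / x.den ∧
    (x.num : ℝ) / x.den ≤ (1 + θ) ^ x.q * (ZG n x.a / ZG n (a0 p.L))
  i5 : x.q = p.L * (n * n) ∨ (Hist p x.hist i ∧ x.hist i = scl n x.a x.y ∧
    (∀ u, |x.y u| ≤ i) ∧ (∀ u, 1 / 8 ≤ rw' (scl n x.a x.y) u ∧ rw' (scl n x.a x.y) u ≤ 8) ∧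
    Psi n x.a x.y ≤ 4 * n + 2 * n * x.q - 9 / 100 * ((i : ℝ) - x.q))

private theorem iv_hL {p : Par} {a b : ℕ} {θ τ : ℝ} (ha : 1 ≤ a) (h : NumOK p n a b θ τ) :
    (n : ℝ) ^ (n + 1) * (2 : ℝ)⁻¹ ^ p.L ≤ 1 / 2 ∧
      (n : ℝ) ^ n * (2 : ℝ)⁻¹ ^ p.L ≤ 1 / (16 * a) := by
  have hL := h.hL
  have ha' : (1 : ℝ) ≤ a := by exact_mod_cast ha
  have h2 : (0 : ℝ) < (2 : ℝ)⁻¹ ^ p.L := by positivity
  have hn : (0 : ℝ) ≤ n := by positivity
  have h3 : (n : ℝ) ^ (n + 1) ≤ ((n : ℝ) + 1) ^ (n + 1) :=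
    pow_le_pow_left₀ hn (by linarith) _
  have h4 : (n : ℝ) ^ n ≤ ((n : ℝ) + 1) ^ (n + 1) := by
    calc (n : ℝ) ^ n ≤ ((n : ℝ) + 1) ^ n := pow_le_pow_left₀ hn (by linarith) _
      _ ≤ ((n : ℝ) + 1) ^ (n + 1) := pow_le_pow_right₀ (by linarith) (by omega)
  have h5 : (1 : ℝ) / (16 * a) ≤ 1 / 2 := by
    refine one_div_le_one_div_of_le (by norm_num) ?_
    linarith
  exact ⟨(mul_le_mul_of_nonneg_right h3 h2.le).trans (hL.trans h5),
    (mul_le_mul_of_nonneg_right h4 h2.le).trans hL⟩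

/-- the start -/
theorem inv_init (hn : Even n) {p : Par} {a b : ℕ} {θ τ : ℝ} (ha : 1 ≤ a)
    (h : NumOK p n a b θ τ) (G : SimpleGraph (Fin n)) : Inv p G θ 0 (init n p.L) := by
  obtain ⟨hL1, hL2⟩ := iv_hL ha h
  have hZ := (ZG_a0 hn p.L).1
  have hS : IsScl (scl n (a0 p.L) fun _ => 0) := isScl_scl (sym_a0 p.L) _
  have hr : ∀ u, 1 / 8 ≤ rw' (scl n (a0 p.L) fun _ => 0) u ∧
      rw' (scl n (a0 p.L) fun _ => 0) u ≤ 8 := by
    intro u
    obtain ⟨h1, h2⟩ := rows_a0 hn p.L hL1 u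
    exact ⟨by linarith, by linarith⟩
  refine ⟨Nat.zero_le _, rfl, one_pos, ?_, Or.inr ⟨⟨?_, ?_, ?_, ?_⟩, rfl, ?_, hr, ?_⟩⟩
  · have e1 : ZG n (init n p.L).a / ZG n (a0 p.L) = 1 := div_self (by positivity)
    rw [e1]
    simp [init]
  · intro j _
    exact ⟨hS.1, rbd_of_rows _ hS hn hr⟩
  · intro j _ u v
    show scl n (a0 p.L) (fun _ => 0) u v ≤ (p.B : ℤ)
    have hB : (0 : ℤ) ≤ p.B := by positivity
    unfold scl a0
    split_ifs
    · simp
    · have : (0 : ℤ) ≤ p.L := by positivity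
      linarith
    · exact hB
  · exact dens_M0 hn p.L hL1
  · intro j hj
    exact absurd hj (Nat.not_lt_zero _)
  · intro u
    simp [init]
  · have h1 : ∑ u : Fin n, rw' (scl n (a0 p.L) fun _ => 0) u ≤ ∑ u : Fin n, (2 : ℝ) :=
      sum_le_sum fun u _ => (rows_a0 hn p.L hL1 u).2
    rw [sum_const, card_univ, Fintype.card_fin, nsmul_eq_mul] at h1
    have hn0 : (0 : ℝ) ≤ n := by positivity
    have h2 : Psi n (init n p.L).a (init n p.L).y =
        (1 / 2) * ∑ u : Fin n, rw' (scl n (a0 p.L) fun _ => 0) u := by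
      unfold Psi init
      simp
    rw [h2]
    have h3 : ((init n p.L).q : ℝ) = 0 := by simp [init]
    rw [h3]
    push_cast
    linarith

/-- one more entry of the history -/
private theorem invs_hist {p : Par} {hist : ℕ → Ext n} {i : ℕ} (hH : Hist p hist i) {b' : Ext n}
    (hok : ∃ h : IsExt b', RBd (toE b' h) (64 * (n + 1))) (hbd : ∀ u v, b' u v ≤ p.B)
    (hd : ∀ M : Stt n, (piP (hist i) M).toReal ≤ 16 * (piP b' M).toReal) :
    Hist p (Function.update hist (i + 1) b') (i + 1) := by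
  refine ⟨?_, ?_, ?_, ?_⟩
  · intro j hj
    rcases Nat.lt_or_ge j (i + 1) with h | h
    · rw [Function.update_of_ne (by omega)]
      exact hH.ok j (by omega)
    · have hj' : j = i + 1 := by omega
      subst hj'
      rw [Function.update_self]
      exact hok
  · intro j hj u v
    rcases Nat.lt_or_ge j (i + 1) with h | h
    · rw [Function.update_of_ne (by omega)]
      exact hH.bd j (by omega) u v
    · have hj' : j = i + 1 := by omega
      subst hj'
      rw [Function.update_self]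
      exact hbd u v
  · intro M
    rw [Function.update_of_ne (by omega)]
    exact hH.start M
  · intro j hj M
    rcases Nat.lt_or_ge j i with h | h
    · rw [Function.update_of_ne (by omega), Function.update_of_ne (by omega)]
      exact hH.dens j h M
    · have hj' : j = i := by omega
      subst hj'
      rw [Function.update_of_ne (by omega), Function.update_self]
      exact hd M

/-- bound of the scaled exponents -/
private theorem invs_bd {p : Par} {R : ℕ} (hB : 2 * R ≤ p.B) {a : ℕ → ℕ → ℤ} {y : ℕ → ℤ}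
    (ha : ∀ u v, a u v ≤ 0) (hy : ∀ u, |y u| ≤ R) (u v : Fin (n + 2)) :
    scl n a y u v ≤ p.B := by
  have h1 := ha u v
  have h2 := (abs_le.1 (hy u)).2
  have h3 := (abs_le.1 (hy v)).2
  have h4 : (2 * (R : ℤ)) ≤ p.B := by exact_mod_cast hB
  unfold scl
  split_ifs
  · linarith
  · positivity

private theorem invs_dy (c : Cnt n) (u : ℕ) : |dy c u| ≤ 1 := by
  unfold dy
  split_ifs <;> simp

private theorem invs_ZG_pos (hn : Even n) (a : ℕ → ℕ → ℤ) : 0 < ZG n a := by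
  unfold ZG
  refine NB_pos _ _ hn ?_
  have hne : vα n ≠ vβ n := by
    intro h
    have := congrArg Fin.val h
    simp [vα, vβ] at this
  rw [Finset.card_pair hne]
  exact ⟨1, rfl⟩

/-- the update of the estimate -/
private theorem invs_est {θ : ℝ} (hθ0 : 0 < θ) (hθ1 : θ ≤ 1 / 2) {q : ℕ} {Z Z' Z0 ρ N D r : ℝ}
    (hZ : 0 < Z) (hZ' : 0 < Z') (hZ0 : 0 < Z0) (hρ : Z' = Z * ρ)
    (h1 : (1 - θ) ^ q * (Z / Z0) ≤ N / D) (h2 : N / D ≤ (1 + θ) ^ q * (Z / Z0))
    (h3 : (1 - θ) * ρ ≤ r) (h4 : r ≤ (1 + θ) * ρ) :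
    (1 - θ) ^ (q + 1) * (Z' / Z0) ≤ N / D * r ∧ N / D * r ≤ (1 + θ) ^ (q + 1) * (Z' / Z0) := by
  have hρ0 : 0 < ρ := by
    rw [hρ] at hZ'
    exact (pos_iff_pos_of_mul_pos hZ').1 hZ
  have hm : 0 < 1 - θ := by linarith
  have hr : 0 ≤ r := le_trans (by positivity) h3
  have hN : 0 ≤ N / D := le_trans (by positivity) h1
  constructor
  · calc (1 - θ) ^ (q + 1) * (Z' / Z0) = ((1 - θ) ^ q * (Z / Z0)) * ((1 - θ) * ρ) := by
          rw [hρ]; ring
      _ ≤ N / D * r := mul_le_mul h1 h3 (by positivity) hN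
  · calc N / D * r ≤ ((1 + θ) ^ q * (Z / Z0)) * ((1 + θ) * ρ) :=
          mul_le_mul h2 h4 hr (by positivity)
      _ = (1 + θ) ^ (q + 1) * (Z' / Z0) := by rw [hρ]; ring

private theorem invs_addE_zero (a : ℕ → ℕ → ℤ) (e : ℕ × ℕ) : addE a e 0 = a := by
  funext u v
  simp [addE]

private theorem invs_dlt (L : ℕ) (G : SimpleGraph (Fin n)) (a : ℕ → ℕ → ℤ) (e : ℕ × ℕ) :
    dlt L G a e = 0 ∨ (e.1 < e.2 ∧ (dlt L G a e = 1 ∨ dlt L G a e = -1)) := by
  unfold dlt
  split_ifs with h1 h2 h3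
  · exact Or.inr ⟨h1, Or.inl rfl⟩
  · exact Or.inr ⟨h1, Or.inr rfl⟩
  · exact Or.inl rfl
  · exact Or.inl rfl

private theorem invs_opE {L q : ℕ} (h : ¬ L * (n * n) ≤ q) :
    (opE n q).1 < n ∧ (opE n q).2 < n := by
  have hn : 0 < n := by
    rcases Nat.eq_zero_or_pos n with h0 | h0
    · subst h0
      simp at h
    · exact h0
  have h1 : q % (n * n) < n * n := Nat.mod_lt _ (Nat.mul_pos hn hn)
  unfold opE
  exact ⟨Nat.div_lt_of_lt_mul h1, Nat.mod_lt _ hn⟩

/-- `inv_step`, update of the vertex exponents -/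
private theorem invs_y (hn : Even n) {p : Par} {a b : ℕ} {θ τ : ℝ}
    (h : NumOK p n a b θ τ) (G : SimpleGraph (Fin n)) {i : ℕ} (hi : i < p.R) {x : Al n}
    (hx : Inv p G θ i x) (hq : ¬ p.L * (n * n) ≤ x.q) {c : Cnt n}
    (hc : ∀ o, |(c o : ℝ) / p.S - prT (x.hist i) (opE n x.q) o| ≤ τ)
    (hδ : ∃ u < n, dy c u ≠ 0) :
    Inv p G θ (i + 1) (updA p G i x c) := by
  have hsym : Sym x.a := by rw [hx.i2]; exact aSeq_sym _ _ _
  have hscl := isScl_scl (n := n) hsym x.y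
  have ha0 : ∀ u v, x.a u v ≤ 0 := by rw [hx.i2]; exact fun u v => (aSeq_range _ _ _ u v).2
  obtain hbad | ⟨hH, hhist, hy, hrow, hPsi⟩ := hx.i5
  · exact absurd hbad.ge hq
  have hτ : τ ≤ 1 / (20 * (1 + 8 * n)) := by
    refine h.hτθ.trans ?_
    have := h.hθ1
    gcongr
    linarith
  rw [hhist] at hc
  have hdy := dy_right (scl n x.a x.y) hscl hn (fun u => (hrow u).2) (opE n x.q) h.hS hτ hc
  have hR1 : ∀ u, |x.y u + dy c u| ≤ ((i + 1 : ℕ) : ℤ) := by
    intro u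
    have h1 := hy u
    have h2 := invs_dy c u
    have h3 := abs_add_le (x.y u) (dy c u)
    push_cast
    linarith
  have hrow' := rows_update hn hsym x.y (dy c) hrow hdy
  have hupd : updA p G i x c = { x with
      y := fun u => x.y u + dy c u
      hist := Function.update x.hist (i + 1) (scl n x.a (fun u => x.y u + dy c u)) } := by
    unfold updA
    rw [if_neg hq, if_pos hδ]
  rw [hupd]
  refine ⟨hx.i1, hx.i2, hx.i3, hx.i4, Or.inr ⟨?_, ?_, ?_, ?_, ?_⟩⟩
  · refine invs_hist hH ?_ ?_ ?_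
    · exact ⟨(isScl_scl (n := n) hsym _).1, rbd_of_rows _ (isScl_scl (n := n) hsym _) hn hrow'⟩
    · refine invs_bd (R := p.R) h.hB ha0 fun u => (hR1 u).trans ?_
      exact_mod_cast hi
    · intro M
      rw [hhist]
      exact dens_update hn hsym x.y (dy c) (invs_dy c) M
  · exact Function.update_self _ _ _
  · exact hR1
  · exact hrow'
  · have h1 := psi_drop hn hsym x.y (dy c) (fun u => ?_) ?_
    · show Psi n x.a (fun u => x.y u + dy c u) ≤ _
      push_cast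
      linarith
    · rcases hdy u with hu | hu | hu
      · exact Or.inl hu.1
      · exact Or.inr (Or.inl hu)
      · exact Or.inr (Or.inr hu)
    · obtain ⟨u, hu, hu'⟩ := hδ
      exact ⟨⟨u, hu⟩, hu'⟩

/-- the estimate after an operation -/
private theorem invs_i4 (hn : Even n) {p : Par} {a b : ℕ} {θ τ : ℝ}
    (h : NumOK p n a b θ τ) (G : SimpleGraph (Fin n)) {i : ℕ} {x : Al n}
    (hx : Inv p G θ i x) (hq : ¬ p.L * (n * n) ≤ x.q)
    (hrow : ∀ u, rw' (scl n x.a x.y) u ≤ 8) {c : Cnt n}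
    (hc : ∀ o, |(c o : ℝ) / p.S - prT (scl n x.a x.y) (opE n x.q) o| ≤ τ) {num' den' : ℕ}
    (hnum : num' = x.num *
        (if dlt p.L G x.a (opE n x.q) = 1 then 2 * (c (some (vβ n)) + c none)
         else if dlt p.L G x.a (opE n x.q) = -1 then 2 * c (some (vβ n)) - c none
         else 1))
    (hden : den' = x.den * (if dlt p.L G x.a (opE n x.q) = 0 then 1 else 2 * c (some (vβ n)))) :
    0 < den' ∧
    (1 - θ) ^ (x.q + 1) *
      (ZG n (addE x.a (opE n x.q) (dlt p.L G x.a (opE n x.q))) / ZG n (a0 p.L)) ≤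
        (num' : ℝ) / den' ∧
    (num' : ℝ) / den' ≤ (1 + θ) ^ (x.q + 1) *
      (ZG n (addE x.a (opE n x.q) (dlt p.L G x.a (opE n x.q))) / ZG n (a0 p.L)) := by
  have hsym : Sym x.a := by rw [hx.i2]; exact aSeq_sym _ _ _
  have hscl := isScl_scl (n := n) hsym x.y
  have hZ := invs_ZG_pos hn x.a
  have hZ0 := invs_ZG_pos hn (a0 p.L)
  obtain ⟨h41, h42⟩ := hx.i4
  have hθ0 := h.hθ0
  have hθ1 := h.hθ1
  obtain ⟨he1, he2⟩ := invs_opE hq
  have hcast : ∀ A B C D : ℕ, ((A * C : ℕ) : ℝ) / ((B * D : ℕ) : ℝ) = (A : ℝ) / B * ((C : ℝ) / D) := by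
    intro A B C D
    push_cast
    rw [div_mul_div_comm]
  rcases invs_dlt p.L G x.a (opE n x.q) with hd | ⟨hlt, hd | hd⟩
  · rw [hd] at hnum hden ⊢
    rw [if_neg (by norm_num), if_neg (by norm_num), mul_one] at hnum
    rw [if_pos rfl, mul_one] at hden
    subst hnum hden
    rw [invs_addE_zero]
    refine ⟨hx.i3, ?_⟩
    have := invs_est hθ0 hθ1 (r := 1) hZ hZ hZ0 (mul_one _).symm h41 h42 (by linarith) (by linarith)
    rwa [mul_one] at this
  · rw [hd] at hnum hden ⊢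
    rw [if_pos rfl] at hnum
    rw [if_neg (by norm_num)] at hden
    have hes := est_up (scl n x.a x.y) hscl hn hrow ⟨(opE n x.q).1, he1⟩ ⟨(opE n x.q).2, he2⟩ h.hS
      (by linarith) h.hτθ hc rfl
    obtain ⟨hp, hlo, hup⟩ := hes
    have hratio := ratio_up hn x.a hsym x.y (u := ⟨(opE n x.q).1, he1⟩)
      (v := ⟨(opE n x.q).2, he2⟩) hlt
    have := invs_est hθ0 hθ1 hZ (invs_ZG_pos hn _) hZ0 hratio h41 h42 hlo hup
    rw [← hcast] at this
    subst hnum hden
    refine ⟨Nat.mul_pos hx.i3 (by omega), this⟩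
  · rw [hd] at hnum hden ⊢
    rw [if_neg (by norm_num), if_pos rfl] at hnum
    rw [if_neg (by norm_num)] at hden
    have hes := est_down (scl n x.a x.y) hscl hn hrow ⟨(opE n x.q).1, he1⟩ ⟨(opE n x.q).2, he2⟩ h.hS
      (by linarith) h.hτθ hc rfl
    obtain ⟨hp, hlo, hup⟩ := hes
    have hratio := ratio_down hn x.a hsym x.y (u := ⟨(opE n x.q).1, he1⟩)
      (v := ⟨(opE n x.q).2, he2⟩) hlt
    have := invs_est hθ0 hθ1 hZ (invs_ZG_pos hn _) hZ0 hratio h41 h42 hlo hup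
    rw [← hcast] at this
    subst hnum hden
    refine ⟨Nat.mul_pos hx.i3 (by omega), this⟩

/-- `inv_step`, operation -/
private theorem invs_op (hn : Even n) {p : Par} {a b : ℕ} {θ τ : ℝ}
    (h : NumOK p n a b θ τ) (G : SimpleGraph (Fin n)) {i : ℕ} (hi : i < p.R) {x : Al n}
    (hx : Inv p G θ i x) (hq : ¬ p.L * (n * n) ≤ x.q) {c : Cnt n}
    (hc : ∀ o, |(c o : ℝ) / p.S - prT (x.hist i) (opE n x.q) o| ≤ τ)
    (hδ : ¬ ∃ u < n, dy c u ≠ 0) :
    Inv p G θ (i + 1) (updA p G i x c) := by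
  have hsym : Sym x.a := by rw [hx.i2]; exact aSeq_sym _ _ _
  have hscl := isScl_scl (n := n) hsym x.y
  obtain hbad | ⟨hH, hhist, hy, hrow, hPsi⟩ := hx.i5
  · exact absurd hbad.ge hq
  have hτ : τ ≤ 1 / (20 * (1 + 8 * n)) := by
    refine h.hτθ.trans ?_
    have := h.hθ1
    gcongr
    linarith
  rw [hhist] at hc
  have hdy := dy_right (scl n x.a x.y) hscl hn (fun u => (hrow u).2) (opE n x.q) h.hS hτ hc
  have hrow4 : ∀ u, 1 / 4 ≤ rw' (scl n x.a x.y) u ∧ rw' (scl n x.a x.y) u ≤ 4 := by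
    intro u
    have h0 : dy c u = 0 := by
      by_contra hne
      exact hδ ⟨u, u.2, hne⟩
    rcases hdy u with hu | hu | hu
    · exact hu.2
    · rw [h0] at hu
      exact absurd hu.1 (by norm_num)
    · rw [h0] at hu
      exact absurd hu.1 (by norm_num)
  have hupd : updA p G i x c = {
      hist := Function.update x.hist (i + 1)
        (scl n (addE x.a (opE n x.q) (dlt p.L G x.a (opE n x.q))) x.y)
      a := addE x.a (opE n x.q) (dlt p.L G x.a (opE n x.q))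
      y := x.y
      q := x.q + 1
      num := x.num *
        (if dlt p.L G x.a (opE n x.q) = 1 then 2 * (c (some (vβ n)) + c none)
         else if dlt p.L G x.a (opE n x.q) = -1 then 2 * c (some (vβ n)) - c none
         else 1)
      den := x.den * (if dlt p.L G x.a (opE n x.q) = 0 then 1 else 2 * c (some (vβ n))) } := by
    unfold updA
    rw [if_neg hq, if_neg hδ]
  rw [hupd]
  obtain ⟨hden, hi4⟩ := invs_i4 hn h G hx hq (fun u => (hrow u).2) hc rfl rfl
  have ha' : addE x.a (opE n x.q) (dlt p.L G x.a (opE n x.q)) = aSeq p.L G (x.q + 1) := by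
    rw [hx.i2]
    rfl
  have hrow' : ∀ u, 1 / 8 ≤ rw' (scl n (addE x.a (opE n x.q) (dlt p.L G x.a (opE n x.q))) x.y) u ∧
      rw' (scl n (addE x.a (opE n x.q) (dlt p.L G x.a (opE n x.q))) x.y) u ≤ 8 := by
    rcases invs_dlt p.L G x.a (opE n x.q) with hd | ⟨hlt, hd⟩
    · rw [hd, invs_addE_zero]
      exact hrow
    · refine rows_op hn hsym x.y _ hlt ?_ hrow4
      rcases hd with hd | hd <;> rw [hd] <;> norm_num
  have hsym' : Sym (addE x.a (opE n x.q) (dlt p.L G x.a (opE n x.q))) := by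
    rw [ha']
    exact aSeq_sym _ _ _
  refine ⟨?_, ha', hden, hi4, Or.inr ⟨?_, ?_, ?_, ?_, ?_⟩⟩
  · show x.q + 1 ≤ _
    omega
  · refine invs_hist hH ?_ ?_ ?_
    · exact ⟨(isScl_scl (n := n) hsym' _).1, rbd_of_rows _ (isScl_scl (n := n) hsym' _) hn hrow'⟩
    · refine invs_bd (R := p.R) h.hB ?_ fun u => (hy u).trans ?_
      · rw [ha']
        exact fun u v => (aSeq_range _ _ _ u v).2
      · exact_mod_cast hi.le
    · intro M
      rw [hhist]
      rcases invs_dlt p.L G x.a (opE n x.q) with hd | ⟨hlt, hd⟩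
      · rw [hd, invs_addE_zero]
        have : (0 : ℝ) ≤ (piP (scl n x.a x.y) M).toReal := ENNReal.toReal_nonneg
        linarith
      · refine dens_op hn hsym x.y _ hlt ?_ M
        rcases hd with hd | hd <;> rw [hd] <;> norm_num
  · exact Function.update_self _ _ _
  · intro u
    have := hy u
    show |x.y u| ≤ ((i + 1 : ℕ) : ℤ)
    push_cast
    linarith
  · exact hrow'
  · show Psi n (addE x.a (opE n x.q) (dlt p.L G x.a (opE n x.q))) x.y ≤ _
    have h0 : (0 : ℝ) ≤ n := Nat.cast_nonneg n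
    rcases invs_dlt p.L G x.a (opE n x.q) with hd | ⟨hlt, hd⟩
    · rw [hd, invs_addE_zero]
      push_cast
      linarith
    · have h1 := psi_op hn hsym x.y (opE n x.q) hlt (d := dlt p.L G x.a (opE n x.q))
        (by rcases hd with hd | hd <;> rw [hd] <;> norm_num) (fun u => (hrow4 u).2)
      push_cast
      linarith

/-- **One round, deterministic part**: if the counters are accurate then the invariant is kept. -/
theorem inv_step (hn : Even n) {p : Par} {a b : ℕ} {θ τ : ℝ} (ha : 1 ≤ a)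
    (h : NumOK p n a b θ τ) (G : SimpleGraph (Fin n)) {i : ℕ} (hi : i < p.R) {x : Al n}
    (hx : Inv p G θ i x) (hq : ¬ p.L * (n * n) ≤ x.q) {c : Cnt n}
    (hc : ∀ o, |(c o : ℝ) / p.S - prT (x.hist i) (opE n x.q) o| ≤ τ) :
    Inv p G θ (i + 1) (updA p G i x c) := by
  by_cases hδ : ∃ u < n, dy c u ≠ 0
  · exact invs_y hn h G hi hx hq hc hδ
  · exact invs_op hn h G hi hx hq hc hδ

/-- **One round.** -/
theorem inv_round (hn : Even n) {p : Par} {a b : ℕ} {θ τ : ℝ} (ha : 1 ≤ a)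
    (h : NumOK p n a b θ τ) (G : SimpleGraph (Fin n)) {i : ℕ} (hi : i < p.R) {x : Al n}
    (hx : Inv p G θ i x) :
    (roundK p G i x).toOuterMeasure {y | ¬ Inv p G θ (i + 1) y} ≤
      ENNReal.ofReal (2 * (n + 3) * Real.exp (-(p.S * (τ / 2) ^ 2 / 4))) := by
  classical
  unfold roundK
  by_cases hq : p.L * (n * n) ≤ x.q
  · rw [if_pos hq]
    have hq' : x.q = p.L * (n * n) := le_antisymm hx.i1 hq
    have hx' : Inv p G θ (i + 1) x := ⟨hx.i1, hx.i2, hx.i3, hx.i4, Or.inl hq'⟩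
    rw [PMF.toOuterMeasure_pure_apply, if_neg (by simpa using hx')]
    exact zero_le
  · rw [if_neg hq]
    obtain ⟨hH, hhist, _, _, _⟩ := hx.i5.resolve_left (fun h => hq h.ge)
    have heps0 : 0 ≤ epsP p n := by
      have h1 : 0 ≤ etaP p n := by
        unfold etaP rho
        positivity
      unfold epsP
      positivity
    have hτ1 : τ ≤ 1 := by
      have h1 := h.hτθ
      have h2 := h.hθ1
      have h3 : θ / (20 * (1 + 8 * n)) ≤ θ := by
        apply div_le_self h.hθ0.le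
        have : (0 : ℝ) ≤ n := Nat.cast_nonneg n
        nlinarith
      linarith
    have hδ : ((i : ℝ) + 1) * epsP p n ≤ τ / 2 := by
      refine le_trans ?_ h.hε
      apply mul_le_mul_of_nonneg_right _ heps0
      have : i + 1 ≤ p.R := hi
      exact_mod_cast this
    have hgood := cnt_good p (opE n x.q) x.hist i (δ := ((i : ℝ) + 1) * epsP p n) (τ := τ / 2)
      (by positivity) (pass_tv p h.hBn h.hH h.hη hH) (by linarith [h.hτ0]) (by linarith) h.hS
    rw [PMF.toOuterMeasure_map_apply]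
    refine le_trans (MeasureTheory.OuterMeasure.mono _ ?_) hgood
    intro c hc
    by_contra hcon
    apply hc
    refine inv_step hn ha h G hi hx hq ?_
    intro o
    by_contra ho
    apply hcon
    refine ⟨o, ?_⟩
    rw [not_le] at ho
    linarith

/-- At the end all operations are completed. -/
theorem inv_end (hn : Even n) {p : Par} {a b : ℕ} {θ τ : ℝ} (ha : 1 ≤ a)
    (h : NumOK p n a b θ τ) (G : SimpleGraph (Fin n)) {x : Al n} (hx : Inv p G θ p.R x) :
    x.q = p.L * (n * n) := by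
  rcases hx.i5 with h0 | ⟨_, _, _, _, h0⟩
  · exact h0
  · exfalso
    have hsym : Sym x.a := by
      rw [hx.i2]
      exact aSeq_sym _ _ _
    have h1 := psi_lower hn hsym x.y p.L (fun u v _ _ _ => by
      rw [hx.i2]
      exact (aSeq_range p.L G x.q u v).2) (fun u v _ _ _ => by
      rw [hx.i2]
      exact (aSeq_range p.L G x.q u v).1)
    have h2 : (x.q : ℝ) ≤ p.L * (n * n) := by exact_mod_cast hx.i1
    have h3 := h.hR
    have hn0 : (0 : ℝ) ≤ n := by positivity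
    have hq0 : (0 : ℝ) ≤ x.q := by positivity
    have hL0 : (0 : ℝ) ≤ p.L := by positivity
    have h4 : 2 * (n : ℝ) * x.q ≤ 2 * n * (p.L * n ^ 2) := by
      have h5 : (x.q : ℝ) ≤ p.L * n ^ 2 := by rw [pow_two]; exact h2
      exact mul_le_mul_of_nonneg_left h5 (by positivity)
    have h6 : 9 / 100 * ((p.R : ℝ) - x.q) ≤
        4 * n + 2 * n * (p.L * n ^ 2) + n ^ 2 * p.L + n ^ 3 := by linarith
    have h7 : 0 ≤ 4 * (n : ℝ) + 2 * n * (p.L * n ^ 2) + n ^ 2 * p.L + n ^ 3 := by positivity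
    have h8 : (x.q : ℝ) ≤ p.L * n ^ 2 := by rw [pow_two]; exact h2
    linarith

private theorem iv_real {t NP Z Z0 δ r u d : ℝ} (ht0 : 0 < t) (ht1 : t ≤ 1)
    (hδ0 : 0 ≤ δ) (hδ : δ ≤ t / 16) (hZ01 : 1 ≤ Z0) (hZ02 : Z0 ≤ 1 + δ) (hZ1 : NP ≤ Z)
    (hZ2 : Z ≤ NP + δ) (hd : 1 - t / 4 ≤ d) (hu : u ≤ 1 + t / 4) (hNP : 0 ≤ NP)
    (h1 : d * (Z / Z0) ≤ r) (h2 : r ≤ u * (Z / Z0)) :
    (1 ≤ NP → (1 - t) * NP ≤ r ∧ r ≤ (1 + t) * NP ∧ 1 / 2 ≤ r) ∧ (NP = 0 → r < 1 / 2) := by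
  have hZ0p : 0 < Z0 := by linarith
  have hZn : 0 ≤ Z := by linarith
  have hq1 : Z / Z0 ≤ NP + δ := (div_le_self hZn hZ01).trans hZ2
  have hq0 : 0 ≤ Z / Z0 := by positivity
  have hq2 : NP * (1 - t / 16) ≤ Z / Z0 := by
    rw [le_div_iff₀ hZ0p]
    have e1 : (1 - t / 16) * Z0 ≤ 1 := by nlinarith
    have e2 : NP * ((1 - t / 16) * Z0) ≤ NP * 1 := mul_le_mul_of_nonneg_left e1 hNP
    linarith
  have hdn : r ≥ (1 - t / 4) * (NP * (1 - t / 16)) := by
    have e1 : (1 - t / 4) * (NP * (1 - t / 16)) ≤ (1 - t / 4) * (Z / Z0) :=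
      mul_le_mul_of_nonneg_left hq2 (by linarith)
    have e2 : (1 - t / 4) * (Z / Z0) ≤ d * (Z / Z0) := mul_le_mul_of_nonneg_right hd hq0
    linarith
  have hup : r ≤ (1 + t / 4) * (NP + t / 16) := by
    have e1 : u * (Z / Z0) ≤ (1 + t / 4) * (Z / Z0) := mul_le_mul_of_nonneg_right hu hq0
    have e2 : (1 + t / 4) * (Z / Z0) ≤ (1 + t / 4) * (NP + t / 16) :=
      mul_le_mul_of_nonneg_left (by linarith) (by linarith)
    linarith
  constructor
  · intro hN
    have hp : 0 ≤ NP * t := by positivity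
    have hpt : 0 ≤ NP * t * t := by positivity
    have ht2 : t * t ≤ t := by nlinarith
    have hpt2 : NP * (t * t) ≤ NP * t := mul_le_mul_of_nonneg_left ht2 hNP
    refine ⟨?_, ?_, ?_⟩
    · nlinarith
    · nlinarith
    · nlinarith
  · intro hN
    rw [hN] at hup
    nlinarith

/-- The output is right. -/
theorem out_right (hn : Even n) {p : Par} {a b : ℕ} {θ τ : ℝ} (ha : 1 ≤ a)
    (h : NumOK p n a b θ τ) (G : SimpleGraph (Fin n)) {x : Al n} (hx : Inv p G θ p.R x) :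
    (1 - 1 / (a : ℝ)) * P308.numPerfect G ≤ ((outV x).1 : ℝ) / ((outV x).2 : ℝ) ∧
      ((outV x).1 : ℝ) / ((outV x).2 : ℝ) ≤ (1 + 1 / (a : ℝ)) * P308.numPerfect G := by
  have hq := inv_end hn ha h G hx
  obtain ⟨hL1, hL2⟩ := iv_hL ha h
  obtain ⟨hZ1, hZ2⟩ := ZG_a0 hn p.L
  have ha' : (1 : ℝ) ≤ a := by exact_mod_cast ha
  have hsym : Sym x.a := by
    rw [hx.i2]
    exact aSeq_sym _ _ _
  obtain ⟨hT1, hT2⟩ := ZG_tgt hn p.L G x.a hsym fun u v huv hv => by
    rw [hx.i2, hq]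
    exact aSeq_end p.L G huv hv
  obtain ⟨h4, h5⟩ := hx.i4
  rw [hq] at h4 h5
  have hup := h.hup
  have hdn := h.hdn
  have e16 : 1 / (16 * (a : ℝ)) = 1 / (a : ℝ) / 16 := by rw [div_div, mul_comm]
  have e4 : 1 / (4 * (a : ℝ)) = 1 / (a : ℝ) / 4 := by rw [div_div, mul_comm]
  rw [e4] at hup hdn
  rw [e16] at hL2
  have ht0 : 0 < 1 / (a : ℝ) := by positivity
  have ht1 : 1 / (a : ℝ) ≤ 1 := by
    rw [div_le_one (by linarith)]
    exact ha'
  have hδ0 : 0 ≤ (n : ℝ) ^ n * (2 : ℝ)⁻¹ ^ p.L := by positivity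
  have hNP : (0 : ℝ) ≤ P308.numPerfect G := by positivity
  obtain ⟨k1, k2⟩ := iv_real ht0 ht1 hδ0 hL2 hZ1 hZ2 hT1 hT2 hdn hup hNP h4 h5
  have hden : (0 : ℝ) < x.den := by exact_mod_cast hx.i3
  rcases Nat.eq_zero_or_pos (P308.numPerfect G) with h0 | h0
  · have hlt := k2 (by exact_mod_cast h0)
    rw [div_lt_div_iff₀ hden (by norm_num)] at hlt
    have hlt' : 2 * x.num < x.den := by
      have : (2 : ℝ) * x.num < x.den := by linarith
      exact_mod_cast this
    unfold outV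
    rw [if_pos hlt', h0]
    simp
  · obtain ⟨m1, m2, m3⟩ := k1 (by exact_mod_cast h0)
    rw [div_le_div_iff₀ (by norm_num) hden] at m3
    have hge : ¬ 2 * x.num < x.den := by
      intro hc
      have : (2 : ℝ) * x.num < x.den := by exact_mod_cast hc
      linarith
    unfold outV
    rw [if_neg hge]
    push_cast
    exact ⟨m1, m2⟩

/-- union bound over the rounds of a `seqBind` -/
theorem mainr_seqBind {α : Type} (κ : ℕ → α → PMF α) (I : ℕ → α → Prop) (e : ℝ≥0∞) (R : ℕ)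
    (hstep : ∀ i < R, ∀ x, I i x → (κ i x).toOuterMeasure {y | ¬ I (i + 1) y} ≤ e) {x0 : α}
    (h0 : I 0 x0) : ∀ k ≤ R, (seqBind κ k x0).toOuterMeasure {y | ¬ I k y} ≤ k * e := by
  intro k
  induction k with
  | zero =>
      intro _
      simp only [seqBind, Nat.cast_zero, zero_mul, nonpos_iff_eq_zero]
      rw [PMF.toOuterMeasure_apply_eq_zero_iff, PMF.support_pure]
      simp [h0]
  | succ k ih =>
      intro hk
      have h1 := ih (by omega)
      simp only [seqBind]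
      rw [PMF.toOuterMeasure_bind_apply]
      have h2 : ∀ a, (seqBind κ k x0) a * (κ k a).toOuterMeasure {y | ¬ I (k + 1) y} ≤
          (seqBind κ k x0) a * e + Set.indicator {y | ¬ I k y} (seqBind κ k x0) a := by
        intro a
        by_cases ha : I k a
        · refine le_trans (mul_le_mul' le_rfl (hstep k (by omega) a ha)) le_self_add
        · have h3 : (κ k a).toOuterMeasure {y | ¬ I (k + 1) y} ≤ 1 := by
            have h5 : (κ k a).toOuterMeasure Set.univ = 1 :=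
              (PMF.toOuterMeasure_apply_eq_one_iff _ _).2 (Set.subset_univ _)
            rw [← h5]
            exact (κ k a).toOuterMeasure.mono (Set.subset_univ _)
          have h4 : Set.indicator {y | ¬ I k y} (seqBind κ k x0) a = (seqBind κ k x0) a :=
            Set.indicator_of_mem ha _
          rw [h4]
          refine le_trans (mul_le_mul' le_rfl h3) ?_
          rw [mul_one]
          exact le_add_self
      calc ∑' a, (seqBind κ k x0) a * (κ k a).toOuterMeasure {y | ¬ I (k + 1) y}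
          ≤ ∑' a, ((seqBind κ k x0) a * e + Set.indicator {y | ¬ I k y} (seqBind κ k x0) a) :=
            ENNReal.tsum_le_tsum h2
        _ = e + (seqBind κ k x0).toOuterMeasure {y | ¬ I k y} := by
            rw [ENNReal.tsum_add, ENNReal.tsum_mul_right, PMF.tsum_coe, one_mul,
              PMF.toOuterMeasure_apply]
        _ ≤ e + k * e := add_le_add le_rfl h1
        _ = ((k + 1 : ℕ) : ℝ≥0∞) * e := by push_cast; ring

theorem mainr_prob_ge {α : Type} (μ : PMF α) {G B : Set α} {δ : ℝ} (hδ : 0 ≤ δ) (hsub : Gᶜ ⊆ B)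
    (hB : μ.toOuterMeasure B ≤ ENNReal.ofReal δ) : ENNReal.ofReal (1 - δ) ≤ μ.toOuterMeasure G := by
  have h4 : (1 : ℝ≥0∞) ≤ μ.toOuterMeasure G + μ.toOuterMeasure Gᶜ := by
    have h5 : μ.toOuterMeasure (G ∪ Gᶜ) = 1 := by
      rw [PMF.toOuterMeasure_apply_eq_one_iff, Set.union_compl_self]
      exact Set.subset_univ _
    rw [← h5]
    exact MeasureTheory.measure_union_le _ _
  rw [ENNReal.ofReal_sub _ hδ, ENNReal.ofReal_one, tsub_le_iff_right]
  exact h4.trans (add_le_add le_rfl ((μ.toOuterMeasure.mono hsub).trans hB))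

/-- **The native algorithm is right.** -/
theorem main_right {p : Par} {a b : ℕ} {θ τ : ℝ} (ha : 1 ≤ a) (hb : 1 ≤ b)
    (h : NumOK p n a b θ τ) (G : SimpleGraph (Fin n)) :
    ENNReal.ofReal (1 - 1 / (b : ℝ)) ≤ (mainK p G).toOuterMeasure
      {z | (1 - 1 / (a : ℝ)) * P308.numPerfect G ≤ (z.1 : ℝ) / (z.2 : ℝ) ∧
        (z.1 : ℝ) / (z.2 : ℝ) ≤ (1 + 1 / (a : ℝ)) * P308.numPerfect G} := by
  classical
  unfold mainK
  by_cases hn : n % 2 = 1
  · rw [if_pos hn]
    have hz : P308.numPerfect G = 0 := by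
      unfold P308.numPerfect
      have hemp : IsEmpty {M : G.Subgraph // M.IsPerfectMatching} := by
        refine ⟨fun M => ?_⟩
        have h1 := M.2.even_card
        rw [Fintype.card_fin] at h1
        rw [Nat.even_iff] at h1
        omega
      exact Nat.card_of_isEmpty
    rw [hz]
    have h1 : ((PMF.pure ((0 : ℤ), (1 : ℤ)))).toOuterMeasure
        {z : ℤ × ℤ | (1 - 1 / (a : ℝ)) * ((0 : ℕ) : ℝ) ≤ (z.1 : ℝ) / (z.2 : ℝ) ∧
          (z.1 : ℝ) / (z.2 : ℝ) ≤ (1 + 1 / (a : ℝ)) * ((0 : ℕ) : ℝ)} = 1 := by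
      rw [PMF.toOuterMeasure_apply_eq_one_iff, PMF.support_pure]
      simp
    rw [h1]
    refine le_trans (ENNReal.ofReal_le_ofReal (q := 1) ?_) (by simp)
    have : (0 : ℝ) ≤ 1 / (b : ℝ) := by positivity
    linarith
  · rw [if_neg hn]
    have hev : Even n := by rw [Nat.even_iff]; omega
    rw [PMF.toOuterMeasure_map_apply]
    have h1 := mainr_seqBind (fun i => roundK p G i) (fun i x => Inv p G θ i x)
      (ENNReal.ofReal (2 * (n + 3) * Real.exp (-(p.S * (τ / 2) ^ 2 / 4)))) p.R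
      (fun i hi x hx => inv_round hev ha h G hi hx) (inv_init hev ha h G) p.R le_rfl
    have h2 : (p.R : ℝ≥0∞) * ENNReal.ofReal (2 * (n + 3) * Real.exp (-(p.S * (τ / 2) ^ 2 / 4))) ≤
        ENNReal.ofReal (1 / (b : ℝ)) := by
      have h3 : (p.R : ℝ≥0∞) = ENNReal.ofReal (p.R : ℝ) := (ENNReal.ofReal_natCast _).symm
      rw [h3, ← ENNReal.ofReal_mul (Nat.cast_nonneg _)]
      exact ENNReal.ofReal_le_ofReal h.hSb
    refine mainr_prob_ge _ (by positivity) ?_ (h1.trans h2)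
    intro x hx hI
    exact hx (out_right hev ha h G hI)

end Vale.Agent.P308Q
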