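import Vale.Agent.P308Q.Bridge1
import Vale.Agent.P308Q.CycPath
import Vale.Agent.P308Q.Gibbs
import Vale.Agent.P308Q.Algo
import Vale.Agent.P328R.Pert

/-!
# The kernel of the chain
-/

namespace Vale.Agent.P308Q

open Finset Vale.Agent.P328R Vale.Agent.P317R Vale.Agent.P328RAM
open scoped ENNReal

variable {n : ℕ}

/-- the three kinds of moves -/
theorem tog_cases (x y : ℕ) (M : Stt n) : tog x y M = M ∨
    ∃ a b : Fin (n + 2), (a : ℕ) = x ∧ (b : ℕ) = y ∧ a ≠ b ∧
      ((M a = b ∧ tog x y M = Function.update (Function.update M a a) b b) ∨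
        ((M a = a ∧ M b = b) ∧ tog x y M = Function.update (Function.update M a b) b a)) := by
  unfold tog
  by_cases h : x < n + 2 ∧ y < n + 2
  · rw [dif_pos h]
    by_cases hxy : x = y
    · rw [if_pos hxy]
      exact Or.inl rfl
    · rw [if_neg hxy]
      have hne : (⟨x, h.1⟩ : Fin (n + 2)) ≠ ⟨y, h.2⟩ := fun e => hxy (congrArg Fin.val e)
      by_cases h1 : M ⟨x, h.1⟩ = ⟨y, h.2⟩
      · rw [if_pos h1]
        exact Or.inr ⟨⟨x, h.1⟩, ⟨y, h.2⟩, rfl, rfl, hne, Or.inl ⟨h1, rfl⟩⟩
      · rw [if_neg h1]
        by_cases h2 : M ⟨x, h.1⟩ = ⟨x, h.1⟩ ∧ M ⟨y, h.2⟩ = ⟨y, h.2⟩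
        · rw [if_pos h2]
          exact Or.inr ⟨⟨x, h.1⟩, ⟨y, h.2⟩, rfl, rfl, hne, Or.inr ⟨h2, rfl⟩⟩
        · rw [if_neg h2]
          exact Or.inl rfl
  · rw [dif_neg h]
    exact Or.inl rfl

theorem tog_rem {M : Stt n} {a b : Fin (n + 2)} (hab : a ≠ b) (h : M a = b) :
    tog a b M = Function.update (Function.update M a a) b b := by
  unfold tog
  rw [dif_pos ⟨a.2, b.2⟩, if_neg (fun e => hab (Fin.ext e)), if_pos h]

theorem tog_ins {M : Stt n} {a b : Fin (n + 2)} (hab : a ≠ b) (h : M a = a) (h' : M b = b) :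
    tog a b M = Function.update (Function.update M a b) b a := by
  unfold tog
  rw [dif_pos ⟨a.2, b.2⟩, if_neg (fun e => hab (Fin.ext e)), if_neg, if_pos ⟨h, h'⟩]
  intro e
  rw [Fin.eta, Fin.eta, h] at e
  exact hab e

theorem tog_invol {M : Stt n} (hM : ∀ v, M (M v) = v) (x y : ℕ) (v : Fin (n + 2)) :
    tog x y M (tog x y M v) = v := by
  rcases tog_cases x y M with h | ⟨a, b, -, -, hab, ⟨h1, h2⟩ | ⟨⟨h1, h1'⟩, h2⟩⟩
  · rw [h]
    exact hM v
  · have hba : M b = a := by rw [← h1, hM]
    rw [h2]
    by_cases hvb : v = b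
    · subst hvb
      rw [Function.update_self, Function.update_self]
    · by_cases hva : v = a
      · subst hva
        rw [Function.update_of_ne hvb, Function.update_self, Function.update_of_ne hvb,
          Function.update_self]
      · have e1 : M v ≠ b := fun e => hva (by rw [← hM v, e, hba])
        have e2 : M v ≠ a := fun e => hvb (by rw [← hM v, e, h1])
        rw [Function.update_of_ne hvb, Function.update_of_ne hva, Function.update_of_ne e1,
          Function.update_of_ne e2, hM]
  · rw [h2]
    by_cases hvb : v = b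
    · subst hvb
      rw [Function.update_self, Function.update_of_ne hab, Function.update_self]
    · by_cases hva : v = a
      · subst hva
        rw [Function.update_of_ne hvb, Function.update_self, Function.update_self]
      · have e1 : M v ≠ b := fun e => hvb (by rw [← hM v, e, h1'])
        have e2 : M v ≠ a := fun e => hva (by rw [← hM v, e, h1])
        rw [Function.update_of_ne hvb, Function.update_of_ne hva, Function.update_of_ne e1,
          Function.update_of_ne e2, hM]

/-- toggling changes one edge or nothing -/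
theorem tog_adj {M : Stt n} (hM : ∀ v, M (M v) = v) (x y : ℕ) :
    tog x y M = M ∨ AdjM M (tog x y M) := by
  rcases tog_cases x y M with h | ⟨a, b, -, -, hab, ⟨h1, h2⟩ | ⟨⟨h1, h1'⟩, h2⟩⟩
  · exact Or.inl h
  · have hba : M b = a := by rw [← h1, hM]
    refine Or.inr ⟨a, b, hab, Or.inr ⟨?_, ?_, h1, hba⟩, ?_⟩
    · rw [h2, Function.update_of_ne hab, Function.update_self]
    · rw [h2, Function.update_self]
    · intro v hva hvb
      rw [h2, Function.update_of_ne hvb, Function.update_of_ne hva]
  · refine Or.inr ⟨a, b, hab, Or.inl ⟨h1, h1', ?_, ?_⟩, ?_⟩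
    · rw [h2, Function.update_of_ne hab, Function.update_self]
    · rw [h2, Function.update_self]
    · intro v hva hvb
      rw [h2, Function.update_of_ne hvb, Function.update_of_ne hva]

/-- For adjacent `M`, `M'` exactly two ordered pairs of draws lead from `M` to `M'`; for
non-adjacent ones there are none. -/
theorem card_tog {M M' : Stt n} (hM : ∀ v, M (M v) = v) (hne : M ≠ M') (Bn : ℕ)
    (hBn : n + 2 ≤ 2 ^ Bn) [Decidable (AdjM M M')] :
    ((range (2 ^ Bn) ×ˢ range (2 ^ Bn)).filter fun q => tog q.1 q.2 M = M').card =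
      if AdjM M M' then 2 else 0 := by
  classical
  by_cases hadj : AdjM M M'
  · rw [if_pos hadj]
    obtain ⟨a, b, hab, hcase, hrest⟩ := hadj
    have hda : M a ≠ M' a := by
      rcases hcase with ⟨h1, h2, h3, h4⟩ | ⟨h1, h2, h3, h4⟩
      · rw [h1, h3]
        exact hab
      · rw [h1, h3]
        exact hab.symm
    have hdb : M b ≠ M' b := by
      rcases hcase with ⟨h1, h2, h3, h4⟩ | ⟨h1, h2, h3, h4⟩
      · rw [h2, h4]
        exact hab.symm
      · rw [h2, h4]
        exact hab
    have e1 : tog a b M = M' := by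
      rcases hcase with ⟨h1, h2, h3, h4⟩ | ⟨h1, h2, h3, h4⟩
      · rw [tog_ins hab h1 h2]
        funext v
        by_cases hvb : v = b
        · rw [hvb, Function.update_self, h4]
        · by_cases hva : v = a
          · rw [hva, Function.update_of_ne hab, Function.update_self, h3]
          · rw [Function.update_of_ne hvb, Function.update_of_ne hva, hrest v hva hvb]
      · rw [tog_rem hab h3]
        funext v
        by_cases hvb : v = b
        · rw [hvb, Function.update_self, h2]
        · by_cases hva : v = a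
          · rw [hva, Function.update_of_ne hab, Function.update_self, h1]
          · rw [Function.update_of_ne hvb, Function.update_of_ne hva, hrest v hva hvb]
    have e2 : tog b a M = M' := by
      rcases hcase with ⟨h1, h2, h3, h4⟩ | ⟨h1, h2, h3, h4⟩
      · rw [tog_ins hab.symm h2 h1]
        funext v
        by_cases hva : v = a
        · rw [hva, Function.update_self, h3]
        · by_cases hvb : v = b
          · rw [hvb, Function.update_of_ne hab.symm, Function.update_self, h4]
          · rw [Function.update_of_ne hva, Function.update_of_ne hvb, hrest v hva hvb]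
      · rw [tog_rem hab.symm h4]
        funext v
        by_cases hva : v = a
        · rw [hva, Function.update_self, h1]
        · by_cases hvb : v = b
          · rw [hvb, Function.update_of_ne hab.symm, Function.update_self, h2]
          · rw [Function.update_of_ne hva, Function.update_of_ne hvb, hrest v hva hvb]
    have hset : ((range (2 ^ Bn) ×ˢ range (2 ^ Bn)).filter fun q => tog q.1 q.2 M = M') =
        {((a : ℕ), (b : ℕ)), ((b : ℕ), (a : ℕ))} := by
      ext q
      rw [mem_filter, mem_product, mem_range, mem_range, mem_insert, mem_singleton]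
      constructor
      · rintro ⟨-, hq⟩
        rcases tog_cases q.1 q.2 M with h | ⟨c, d, hc, hd, hcd, hh⟩
        · exact absurd (h.symm.trans hq) hne
        · have hoff : ∀ v, v ≠ c → v ≠ d → M v = M' v := by
            intro v hvc hvd
            rw [← hq]
            rcases hh with ⟨-, h2⟩ | ⟨-, h2⟩ <;>
              rw [h2, Function.update_of_ne hvd, Function.update_of_ne hvc]
          have ha : a = c ∨ a = d := by
            by_contra hn
            rw [not_or] at hn
            exact hda (hoff a hn.1 hn.2)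
          have hb : b = c ∨ b = d := by
            by_contra hn
            rw [not_or] at hn
            exact hdb (hoff b hn.1 hn.2)
          rcases ha with ha | ha <;> rcases hb with hb | hb
          · exact absurd (ha.trans hb.symm) hab
          · refine Or.inl (Prod.ext ?_ ?_)
            · rw [ha, hc]
            · rw [hb, hd]
          · refine Or.inr (Prod.ext ?_ ?_)
            · rw [hb, hc]
            · rw [ha, hd]
          · exact absurd (ha.trans hb.symm) hab
      · have ha2 := a.2
        have hb2 := b.2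
        rintro (hq | hq)
        · rw [hq]
          exact ⟨⟨by dsimp only; omega, by dsimp only; omega⟩, e1⟩
        · rw [hq]
          exact ⟨⟨by dsimp only; omega, by dsimp only; omega⟩, e2⟩
    rw [hset, card_insert_of_notMem, card_singleton]
    rw [mem_singleton]
    intro e
    exact hab (Fin.ext (congrArg Prod.fst e))
  · rw [if_neg hadj, card_eq_zero, filter_eq_empty_iff]
    intro q _ hq
    rcases tog_adj hM q.1 q.2 with h | h
    · exact hne (h.symm.trans hq)
    · rw [hq] at h
      exact hadj h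

/-- the states of the chain -/
def FS (n H : ℕ) : Finset (Stt n) :=
  univ.filter fun M => (∀ v, M (M v) = v) ∧ (holes M).card ≤ H

/-- the perfect states -/
def PS (n : ℕ) : Finset (Stt n) := univ.filter fun M => (∀ v, M (M v) = v) ∧ holes M = ∅

/-- a bind with a uniform draw -/
theorem kern_unif_bind {τ : Type} (B : ℕ) (f : ℕ → PMF τ) (y : τ) :
    (((unif B).bind f) y).toReal = (∑ i ∈ range (2 ^ B), (f i y).toReal) / 2 ^ B := by
  have : Nonempty (Fin (2 ^ B)) := ⟨⟨0, by positivity⟩⟩
  have h : ((unif B).bind f) y = ∑ i ∈ range (2 ^ B), ((2 ^ B : ℕ) : ℝ≥0∞)⁻¹ * f i y := by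
    rw [unif_eq, PMF.bind_map, PMF.bind_apply, tsum_fintype]
    simp only [PMF.uniformOfFintype_apply, Fintype.card_fin, Function.comp]
    rw [Fin.sum_univ_eq_sum_range (fun i => ((2 ^ B : ℕ) : ℝ≥0∞)⁻¹ * (f i) y)]
  rw [h, ENNReal.toReal_sum]
  · rw [Finset.sum_div]
    refine Finset.sum_congr rfl fun i _ => ?_
    rw [ENNReal.toReal_mul, ENNReal.toReal_inv, ENNReal.toReal_natCast]
    push_cast
    rw [div_eq_inv_mul]
  · intro i _
    refine ENNReal.mul_ne_top ?_ (PMF.apply_ne_top _ _)
    refine ENNReal.inv_ne_top.2 ?_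
    exact_mod_cast (pow_pos (by norm_num : (0 : ℕ) < 2) B).ne'

/-- a filtered draw -/
theorem kern_map {M M' T : Stt n} (hne : M ≠ M') (K : ℕ) :
    (((unif K).map fun z => if z = 0 then T else M) M').toReal =
      if T = M' then ((2 : ℝ) ^ K)⁻¹ else 0 := by
  rw [← PMF.bind_pure_comp, kern_unif_bind]
  have h0 : 0 ∈ range (2 ^ K) := mem_range.2 (by positivity)
  rw [← Finset.add_sum_erase _ _ h0]
  have hz : ∑ i ∈ (range (2 ^ K)).erase 0,
      ((PMF.pure ∘ fun z => if z = 0 then T else M) i M').toReal = 0 := by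
    refine Finset.sum_eq_zero fun i hi => ?_
    have hi0 : i ≠ 0 := (mem_erase.1 hi).1
    simp only [Function.comp]
    rw [if_neg hi0, PMF.pure_apply, if_neg hne.symm, ENNReal.toReal_zero]
  rw [hz, add_zero]
  simp only [Function.comp, if_true]
  rw [PMF.pure_apply]
  by_cases hT : T = M'
  · rw [if_pos hT, if_pos hT.symm, ENNReal.toReal_one, one_div]
  · rw [if_neg hT, if_neg (fun e => hT e.symm), ENNReal.toReal_zero, zero_div]

theorem kern_min (p : Par) (b : Ext n) (M M' : Stt n) :
    ((2 : ℝ) ^ (phi p b (fw b (n + 2)) M - phi p b (fw b (n + 2)) M').toNat)⁻¹ =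
      min 1 (wph p b M' / wph p b M) := by
  unfold wph
  rw [← zpow_sub₀ (by norm_num : (2 : ℝ) ≠ 0)]
  generalize phi p b (fw b (n + 2)) M = u
  generalize phi p b (fw b (n + 2)) M' = w
  rcases le_total u w with h | h
  · have e : (u - w).toNat = 0 := by omega
    rw [e, pow_zero, inv_one, min_eq_left]
    exact one_le_zpow₀ (by norm_num) (by omega)
  · have e : (((u - w).toNat : ℕ) : ℤ) = u - w := by omega
    rw [← zpow_natCast, e, ← zpow_neg, neg_sub, min_eq_right]
    exact zpow_le_one_of_nonpos₀ (by norm_num) (by omega)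

open Classical in
/-- the off-diagonal values of the kernel -/
theorem stepK_val (p : Par) (b : Ext n) (hBn : n + 2 ≤ 2 ^ p.Bn) {M M' : Stt n}
    (hM : ∀ v, M (M v) = v) (hne : M ≠ M') :
    (stepK p b (fw b (n + 2)) M M').toReal =
      if AdjM M M' ∧ (holes M').card ≤ p.H then
        (4 : ℝ)⁻¹ ^ p.Bn * min 1 (wph p b M' / wph p b M) else 0 := by
  have hin : ∀ x y : ℕ, ((if (1 : ℕ) = 1 ∧ (holes (tog x y M)).card ≤ p.H then
      (unif (phi p b (fw b (n + 2)) M - phi p b (fw b (n + 2)) (tog x y M)).toNat).map fun z =>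
        if z = 0 then tog x y M else M
      else PMF.pure M) M').toReal =
      if tog x y M = M' then (if (holes M').card ≤ p.H then min 1 (wph p b M' / wph p b M) else 0)
        else 0 := by
    intro x y
    by_cases hh : (holes (tog x y M)).card ≤ p.H
    · rw [if_pos ⟨rfl, hh⟩, kern_map hne]
      by_cases ht : tog x y M = M'
      · rw [if_pos ht, if_pos ht, ht, kern_min, if_pos (ht ▸ hh)]
      · rw [if_neg ht, if_neg ht]
    · rw [if_neg (fun h => hh h.2), PMF.pure_apply, if_neg hne.symm, ENNReal.toReal_zero]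
      by_cases ht : tog x y M = M'
      · rw [if_pos ht, if_neg (fun h => hh (ht ▸ h))]
      · rw [if_neg ht]
  have h0 : ∀ x y : ℕ, ((if (0 : ℕ) = 1 ∧ (holes (tog x y M)).card ≤ p.H then
      (unif (phi p b (fw b (n + 2)) M - phi p b (fw b (n + 2)) (tog x y M)).toNat).map fun z =>
        if z = 0 then tog x y M else M
      else PMF.pure M) M').toReal = 0 := by
    intro x y
    rw [if_neg (fun h => zero_ne_one h.1), PMF.pure_apply, if_neg hne.symm, ENNReal.toReal_zero]
  have H1 : (((unif p.Bn).bind fun x => (unif p.Bn).bind fun y =>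
      if (1 : ℕ) = 1 ∧ (holes (tog x y M)).card ≤ p.H then
      (unif (phi p b (fw b (n + 2)) M - phi p b (fw b (n + 2)) (tog x y M)).toNat).map fun z =>
        if z = 0 then tog x y M else M
      else PMF.pure M) M').toReal = (∑ x ∈ range (2 ^ p.Bn), (∑ y ∈ range (2 ^ p.Bn),
        if tog x y M = M' then
          (if (holes M').card ≤ p.H then min 1 (wph p b M' / wph p b M) else 0)
        else 0) / 2 ^ p.Bn) / 2 ^ p.Bn := by
    rw [kern_unif_bind]
    congr 1
    refine Finset.sum_congr rfl fun x _ => ?_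
    rw [kern_unif_bind]
    congr 1
    exact Finset.sum_congr rfl fun y _ => hin x y
  have H0 : (((unif p.Bn).bind fun x => (unif p.Bn).bind fun y =>
      if (0 : ℕ) = 1 ∧ (holes (tog x y M)).card ≤ p.H then
      (unif (phi p b (fw b (n + 2)) M - phi p b (fw b (n + 2)) (tog x y M)).toNat).map fun z =>
        if z = 0 then tog x y M else M
      else PMF.pure M) M').toReal = 0 := by
    rw [kern_unif_bind]
    refine (congrArg (fun t => t / (2 : ℝ) ^ p.Bn) (Finset.sum_eq_zero fun x _ => ?_)).trans
      (zero_div _)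
    rw [kern_unif_bind]
    exact (congrArg (fun t => t / (2 : ℝ) ^ p.Bn) (Finset.sum_eq_zero fun y _ => h0 x y)).trans
      (zero_div _)
  unfold stepK
  rw [kern_unif_bind]
  have e2 : (2 : ℕ) ^ 1 = 2 := by norm_num
  rw [e2, Finset.sum_range_succ, Finset.sum_range_one, H0, H1, zero_add]
  rw [← Finset.sum_div, ← Finset.sum_product' (f := fun x y => if tog x y M = M' then
    (if (holes M').card ≤ p.H then min 1 (wph p b M' / wph p b M) else 0) else 0),
    ← Finset.sum_filter, Finset.sum_const, nsmul_eq_mul]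
  have hc := card_tog hM hne p.Bn hBn
  rw [hc]
  have h4 : (4 : ℝ)⁻¹ ^ p.Bn = (2 ^ p.Bn)⁻¹ * (2 ^ p.Bn)⁻¹ := by
    rw [← mul_inv, ← mul_pow, inv_pow]
    norm_num
  by_cases ha : AdjM M M'
  · by_cases hh : (holes M').card ≤ p.H
    · rw [if_pos ha, if_pos hh, if_pos ⟨ha, hh⟩, h4]
      push_cast
      field_simp
    · have hn : ¬ (AdjM M M' ∧ (holes M').card ≤ p.H) := fun h => hh h.2
      rw [if_neg hn, if_neg hh, mul_zero, zero_div, zero_div, zero_div]
  · have hn : ¬ (AdjM M M' ∧ (holes M').card ≤ p.H) := fun h => ha h.1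
    rw [if_neg hn, if_neg ha, Nat.cast_zero, zero_mul, zero_div, zero_div, zero_div]

theorem stepK_lazy (p : Par) (b s : Ext n) (M : Stt n) : 1 / 2 ≤ (stepK p b s M M).toReal := by
  have h0 : ∀ x y : ℕ, ((if (0 : ℕ) = 1 ∧ (holes (tog x y M)).card ≤ p.H then
      (unif (phi p b s M - phi p b s (tog x y M)).toNat).map fun z =>
        if z = 0 then tog x y M else M
      else PMF.pure M) M).toReal = 1 := by
    intro x y
    rw [if_neg (fun h => zero_ne_one h.1), PMF.pure_apply, if_pos rfl, ENNReal.toReal_one]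
  unfold stepK
  rw [kern_unif_bind]
  have e2 : (2 : ℕ) ^ 1 = 2 := by norm_num
  rw [e2, Finset.sum_range_succ, Finset.sum_range_one]
  have h1 : (((unif p.Bn).bind fun x => (unif p.Bn).bind fun y =>
      if (0 : ℕ) = 1 ∧ (holes (tog x y M)).card ≤ p.H then
      (unif (phi p b s M - phi p b s (tog x y M)).toNat).map fun z =>
        if z = 0 then tog x y M else M
      else PMF.pure M) M).toReal = 1 := by
    simp only [kern_unif_bind, h0]
    simp only [Finset.sum_const, Finset.card_range, nsmul_eq_mul, mul_one]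
    push_cast
    field_simp
  rw [h1]
  refine le_trans ?_ (div_le_div_of_nonneg_right
    (le_add_of_nonneg_right ENNReal.toReal_nonneg) (by positivity))
  norm_num

/-- the stationary law on the states with at most `H` holes -/
noncomputable def piS (p : Par) (b : Ext n) : PMF (Stt n) := gibbs (FS n p.H) (wph p b)

/-- the law on the perfect states, proportional to the weights -/
noncomputable def piP (b : Ext n) : PMF (Stt n) :=
  gibbs (PS n) fun M => q2 ^ (∑ v, b v (M v))

theorem kr_adj_invol {m m' : Stt n} (hm : ∀ v, m (m v) = v) (h : AdjM m m') :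
    ∀ v, m' (m' v) = v := by
  obtain ⟨x, y, _, hxy, hrest⟩ := h
  intro v
  by_cases hvx : v = x
  · subst hvx
    rcases hxy with ⟨_, _, h3, h4⟩ | ⟨h1, _, _, _⟩
    · rw [h3, h4]
    · rw [h1, h1]
  · by_cases hvy : v = y
    · subst hvy
      rcases hxy with ⟨_, _, h3, h4⟩ | ⟨_, h2, _, _⟩
      · rw [h4, h3]
      · rw [h2, h2]
    · have hv : m v = m' v := hrest v hvx hvy
      have hwx : m v ≠ x := by
        intro h
        have hv' : v = m x := by rw [← h, hm]
        rcases hxy with ⟨h1, _, _, _⟩ | ⟨_, _, h3, _⟩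
        · exact hvx (hv'.trans h1)
        · exact hvy (hv'.trans h3)
      have hwy : m v ≠ y := by
        intro h
        have hv' : v = m y := by rw [← h, hm]
        rcases hxy with ⟨_, h2, _, _⟩ | ⟨_, _, _, h4⟩
        · exact hvy (hv'.trans h2)
        · exact hvx (hv'.trans h4)
      rw [← hv, ← hrest (m v) hwx hwy, hm]

theorem kr_M0_val (hn : Even n) (u : Fin (n + 2)) :
    ((M0 n u : Fin (n + 2)) : ℕ) = if (u : ℕ) % 2 = 0 then (u : ℕ) + 1 else (u : ℕ) - 1 := by
  obtain ⟨k, hk⟩ := hn
  have hu := u.2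
  have h : (if (u : ℕ) % 2 = 0 then (u : ℕ) + 1 else (u : ℕ) - 1) < n + 2 := by
    split_ifs <;> omega
  unfold M0
  rw [dif_pos h]

theorem kr_M0_mem (hn : Even n) (H : ℕ) : M0 n ∈ FS n H := by
  have h1 : ∀ v, M0 n (M0 n v) = v := by
    intro v
    apply Fin.ext
    rw [kr_M0_val hn, kr_M0_val hn]
    split_ifs <;> omega
  have h2 : holes (M0 n) = ∅ := by
    rw [Finset.eq_empty_iff_forall_notMem]
    intro v hv
    have := mem_holes.1 hv
    have h3 := congrArg Fin.val this
    rw [kr_M0_val hn] at h3
    split_ifs at h3 <;> omega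
  simp only [FS, Finset.mem_filter, Finset.mem_univ, true_and]
  exact ⟨h1, by rw [h2]; simp⟩

theorem kr_sum_pos (p : Par) (b : Ext n) (hn : Even n) : 0 < ∑ x ∈ FS n p.H, wph p b x :=
  Finset.sum_pos (fun x _ => wph_pos p b x) ⟨M0 n, kr_M0_mem hn p.H⟩

theorem stepK_rev (p : Par) (b : Ext n) (hBn : n + 2 ≤ 2 ^ p.Bn) (hn : Even n) :
    RevChain (FS n p.H) (piS p b) (stepK p b (fw b (n + 2))) := by
  classical
  have hw0 : ∀ x ∈ FS n p.H, 0 ≤ wph p b x := fun x _ => (wph_pos p b x).le
  have hZ : 0 < ∑ x ∈ FS n p.H, wph p b x := kr_sum_pos p b hn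
  refine ⟨fun x hx => gibbs_off hw0 hZ hx, ?_, ?_, fun x _ => stepK_lazy p b _ x⟩
  · intro x hx y hy
    have hx' := hx
    simp only [FS, Finset.mem_filter, Finset.mem_univ, true_and] at hx'
    have hne : x ≠ y := fun h => hy (h ▸ hx)
    have hv := stepK_val p b hBn hx'.1 hne
    rw [if_neg] at hv
    · rcases (ENNReal.toReal_eq_zero_iff _).1 hv with h | h
      · exact h
      · exact absurd h (PMF.apply_ne_top _ _)
    · rintro ⟨h1, h2⟩
      apply hy
      simp only [FS, Finset.mem_filter, Finset.mem_univ, true_and]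
      exact ⟨kr_adj_invol hx'.1 h1, h2⟩
  · intro x hx y hy
    by_cases hne : x = y
    · rw [hne]
    · have hx' := hx
      have hy' := hy
      simp only [FS, Finset.mem_filter, Finset.mem_univ, true_and] at hx' hy'
      have hv := stepK_val p b hBn hx'.1 hne
      have hv' := stepK_val p b hBn hy'.1 (Ne.symm hne)
      have hkey : (piS p b x * stepK p b (fw b (n + 2)) x y).toReal =
          (piS p b y * stepK p b (fw b (n + 2)) y x).toReal := by
        rw [ENNReal.toReal_mul, ENNReal.toReal_mul, hv, hv']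
        unfold piS
        rw [gibbs_apply hw0 hZ hx, gibbs_apply hw0 hZ hy]
        by_cases ha : AdjM x y
        · rw [if_pos ⟨ha, hy'.2⟩, if_pos ⟨ha.symm, hx'.2⟩]
          have hxp := wph_pos p b x
          have hyp := wph_pos p b y
          have e1 : wph p b x * min 1 (wph p b y / wph p b x) = min (wph p b x) (wph p b y) := by
            rw [mul_min_of_nonneg _ _ hxp.le, mul_one, mul_div_cancel₀ _ hxp.ne']
          have e2 : wph p b y * min 1 (wph p b x / wph p b y) = min (wph p b x) (wph p b y) := by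
            rw [mul_min_of_nonneg _ _ hyp.le, mul_one, mul_div_cancel₀ _ hyp.ne', min_comm]
          calc wph p b x / (∑ z ∈ FS n p.H, wph p b z) *
                ((4 : ℝ)⁻¹ ^ p.Bn * min 1 (wph p b y / wph p b x))
              = (wph p b x * min 1 (wph p b y / wph p b x)) * (4 : ℝ)⁻¹ ^ p.Bn /
                (∑ z ∈ FS n p.H, wph p b z) := by ring
            _ = (wph p b y * min 1 (wph p b x / wph p b y)) * (4 : ℝ)⁻¹ ^ p.Bn /
                (∑ z ∈ FS n p.H, wph p b z) := by rw [e1, e2]
            _ = _ := by ring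
        · rw [if_neg (fun h => ha h.1), if_neg (fun h => ha h.1.symm), mul_zero, mul_zero]
      exact (ENNReal.toReal_eq_toReal_iff' (ENNReal.mul_ne_top (PMF.apply_ne_top _ _)
        (PMF.apply_ne_top _ _)) (ENNReal.mul_ne_top (PMF.apply_ne_top _ _)
        (PMF.apply_ne_top _ _))).1 hkey

end Vale.Agent.P308Q
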