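import Vale.Agent.P308Q.Case2

/-!
# The local inequality and the inductive step
-/

namespace Vale.Agent.P308Q

open Finset

variable {V : Type} [Fintype V] [DecidableEq V]

theorem LIP_sq (j : ℕ) (hj : 1 ≤ j) : (j - 1) ^ 2 ≤ j ^ 2 - 1 := by
  obtain ⟨i, rfl⟩ : ∃ i, j = i + 1 := ⟨j - 1, by omega⟩
  have : (i + 1) ^ 2 = i ^ 2 + 2 * i + 1 := by ring
  rw [this]
  simp only [Nat.add_sub_cancel]
  omega

/-- The local inequality for two neighbouring vertices `w, z` at level `t`. -/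
theorem lip (E : Exps V) {L K j t : ℕ} {R : ℝ} (hR : RBd E R)
    (IH : ∀ j' < j, CK E L R K j') (hj : 1 ≤ j) (ht : 1 ≤ t) {W : Finset V} {y w z : V}
    {c : V → V} (hyW : y ∉ W) (hzW : z ∉ W) (hwW : w ∉ W) (hzy : z ≠ y) (hwy : w ≠ y)
    (hwz : w ≠ z) (hl : (t : ℤ) ≤ E.l w z) (hs : t ≤ sim E L y z) (cc : ∀ v, c (c v) = v)
    (cW : ∀ v, c v ≠ v → v ∈ W) (cj : (mv c).card ≤ 2 * (j - 1)) (hK : W.card + 2 ≤ 2 * K) :
    rr E z * (HH E (insert w (insert y W)) * q2 ^ (SS E L c + 2 * t)) ≤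
      rr E w * (HH E (insert z (insert y W)) * q2 ^ (SS E L c + 2 * t)) +
      R ^ (W.card + 2 + 2 * K + 6 + (2 * K + 11) * (j ^ 2 - 1)) := by
  have hR1 : (1 : ℝ) ≤ R := by linarith [hR.two]
  have hR0 : (0 : ℝ) ≤ R := by linarith
  have hq0 : (0 : ℝ) ≤ q2 := q2_pos.le
  set U : Finset V := insert w (insert y W) with hU
  set U' : Finset V := insert z (insert y W) with hU'
  set Q : ℝ := q2 ^ (SS E L c + 2 * t) with hQ
  have hQ0 : 0 ≤ Q := pow_nonneg hq0 _
  have hUc : U.card = W.card + 2 := by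
    rw [hU, card_insert_of_notMem, card_insert_of_notMem hyW]
    simp [hwy, hwW]
  set B : ℕ := (2 * K + 11) * (j ^ 2 - 1) with hB
  set F : ℝ := 2 ^ (W.card + 4) * R ^ (W.card + 4 + B) with hF
  set T : ℝ := R ^ (2 * K + 2 + (W.card + 4 + B)) with hT
  have hT0 : 0 ≤ T := pow_nonneg hR0 _
  have hFT : F ≤ T := by
    rw [hF, hT, pow_add R (2 * K + 2)]
    refine mul_le_mul_of_nonneg_right ?_ (pow_nonneg hR0 _)
    calc (2 : ℝ) ^ (W.card + 4) ≤ R ^ (W.card + 4) := pow_le_pow_left₀ (by norm_num) hR.two _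
      _ ≤ R ^ (2 * K + 2) := pow_le_pow_right₀ hR1 (by omega)
  -- the term `p = w`
  have hw1 : HH E {z, w} * q2 ^ (2 * t) ≤ 1 := by
    have h1 := HH_add_edge' E (U := ∅) (u := z) (v := w) hwz.symm (by simp) (by simp) (t := t)
      (by rw [E.symm]; exact hl)
    rw [HH_empty E hR.even] at h1
    exact h1
  have hw2 : HH E U * q2 ^ (SS E L c) ≤ R ^ (U.card + (2 * K + 11) * (j - 1) ^ 2) := by
    refine IH (j - 1) (by omega) U c (by omega) cc (fun v hv => ?_) cj
    rw [hU]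
    exact mem_insert_of_mem (mem_insert_of_mem (cW v hv))
  have hw3 : HH E {z, w} * (HH E U * Q) ≤ T := by
    have h1 : HH E {z, w} * (HH E U * Q) =
        (HH E {z, w} * q2 ^ (2 * t)) * (HH E U * q2 ^ (SS E L c)) := by
      rw [hQ, pow_add]; ring
    rw [h1]
    have h2 : 0 ≤ HH E U * q2 ^ (SS E L c) := mul_nonneg (HH_nonneg E _) (pow_nonneg hq0 _)
    calc (HH E {z, w} * q2 ^ (2 * t)) * (HH E U * q2 ^ (SS E L c))
        ≤ 1 * (HH E U * q2 ^ (SS E L c)) := mul_le_mul_of_nonneg_right hw1 h2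
      _ = HH E U * q2 ^ (SS E L c) := one_mul _
      _ ≤ R ^ (U.card + (2 * K + 11) * (j - 1) ^ 2) := hw2
      _ ≤ T := by
        refine pow_le_pow_right₀ hR1 ?_
        have h3 : (2 * K + 11) * (j - 1) ^ 2 ≤ B := Nat.mul_le_mul_left _ (LIP_sq j hj)
        omega
  -- the other terms
  set P : Finset V := (univ.erase z).erase w with hP
  have hwP : w ∈ univ.erase z := by simp [hwz]
  have hz : rr E z = HH E {z, w} + ∑ p ∈ P, HH E {z, p} := by
    rw [rr, hP, ← add_sum_erase _ _ hwP]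
  have hw : ∑ p ∈ P, HH E {w, p} ≤ rr E w := by
    rw [rr]
    refine sum_le_sum_of_subset_of_nonneg ?_ (fun p _ _ => HH_nonneg E _)
    intro p hp
    rw [hP, mem_erase] at hp
    exact mem_erase.2 ⟨hp.1, mem_univ _⟩
  have hsum : ∑ p ∈ P, HH E {z, p} * (HH E U * Q) ≤
      ∑ p ∈ P, (HH E {w, p} * (HH E U' * Q) + F) := by
    refine sum_le_sum fun p hp => ?_
    rw [hP, mem_erase, mem_erase] at hp
    have h := term_le E hR IH (L := L) (K := K) (j := j) (t := t) (W := W) (y := y) (w := w)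
      (z := z) (p := p) (c := c)
      ⟨hj, ht, hyW, hzW, hwW, hzy, hwy, hwz, hp.2.1, hp.1, hl, hs, cc, cW, cj, hK⟩
    calc HH E {z, p} * (HH E U * Q) = HH E {z, p} * HH E U * Q := by ring
      _ ≤ HH E {w, p} * HH E U' * Q + F := h
      _ = HH E {w, p} * (HH E U' * Q) + F := by ring
  rw [sum_add_distrib, sum_const, nsmul_eq_mul, ← sum_mul, ← sum_mul] at hsum
  have hPc : (P.card : ℝ) + 1 ≤ R := by
    refine le_trans ?_ hR.card
    have h1 : P.card + 1 ≤ Fintype.card V := by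
      have h2 : P.card + 1 = (univ.erase z).card := by
        rw [hP]; exact card_erase_add_one hwP
      rw [h2]
      exact card_le_univ _
    exact_mod_cast h1
  have hUQ : 0 ≤ HH E U' * Q := mul_nonneg (HH_nonneg E _) hQ0
  have hfin : T + P.card * F ≤ R ^ (W.card + 2 + 2 * K + 6 + B) := by
    calc T + P.card * F ≤ T + P.card * T := by
          have : (P.card : ℝ) * F ≤ P.card * T := mul_le_mul_of_nonneg_left hFT (by positivity)
          linarith
      _ = (P.card + 1) * T := by ring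
      _ ≤ R * T := mul_le_mul_of_nonneg_right hPc hT0
      _ = R ^ (1 + (2 * K + 2 + (W.card + 4 + B))) := by rw [hT, pow_add R 1, pow_one]
      _ ≤ R ^ (W.card + 2 + 2 * K + 6 + B) := pow_le_pow_right₀ hR1 (by omega)
  calc rr E z * (HH E U * Q)
      = HH E {z, w} * (HH E U * Q) + (∑ p ∈ P, HH E {z, p}) * (HH E U * Q) := by rw [hz]; ring
    _ ≤ T + ((∑ p ∈ P, HH E {w, p}) * (HH E U' * Q) + P.card * F) := add_le_add hw3 hsum
    _ ≤ T + (rr E w * (HH E U' * Q) + P.card * F) := by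
        have := mul_le_mul_of_nonneg_right hw hUQ
        linarith
    _ ≤ rr E w * (HH E U' * Q) + R ^ (W.card + 2 + 2 * K + 6 + B) := by linarith

omit [Fintype V] [DecidableEq V] in
theorem ALONG_reach (E : Exps V) {t n : ℕ} {g : ℕ → V}
    (hl : ∀ i < n, (t : ℤ) ≤ E.l (g i) (g (i + 1))) (hne : ∀ i < n, g i ≠ g (i + 1)) :
    ∀ i ≤ n, (GG E t).Reachable (g i) (g n) := by
  intro i hi
  induction hk : n - i generalizing i with
  | zero =>
    have : i = n := by omega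
    rw [this]
  | succ k ih =>
    have h1 : i < n := by omega
    have h2 : (GG E t).Adj (g i) (g (i + 1)) := ⟨hne i h1, hl i h1⟩
    exact h2.reachable.trans (ih (i + 1) (by omega) (by omega))

/-- The telescoping sum along a path at level `t` from `x` to `y`. -/
theorem along_path (E : Exps V) {L K j t : ℕ} {R : ℝ} (hR : RBd E R)
    (IH : ∀ j' < j, CK E L R K j') (hj : 1 ≤ j) (ht : 1 ≤ t) (htL : t ≤ L) {W : Finset V}
    {y : V} {c : V → V} (hyW : y ∉ W) (cc : ∀ v, c (c v) = v)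
    (cW : ∀ v, c v ≠ v → v ∈ W) (cj : (mv c).card ≤ 2 * (j - 1)) (hK : W.card + 2 ≤ 2 * K)
    (n : ℕ) (g : ℕ → V) (hn : 1 ≤ n) (hnc : n < Fintype.card V) (hgn : g n = y)
    (hgW : ∀ i < n, g i ∉ W) (hgy : ∀ i < n, g i ≠ y)
    (hl : ∀ i < n, (t : ℤ) ≤ E.l (g i) (g (i + 1))) (hne : ∀ i < n, g i ≠ g (i + 1)) :
    HH E (insert (g 0) (insert y W)) * q2 ^ (SS E L c + 2 * t) ≤
      R ^ (W.card + 2 + (2 * K + 11) * j ^ 2) := by
  have hR1 : (1 : ℝ) ≤ R := by linarith [hR.two]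
  have hR0 : (0 : ℝ) < R := by linarith
  have hq0 : (0 : ℝ) ≤ q2 := q2_pos.le
  set Q : ℝ := q2 ^ (SS E L c + 2 * t) with hQ
  have hQ0 : 0 ≤ Q := pow_nonneg hq0 _
  set B : ℕ := (2 * K + 11) * (j ^ 2 - 1) with hB
  set Er : ℝ := R ^ (W.card + 2 + 2 * K + 6 + B) with hEr
  have hEr0 : 0 ≤ Er := pow_nonneg hR0.le _
  set φ : ℕ → ℝ := fun i => HH E (insert (g i) (insert y W)) * Q with hφ
  have hφ0 : ∀ i, 0 ≤ φ i := fun i => mul_nonneg (HH_nonneg E _) hQ0
  have hrpos : ∀ v, 0 < rr E v := fun v => lt_of_lt_of_le (by positivity) (hR.lo v)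
  have hrinv : ∀ v, 1 / rr E v ≤ R := by
    intro v
    rw [div_le_iff₀ (hrpos v)]
    have h1 := hR.lo v
    rw [div_le_iff₀ hR0] at h1
    linarith
  -- the last vertex
  have hlast : φ (n - 1) ≤ R ^ (W.card + (2 * K + 11) * (j - 1) ^ 2) := by
    have h1 : (t : ℤ) ≤ E.l (g (n - 1)) y := by
      have h2 := hl (n - 1) (by omega)
      rwa [Nat.sub_add_cancel hn, hgn] at h2
    have h3 := HH_add_edge' E (U := W) (u := g (n - 1)) (v := y) (hgy _ (by omega))
      (hgW _ (by omega)) hyW h1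
    have h4 : HH E W * q2 ^ (SS E L c) ≤ R ^ (W.card + (2 * K + 11) * (j - 1) ^ 2) :=
      IH (j - 1) (by omega) W c (by omega) cc cW cj
    calc φ (n - 1) = (HH E (insert (g (n - 1)) (insert y W)) * q2 ^ (2 * t)) *
          q2 ^ (SS E L c) := by
          simp only [hφ, hQ, pow_add]; ring
      _ ≤ HH E W * q2 ^ (SS E L c) := mul_le_mul_of_nonneg_right h3 (pow_nonneg hq0 _)
      _ ≤ _ := h4
  -- one step
  have hstep : ∀ i, i + 1 < n →
      φ i / rr E (g i) ≤ φ (i + 1) / rr E (g (i + 1)) + R ^ 2 * Er := by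
    intro i hi
    have hs : t ≤ sim E L y (g (i + 1)) := by
      rw [le_sim_iff E L (hgy _ hi).symm ht]
      refine ⟨htL, ?_⟩
      have h1 := ALONG_reach E hl hne (i + 1) (by omega)
      rw [hgn] at h1
      exact h1.symm
    have h := lip E hR IH (L := L) (K := K) (j := j) (t := t) (W := W) (y := y) (w := g i)
      (z := g (i + 1)) (c := c) hj ht hyW (hgW _ hi) (hgW _ (by omega)) (hgy _ hi)
      (hgy _ (by omega)) (hne i (by omega)) (hl i (by omega)) hs cc cW cj hK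
    have ha := hrpos (g i)
    have hb := hrpos (g (i + 1))
    have h1 : rr E (g (i + 1)) * φ i ≤ rr E (g i) * φ (i + 1) + Er := h
    have h2 : φ i / rr E (g i) = (rr E (g (i + 1)) * φ i) / (rr E (g i) * rr E (g (i + 1))) := by
      field_simp
    have h3 : (rr E (g i) * φ (i + 1) + Er) / (rr E (g i) * rr E (g (i + 1))) =
        φ (i + 1) / rr E (g (i + 1)) + (1 / rr E (g i)) * (1 / rr E (g (i + 1))) * Er := by
      field_simp
    have h4 : (1 / rr E (g i)) * (1 / rr E (g (i + 1))) ≤ R ^ 2 := by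
      rw [pow_two]
      exact mul_le_mul (hrinv _) (hrinv _) (by positivity) hR0.le
    calc φ i / rr E (g i) = (rr E (g (i + 1)) * φ i) / (rr E (g i) * rr E (g (i + 1))) := h2
      _ ≤ (rr E (g i) * φ (i + 1) + Er) / (rr E (g i) * rr E (g (i + 1))) :=
          div_le_div_of_nonneg_right h1 (by positivity)
      _ = φ (i + 1) / rr E (g (i + 1)) + (1 / rr E (g i)) * (1 / rr E (g (i + 1))) * Er := h3
      _ ≤ φ (i + 1) / rr E (g (i + 1)) + R ^ 2 * Er := by
          have := mul_le_mul_of_nonneg_right h4 hEr0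
          linarith
  -- the telescoping sum
  have htel : ∀ k, k ≤ n - 1 →
      φ (n - 1 - k) / rr E (g (n - 1 - k)) ≤ φ (n - 1) / rr E (g (n - 1)) + k * (R ^ 2 * Er) := by
    intro k
    induction k with
    | zero => intro _; simp
    | succ k ih =>
      intro hk
      have h1 := ih (by omega)
      have h2 := hstep (n - 1 - (k + 1)) (by omega)
      rw [show n - 1 - (k + 1) + 1 = n - 1 - k by omega] at h2
      push_cast
      linarith
  have h0 := htel (n - 1) le_rfl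
  rw [Nat.sub_self] at h0
  set D : ℝ := R ^ (3 + (W.card + 2 + 2 * K + 6 + B)) with hD
  have hD0 : 0 ≤ D := pow_nonneg hR0.le _
  have h1 : φ 0 ≤ R * (φ (n - 1) * R + (n - 1 : ℕ) * (R ^ 2 * Er)) := by
    have h2 : φ 0 = rr E (g 0) * (φ 0 / rr E (g 0)) := by
      rw [mul_div_cancel₀ _ (hrpos (g 0)).ne']
    rw [h2]
    have h3 : φ (n - 1) / rr E (g (n - 1)) ≤ φ (n - 1) * R := by
      rw [div_eq_mul_one_div]
      exact mul_le_mul_of_nonneg_left (hrinv _) (hφ0 _)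
    refine mul_le_mul (hR.up _) (by linarith) (div_nonneg (hφ0 _) (hrpos _).le) hR0.le
  have h2 : R * (φ (n - 1) * R) ≤ D := by
    calc R * (φ (n - 1) * R) = R ^ 2 * φ (n - 1) := by ring
      _ ≤ R ^ 2 * R ^ (W.card + (2 * K + 11) * (j - 1) ^ 2) :=
          mul_le_mul_of_nonneg_left hlast (by positivity)
      _ = R ^ (2 + (W.card + (2 * K + 11) * (j - 1) ^ 2)) := by rw [pow_add R 2]
      _ ≤ D := by
        refine pow_le_pow_right₀ hR1 ?_
        have h3 : (2 * K + 11) * (j - 1) ^ 2 ≤ B := Nat.mul_le_mul_left _ (LIP_sq j hj)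
        omega
  have h3 : R * ((n - 1 : ℕ) * (R ^ 2 * Er)) = (n - 1 : ℕ) * D := by
    rw [hD, pow_add R 3, ← hEr]; ring
  have h4 : ((n - 1 : ℕ) : ℝ) + 1 ≤ R := by
    refine le_trans ?_ hR.card
    have : n - 1 + 1 ≤ Fintype.card V := by omega
    exact_mod_cast this
  have hexp : 1 + (3 + (W.card + 2 + 2 * K + 6 + B)) ≤ W.card + 2 + (2 * K + 11) * j ^ 2 := by
    have h5 : (2 * K + 11) * j ^ 2 = B + (2 * K + 11) := by
      rw [hB, ← Nat.mul_succ]
      congr 1
      have : 1 ≤ j ^ 2 := Nat.one_le_pow _ _ hj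
      omega
    omega
  calc HH E (insert (g 0) (insert y W)) * Q = φ 0 := rfl
    _ ≤ R * (φ (n - 1) * R + (n - 1 : ℕ) * (R ^ 2 * Er)) := h1
    _ = R * (φ (n - 1) * R) + R * ((n - 1 : ℕ) * (R ^ 2 * Er)) := by ring
    _ ≤ D + (n - 1 : ℕ) * D := by rw [h3]; linarith
    _ = ((n - 1 : ℕ) + 1) * D := by ring
    _ ≤ R * D := mul_le_mul_of_nonneg_right h4 hD0
    _ = R ^ (1 + (3 + (W.card + 2 + 2 * K + 6 + B))) := by rw [hD, pow_add R 1, pow_one]
    _ ≤ R ^ (W.card + 2 + (2 * K + 11) * j ^ 2) := pow_le_pow_right₀ hR1 hexp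

end Vale.Agent.P308Q
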