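import Vale.Agent.P308Q.Num
import Vale.Agent.P308RAM.Bridge

/-!
# The native algorithm is a quasi-polynomial approximation scheme
-/

namespace Vale.Agent.P308Q

theorem nativeOK : P308RAM.NativeOK (fun n G a b => lawX 2600 100 6000 500 50 12 n G a b) := by
  intro n G a b ha hb
  exact main_right ha hb (numOK ha hb) G

end Vale.Agent.P308Q
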