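import Vale.Agent.P308Q.Num2

/-!
# The parameters
-/

namespace Vale.Agent.P308Q

variable {n : ℕ}

/-- facts on `X = n + a + size b + 2` -/
theorem num1_X {n a b : ℕ} (ha : 1 ≤ a) (hb : 1 ≤ b) {X : ℕ} (hX : X = n + a + Nat.size b + 2) :
    n + a + 3 ≤ X ∧ 4 ≤ X ∧ b ≤ 2 ^ X := by
  have h1 : 1 ≤ Nat.size b := by
    have : 0 < Nat.size b := by
      rw [Nat.lt_size]
      simpa using hb
    omega
  refine ⟨by omega, by omega, ?_⟩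
  have h2 : b < 2 ^ Nat.size b := Nat.lt_size_self b
  have h3 : 2 ^ Nat.size b ≤ 2 ^ X := Nat.pow_le_pow_right (by norm_num) (by omega)
  omega

theorem num1_hL {n a : ℕ} {X : ℕ} (hX : n + a + 3 ≤ X) (ha : 1 ≤ a) :
    ((n : ℝ) + 1) ^ (n + 1) * (2 : ℝ)⁻¹ ^ (X ^ 3) ≤ 1 / (16 * a) := by
  have h1 : ((n : ℝ) + 1) ≤ 2 ^ n := by exact_mod_cast Nat.lt_two_pow_self
  have h2 : (16 * (a : ℝ)) ≤ 2 ^ (4 + a) := by
    rw [pow_add]
    have : (a : ℝ) ≤ 2 ^ a := by exact_mod_cast Nat.lt_two_pow_self.le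
    norm_num
    linarith
  have h3 : n * (n + 1) + (4 + a) ≤ X ^ 3 := by
    have e1 : (n + a + 3) ^ 3 ≤ X ^ 3 := Nat.pow_le_pow_left hX 3
    nlinarith [Nat.zero_le n, Nat.zero_le a, Nat.zero_le (n * a), Nat.zero_le (n ^ 2), Nat.zero_le (n ^ 3),
      Nat.zero_le (a ^ 2), Nat.zero_le (a ^ 3), Nat.zero_le (n ^ 2 * a), Nat.zero_le (n * a ^ 2)]
  have ha' : (0 : ℝ) < 16 * a := by
    have : (1 : ℝ) ≤ a := by exact_mod_cast ha
    linarith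
  rw [le_div_iff₀ ha', inv_pow, mul_assoc, ← div_eq_inv_mul, mul_div_assoc', div_le_one (by positivity)]
  calc ((n : ℝ) + 1) ^ (n + 1) * (16 * a) ≤ (2 ^ n) ^ (n + 1) * 2 ^ (4 + a) := by
        refine mul_le_mul (pow_le_pow_left₀ (by positivity) h1 _) h2 ha'.le (by positivity)
    _ = 2 ^ (n * (n + 1) + (4 + a)) := by rw [← pow_mul, ← pow_add]
    _ ≤ 2 ^ X ^ 3 := pow_le_pow_right₀ (by norm_num) h3

theorem num1_hR {n : ℕ} {X : ℕ} (hX : n + 4 ≤ X) :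
    ((X : ℝ) ^ 3) * n ^ 2 + 12 * (4 * n + 2 * n * ((X : ℝ) ^ 3 * n ^ 2) + n ^ 2 * (X : ℝ) ^ 3 + n ^ 3) <
      (X : ℝ) ^ 12 := by
  have hn : (n : ℝ) ≤ X := by exact_mod_cast (by omega : n ≤ X)
  have hn0 : (0 : ℝ) ≤ n := Nat.cast_nonneg n
  have hX4 : (4 : ℝ) ≤ X := by exact_mod_cast (by omega : 4 ≤ X)
  have hX0 : (0 : ℝ) ≤ X := by linarith
  have hX1 : (1 : ℝ) ≤ X := by linarith
  have p2 : (n : ℝ) ^ 2 ≤ X ^ 2 := pow_le_pow_left₀ hn0 hn 2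
  have p3 : (n : ℝ) ^ 3 ≤ X ^ 3 := pow_le_pow_left₀ hn0 hn 3
  have q1 : (X : ℝ) ≤ X ^ 6 := by
    simpa using pow_le_pow_right₀ hX1 (show 1 ≤ 6 by norm_num)
  have q3 : (X : ℝ) ^ 3 ≤ X ^ 6 := pow_le_pow_right₀ hX1 (by norm_num)
  have q5 : (X : ℝ) ^ 5 ≤ X ^ 6 := pow_le_pow_right₀ hX1 (by norm_num)
  have t1 : (X : ℝ) ^ 3 * n ^ 2 ≤ X ^ 5 := by
    calc (X : ℝ) ^ 3 * n ^ 2 ≤ X ^ 3 * X ^ 2 := mul_le_mul_of_nonneg_left p2 (by positivity)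
      _ = X ^ 5 := by ring
  have t2 : (n : ℝ) * ((X : ℝ) ^ 3 * n ^ 2) ≤ X ^ 6 := by
    calc (n : ℝ) * ((X : ℝ) ^ 3 * n ^ 2) ≤ X * X ^ 5 := mul_le_mul hn t1 (by positivity) hX0
      _ = X ^ 6 := by ring
  have t3 : (n : ℝ) ^ 2 * (X : ℝ) ^ 3 ≤ X ^ 5 := by rw [mul_comm]; exact t1
  have h6 : (4096 : ℝ) ≤ X ^ 6 := by
    calc (4096 : ℝ) = 4 ^ 6 := by norm_num
      _ ≤ X ^ 6 := pow_le_pow_left₀ (by norm_num) hX4 6
  have h12 : (X : ℝ) ^ 12 = X ^ 6 * X ^ 6 := by ring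
  rw [h12]
  nlinarith

theorem num1_hSb {n a b : ℕ} (ha : 1 ≤ a) (hb : 1 ≤ b) {X : ℕ} (hX : n + a + 3 ≤ X) (hbX : b ≤ 2 ^ X)
    {τ : ℝ} (hτ : τ = 1 / (8 * a * ((X : ℝ) ^ 3 * n ^ 2 + 1)) / (20 * (1 + 8 * n))) :
    (X : ℝ) ^ 12 * (2 * (n + 3) * Real.exp (-((X : ℝ) ^ 50 * (τ / 2) ^ 2 / 4))) ≤ 1 / b := by
  have hn : (n : ℝ) + 4 ≤ X := by exact_mod_cast (by omega : n + 4 ≤ X)
  have hn0 : (0 : ℝ) ≤ n := Nat.cast_nonneg n
  have haX : (a : ℝ) ≤ X := by exact_mod_cast (by omega : a ≤ X)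
  have ha1 : (1 : ℝ) ≤ a := by exact_mod_cast ha
  have hX4 : (4 : ℝ) ≤ X := by linarith
  have hX0 : (0 : ℝ) < X := by linarith
  have hX1 : (1 : ℝ) ≤ X := by linarith
  have hb1 : (0 : ℝ) < b := by exact_mod_cast hb
  -- `1 / τ ≤ X ^ 13`
  have hinv : 8 * (a : ℝ) * ((X : ℝ) ^ 3 * n ^ 2 + 1) * (20 * (1 + 8 * n)) ≤ (X : ℝ) ^ 13 := by
    have u1 : (X : ℝ) ^ 3 * n ^ 2 + 1 ≤ (X : ℝ) ^ 5 := by
      have e1 : (n : ℝ) ^ 2 ≤ (X : ℝ) ^ 2 - 1 := by nlinarith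
      have e2 : (1 : ℝ) ≤ X ^ 3 := one_le_pow₀ hX1
      calc (X : ℝ) ^ 3 * n ^ 2 + 1 ≤ (X : ℝ) ^ 3 * ((X : ℝ) ^ 2 - 1) + 1 := by
            have := mul_le_mul_of_nonneg_left e1 (show (0 : ℝ) ≤ X ^ 3 by positivity)
            linarith
        _ ≤ (X : ℝ) ^ 5 := by nlinarith
    have u2 : 1 + 8 * (n : ℝ) ≤ 8 * X := by linarith
    have u3 : 8 * (a : ℝ) ≤ 8 * X := by linarith
    have u4 : (4096 : ℝ) ≤ X ^ 6 := by
      calc (4096 : ℝ) = 4 ^ 6 := by norm_num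
        _ ≤ X ^ 6 := pow_le_pow_left₀ (by norm_num) hX4 6
    calc 8 * (a : ℝ) * ((X : ℝ) ^ 3 * n ^ 2 + 1) * (20 * (1 + 8 * n))
        ≤ (8 * (X : ℝ)) * (X : ℝ) ^ 5 * (20 * (8 * (X : ℝ))) := by
          refine mul_le_mul (mul_le_mul u3 u1 (by positivity) (by positivity))
            (by linarith) (by positivity) (by positivity)
      _ = 1280 * (X : ℝ) ^ 7 := by ring
      _ ≤ (X : ℝ) ^ 6 * (X : ℝ) ^ 7 := mul_le_mul_of_nonneg_right (by linarith) (by positivity)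
      _ = (X : ℝ) ^ 13 := by ring
  have hD : 0 < 8 * (a : ℝ) * ((X : ℝ) ^ 3 * n ^ 2 + 1) * (20 * (1 + 8 * n)) := by positivity
  have hτ' : τ = 1 / (8 * (a : ℝ) * ((X : ℝ) ^ 3 * n ^ 2 + 1) * (20 * (1 + 8 * n))) := by
    rw [hτ, div_div]
  have hτX : 1 / (X : ℝ) ^ 13 ≤ τ := by
    rw [hτ']
    exact one_div_le_one_div_of_le hD hinv
  have hτ0 : 0 < τ := lt_of_lt_of_le (by positivity) hτX
  -- the exponent
  have hexp : (X : ℝ) ^ 22 ≤ (X : ℝ) ^ 50 * (τ / 2) ^ 2 / 4 := by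
    have e1 : (1 / (X : ℝ) ^ 13) ^ 2 ≤ τ ^ 2 := pow_le_pow_left₀ (by positivity) hτX 2
    have e2 : (X : ℝ) ^ 50 * (1 / (X : ℝ) ^ 13) ^ 2 = X ^ 24 := by
      field_simp
    have e3 : (X : ℝ) ^ 24 ≤ (X : ℝ) ^ 50 * τ ^ 2 := by
      rw [← e2]
      exact mul_le_mul_of_nonneg_left e1 (by positivity)
    have e4 : (X : ℝ) ^ 24 = X ^ 2 * X ^ 22 := by ring
    have e5 : (16 : ℝ) ≤ X ^ 2 := by nlinarith
    have e6 : 16 * (X : ℝ) ^ 22 ≤ X ^ 24 := by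
      rw [e4]
      exact mul_le_mul_of_nonneg_right e5 (by positivity)
    have e7 : (X : ℝ) ^ 50 * (τ / 2) ^ 2 / 4 = (X : ℝ) ^ 50 * τ ^ 2 / 16 := by ring
    rw [e7]
    linarith
  have hE : Real.exp (-((X : ℝ) ^ 50 * (τ / 2) ^ 2 / 4)) ≤ Real.exp (-(X : ℝ) ^ 22) :=
    Real.exp_le_exp.2 (by linarith)
  -- the factor
  have hXe : (X : ℝ) ≤ Real.exp X := by
    have := Real.add_one_le_exp (X : ℝ)
    linarith
  have h2e : (2 : ℝ) ≤ Real.exp 1 := by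
    have := Real.add_one_le_exp (1 : ℝ)
    linarith
  have hfac : (X : ℝ) ^ 12 * (2 * (n + 3)) * b ≤ Real.exp (15 * X) := by
    have f1 : (b : ℝ) ≤ Real.exp X := by
      calc (b : ℝ) ≤ 2 ^ X := by exact_mod_cast hbX
        _ ≤ Real.exp 1 ^ X := pow_le_pow_left₀ (by norm_num) h2e X
        _ = Real.exp X := by rw [← Real.exp_nat_mul, mul_one]
    have f2 : 2 * ((n : ℝ) + 3) ≤ Real.exp X * Real.exp X := by nlinarith [Real.exp_pos (X : ℝ)]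
    have f3 : (X : ℝ) ^ 12 ≤ Real.exp X ^ 12 := pow_le_pow_left₀ hX0.le hXe 12
    calc (X : ℝ) ^ 12 * (2 * (n + 3)) * b ≤ Real.exp X ^ 12 * (Real.exp X * Real.exp X) * Real.exp X := by
          refine mul_le_mul (mul_le_mul f3 f2 (by positivity) (by positivity)) f1 hb1.le (by positivity)
      _ = Real.exp X ^ 15 := by ring
      _ = Real.exp (15 * X) := by rw [← Real.exp_nat_mul]; norm_num
  have h22 : 15 * (X : ℝ) ≤ X ^ 22 := by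
    have g1 : (16 : ℝ) ≤ X ^ 21 := by
      calc (16 : ℝ) = 4 ^ 2 := by norm_num
        _ ≤ X ^ 2 := pow_le_pow_left₀ (by norm_num) hX4 2
        _ ≤ X ^ 21 := pow_le_pow_right₀ hX1 (by norm_num)
    have g2 : (X : ℝ) ^ 22 = X ^ 21 * X := by ring
    rw [g2]
    nlinarith
  rw [le_div_iff₀ hb1]
  calc (X : ℝ) ^ 12 * (2 * (n + 3) * Real.exp (-((X : ℝ) ^ 50 * (τ / 2) ^ 2 / 4))) * b
      = (X : ℝ) ^ 12 * (2 * (n + 3)) * b * Real.exp (-((X : ℝ) ^ 50 * (τ / 2) ^ 2 / 4)) := by ring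
    _ ≤ Real.exp (15 * X) * Real.exp (-(X : ℝ) ^ 22) :=
        mul_le_mul hfac hE (Real.exp_pos _).le (Real.exp_pos _).le
    _ = Real.exp (15 * X + -(X : ℝ) ^ 22) := by rw [Real.exp_add]
    _ ≤ Real.exp 0 := Real.exp_le_exp.2 (by linarith)
    _ = 1 := Real.exp_zero

theorem num1_hup {N a : ℕ} (ha : 1 ≤ a) {θ : ℝ} (hθ : θ = 1 / (8 * a * ((N : ℝ) + 1))) :
    (1 + θ) ^ N ≤ 1 + 1 / (4 * a) := by
  have ha1 : (1 : ℝ) ≤ a := by exact_mod_cast ha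
  have hN0 : (0 : ℝ) ≤ N := Nat.cast_nonneg N
  have hθ0 : 0 < θ := by rw [hθ]; positivity
  have h1 : (1 + θ) ^ N ≤ Real.exp (N * θ) := by
    rw [Real.exp_nat_mul]
    refine pow_le_pow_left₀ (by linarith) ?_ N
    have := Real.add_one_le_exp θ
    linarith
  have h2 : (N : ℝ) * θ ≤ 1 / (8 * a) := by
    rw [hθ, mul_one_div, div_le_div_iff₀ (by positivity) (by positivity)]
    nlinarith
  have h3 : 1 / (8 * (a : ℝ)) ≤ 1 / 8 := by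
    rw [div_le_div_iff₀ (by positivity) (by norm_num)]
    linarith
  have h0 : (0 : ℝ) ≤ 1 / (8 * (a : ℝ)) := by positivity
  have h4 : Real.exp (1 / (8 * (a : ℝ))) ≤ 1 + 2 * (1 / (8 * (a : ℝ))) := by
    have := Real.abs_exp_sub_one_le (x := 1 / (8 * (a : ℝ))) (by rw [abs_of_nonneg h0]; linarith)
    rw [abs_of_nonneg h0] at this
    have := (abs_le.1 this).2
    linarith
  calc (1 + θ) ^ N ≤ Real.exp (N * θ) := h1
    _ ≤ Real.exp (1 / (8 * a)) := Real.exp_le_exp.2 h2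
    _ ≤ 1 + 2 * (1 / (8 * (a : ℝ))) := h4
    _ = 1 + 1 / (4 * a) := by field_simp; ring

theorem num1_hdn {N a : ℕ} (ha : 1 ≤ a) {θ : ℝ} (hθ : θ = 1 / (8 * a * ((N : ℝ) + 1))) :
    1 - 1 / (4 * (a : ℝ)) ≤ (1 - θ) ^ N := by
  have ha1 : (1 : ℝ) ≤ a := by exact_mod_cast ha
  have hN0 : (0 : ℝ) ≤ N := Nat.cast_nonneg N
  have hθ0 : 0 < θ := by rw [hθ]; positivity
  have hθ1 : θ ≤ 1 := by
    rw [hθ, div_le_one (by positivity)]
    nlinarith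
  have h1 := one_add_mul_le_pow (a := -θ) (by linarith) N
  have h2 : (N : ℝ) * θ ≤ 1 / (8 * a) := by
    rw [hθ, mul_one_div, div_le_div_iff₀ (by positivity) (by positivity)]
    nlinarith
  have h3 : 1 / (8 * (a : ℝ)) ≤ 1 / (4 * a) := by
    rw [div_le_div_iff₀ (by positivity) (by positivity)]
    linarith
  have h4 : (1 - θ) ^ N = (1 + -θ) ^ N := by rw [sub_eq_add_neg]
  rw [h4]
  linarith

theorem num1_th {n a b X : ℕ} (hX : X = n + a + Nat.size b + 2) :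
    thN n a b = 1 / (8 * a * ((X : ℝ) ^ 3 * n ^ 2 + 1)) := by
  unfold thN
  rw [hX]

theorem num1_th2 {n a b X : ℕ} (hX : X = n + a + Nat.size b + 2) :
    thN n a b = 1 / (8 * a * (((X ^ 3 * (n * n) : ℕ) : ℝ) + 1)) := by
  rw [num1_th hX]
  push_cast
  ring_nf

theorem num1_ta {n a b X : ℕ} (hX : X = n + a + Nat.size b + 2) :
    taN n a b = 1 / (8 * a * ((X : ℝ) ^ 3 * n ^ 2 + 1)) / (20 * (1 + 8 * n)) := by
  unfold taN
  rw [num1_th hX]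

theorem num1_th_pos {n a b : ℕ} (ha : 1 ≤ a) : 0 < thN n a b := by
  rw [num1_th rfl]
  have ha1 : (1 : ℝ) ≤ a := by exact_mod_cast ha
  positivity

theorem num1_ta_pos {n a b : ℕ} (ha : 1 ≤ a) : 0 < taN n a b := by
  unfold taN
  have := num1_th_pos (n := n) (b := b) ha
  positivity

theorem num1_th_le {n a b : ℕ} (ha : 1 ≤ a) : thN n a b ≤ 1 / 2 := by
  rw [num1_th rfl]
  have ha1 : (1 : ℝ) ≤ a := by exact_mod_cast ha
  generalize n + a + Nat.size b + 2 = X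
  have hX0 : (0 : ℝ) ≤ (X : ℝ) ^ 3 * n ^ 2 := by positivity
  rw [div_le_div_iff₀ (by positivity) (by norm_num)]
  nlinarith

theorem num1_pL (n a b : ℕ) : (parOf 2600 100 6000 500 50 12 n a b).L = (n + a + Nat.size b + 2) ^ 3 := rfl
theorem num1_pR (n a b : ℕ) : (parOf 2600 100 6000 500 50 12 n a b).R = (n + a + Nat.size b + 2) ^ 12 := rfl
theorem num1_pS (n a b : ℕ) : (parOf 2600 100 6000 500 50 12 n a b).S = (n + a + Nat.size b + 2) ^ 50 := rfl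
theorem num1_pB (n a b : ℕ) :
    (parOf 2600 100 6000 500 50 12 n a b).B = 2 * (n + a + Nat.size b + 2) ^ 12 := rfl

/-- **The parameters are right.** -/
theorem numOK {n a b : ℕ} (ha : 1 ≤ a) (hb : 1 ≤ b) :
    NumOK (parOf 2600 100 6000 500 50 12 n a b) n a b (thN n a b) (taN n a b) := by
  have f1 : n + 2 ≤ 2 ^ (parOf 2600 100 6000 500 50 12 n a b).Bn := (Nat.lt_size_self (n + 2)).le
  have f2 : (parOf 2600 100 6000 500 50 12 n a b).H = 2 * KK (n + 2) := by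
    show 12 * Nat.size (n + 2) = 2 * KK (n + 2)
    rw [num1_KK]
    omega
  have f3 : (1 + thN n a b) ^ ((parOf 2600 100 6000 500 50 12 n a b).L * (n * n)) ≤ 1 + 1 / (4 * a) := by
    rw [num1_pL]
    exact num1_hup ha (num1_th2 rfl)
  have f4 : 1 - 1 / (4 * (a : ℝ)) ≤
      (1 - thN n a b) ^ ((parOf 2600 100 6000 500 50 12 n a b).L * (n * n)) := by
    rw [num1_pL]
    exact num1_hdn ha (num1_th2 rfl)
  have f5 : ((n : ℝ) + 1) ^ (n + 1) * (2 : ℝ)⁻¹ ^ (parOf 2600 100 6000 500 50 12 n a b).L ≤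
      1 / (16 * a) := by
    rw [num1_pL]
    exact num1_hL (num1_X ha hb rfl).1 ha
  have f6 : ((parOf 2600 100 6000 500 50 12 n a b).L : ℝ) * n ^ 2 +
      12 * (4 * n + 2 * n * ((parOf 2600 100 6000 500 50 12 n a b).L * n ^ 2) +
        n ^ 2 * (parOf 2600 100 6000 500 50 12 n a b).L + n ^ 3) <
      (parOf 2600 100 6000 500 50 12 n a b).R := by
    rw [num1_pL, num1_pR, Nat.cast_pow, Nat.cast_pow]
    exact num1_hR (by have := (num1_X (n := n) ha hb rfl).1; omega)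
  have f7 : 2 * (parOf 2600 100 6000 500 50 12 n a b).R ≤ (parOf 2600 100 6000 500 50 12 n a b).B := by
    rw [num1_pR, num1_pB]
  have f8 : 0 < (parOf 2600 100 6000 500 50 12 n a b).S := by
    rw [num1_pS]
    exact Nat.pow_pos (by omega)
  have f9 : (parOf 2600 100 6000 500 50 12 n a b).R * (2 * (n + 3) *
      Real.exp (-((parOf 2600 100 6000 500 50 12 n a b).S * (taN n a b / 2) ^ 2 / 4))) ≤ 1 / b := by
    rw [num1_pR, num1_pS, Nat.cast_pow, Nat.cast_pow]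
    exact num1_hSb ha hb (num1_X ha hb rfl).1 (num1_X (n := n) ha hb rfl).2.2 (num1_ta rfl)
  exact ⟨f1, f2, num_heta ha hb, num1_th_pos ha, num1_th_le ha, num1_ta_pos ha, le_refl _,
    num_heps ha hb, f3, f4, f5, f6, f7, f8, f9⟩

end Vale.Agent.P308Q
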