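import Vale.Agent.P308Q.Inv

/-!
# The parameters: definitions and the size of `ρ`
-/

namespace Vale.Agent.P308Q

variable {n : ℕ}

/-- relative error of one ratio -/
noncomputable def thN (n a b : ℕ) : ℝ :=
  1 / (8 * a * ((n + a + Nat.size b + 2 : ℕ) ^ 3 * n ^ 2 + 1))

/-- error of the frequencies -/
noncomputable def taN (n a b : ℕ) : ℝ := thN n a b / (20 * (1 + 8 * n))

theorem num1_size (m : ℕ) (hm : m ≠ 0) : Nat.size m = Nat.log 2 m + 1 := by
  refine le_antisymm ?_ ?_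
  · rw [Nat.size_le]
    exact Nat.lt_pow_succ_log_self (by norm_num) m
  · have : Nat.log 2 m < Nat.size m := by
      rw [Nat.lt_size]
      exact Nat.pow_log_le_self 2 hm
    omega

theorem num1_KK (n : ℕ) : KK (n + 2) = 6 * Nat.size (n + 2) := by
  unfold KK
  rw [num1_size _ (by omega)]
  ring

theorem num1_two_le (n : ℕ) : 2 ≤ Nat.size (n + 2) := by
  have : 1 < Nat.size (n + 2) := by
    rw [Nat.lt_size]
    omega
  omega

/-- `log ρ` is quasi-polynomial. -/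
theorem rho_le (n : ℕ) : rho (64 * (n + 1)) (KK (n + 2)) ≤ 2 ^ (2532 * Nat.size (n + 2) ^ 4) := by
  rw [num1_KK]
  obtain ⟨s, hs⟩ : ∃ s, s = Nat.size (n + 2) := ⟨_, rfl⟩
  have h2 : 2 ≤ s := hs ▸ num1_two_le n
  have hlt : n + 2 < 2 ^ s := by rw [hs]; exact Nat.lt_size_self _
  rw [← hs]
  unfold rho
  have hb : (64 * ((n : ℝ) + 1)) ≤ 2 ^ (6 + s) := by
    have h1 : ((n : ℝ) + 2) ≤ 2 ^ s := by exact_mod_cast hlt.le
    rw [pow_add]
    norm_num
    linarith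
  have h0 : (0 : ℝ) ≤ 64 * ((n : ℝ) + 1) := by positivity
  refine (pow_le_pow_left₀ h0 hb _).trans ?_
  rw [← pow_mul]
  refine pow_le_pow_right₀ (by norm_num) ?_
  have e1 : 6 + s ≤ 4 * s := by omega
  have e2 : 2 * (6 * s) + (2 * (6 * s) + 11) * (6 * s) ^ 2 ≤ 633 * s ^ 3 := by
    nlinarith [Nat.mul_le_mul_left (s ^ 2) h2, Nat.mul_le_mul_left s h2, pow_pos (show 0 < s by omega) 2,
      Nat.mul_le_mul h2 h2, Nat.mul_le_mul_left s (Nat.mul_le_mul h2 h2)]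
  calc (6 + s) * (2 * (6 * s) + (2 * (6 * s) + 11) * (6 * s) ^ 2) ≤ (4 * s) * (633 * s ^ 3) :=
        Nat.mul_le_mul e1 e2
    _ = 2532 * s ^ 4 := by ring

end Vale.Agent.P308Q
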