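import Vale.Agent.P308Q.Num0

/-!
# The parameters: `η ≤ 1/2` and `R ε ≤ τ/2`
-/

namespace Vale.Agent.P308Q

theorem num2_pow (n : ℕ) : ((n : ℝ) + 3) ≤ 2 ^ Nat.size (n + 2) := by
  have : n + 2 < 2 ^ Nat.size (n + 2) := Nat.lt_size_self _
  exact_mod_cast (show n + 3 ≤ 2 ^ Nat.size (n + 2) by omega)

theorem num2_b (n : ℕ) : ((n : ℝ) + 3) ^ (2 * KK (n + 2)) ≤ 2 ^ (3 * Nat.size (n + 2) ^ 4) := by
  rw [num1_KK]
  have h1 := num2_pow n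
  have h2 := num1_two_le n
  revert h1 h2
  generalize Nat.size (n + 2) = s
  intro h1 h2
  refine (pow_le_pow_left₀ (by positivity) h1 _).trans ?_
  rw [← pow_mul]
  refine pow_le_pow_right₀ (by norm_num) ?_
  have : 4 * s ^ 2 ≤ s ^ 4 := by
    have := Nat.mul_le_mul h2 h2
    nlinarith [Nat.mul_le_mul_left (s ^ 2) this]
  nlinarith

theorem num2_CP (n : ℕ) : CP (n + 2) (64 * (n + 1)) ≤ 2 ^ (2543 * Nat.size (n + 2) ^ 4) := by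
  have hr := rho_le n
  have hb := num2_b n
  have h1 := num2_pow n
  have h2 := num1_two_le n
  have hK := num1_KK n
  have hl := num1_size (n + 2) (by omega)
  have hL : (LL (n + 2) : ℝ) ≤ 2 ^ (3 * Nat.size (n + 2) + 3) := by
    unfold LL
    have e : 6 * Nat.log 2 (n + 2) + 9 ≤ 8 * Nat.size (n + 2) := by omega
    have e2 : (Nat.size (n + 2) : ℝ) ≤ 2 ^ Nat.size (n + 2) := by
      exact_mod_cast Nat.lt_two_pow_self.le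
    have e3 : ((6 * Nat.log 2 (n + 2) + 9 : ℕ) : ℝ) ≤ 8 * 2 ^ Nat.size (n + 2) := by
      refine (show ((6 * Nat.log 2 (n + 2) + 9 : ℕ) : ℝ) ≤ ((8 * Nat.size (n + 2) : ℕ) : ℝ) from
        by exact_mod_cast e).trans ?_
      push_cast
      linarith
    rw [Nat.cast_mul, Nat.cast_mul]
    have e4 : ((n + 2 : ℕ) : ℝ) ≤ 2 ^ Nat.size (n + 2) := by push_cast; linarith
    have e5 : ((n + 2 + 1 : ℕ) : ℝ) ≤ 2 ^ Nat.size (n + 2) := by push_cast; linarith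
    calc ((n + 2 : ℕ) : ℝ) * (((n + 2 + 1 : ℕ) : ℝ) * ((6 * Nat.log 2 (n + 2) + 9 : ℕ) : ℝ))
        ≤ 2 ^ Nat.size (n + 2) * (2 ^ Nat.size (n + 2) * (8 * 2 ^ Nat.size (n + 2))) := by
          gcongr
      _ = 2 ^ (3 * Nat.size (n + 2) + 3) := by
          generalize Nat.size (n + 2) = s
          rw [pow_add, mul_comm 3 s, pow_mul]
          norm_num
          ring
  have hE : (encN (n + 2) : ℝ) ≤ 2 ^ (2 * Nat.size (n + 2) + 24 * Nat.size (n + 2) ^ 2) := by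
    unfold encN
    rw [hK]
    have e4 : ((n + 2 : ℕ) : ℝ) ≤ 2 ^ Nat.size (n + 2) := by push_cast; linarith
    have e5 : (((n + 2) ^ 2 + 1 : ℕ) : ℝ) ≤ (2 ^ Nat.size (n + 2)) ^ 2 := by
      push_cast
      have : ((n : ℝ) + 2) ^ 2 + 1 ≤ ((n : ℝ) + 3) ^ 2 := by nlinarith
      exact this.trans (pow_le_pow_left₀ (by positivity) h1 _)
    rw [Nat.cast_mul, Nat.cast_pow, Nat.cast_pow]
    calc ((n + 2 : ℕ) : ℝ) ^ 2 * (((n + 2) ^ 2 + 1 : ℕ) : ℝ) ^ (2 * (6 * Nat.size (n + 2)))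
        ≤ (2 ^ Nat.size (n + 2)) ^ 2 * ((2 ^ Nat.size (n + 2)) ^ 2) ^
            (2 * (6 * Nat.size (n + 2))) := by
          gcongr
      _ = 2 ^ (2 * Nat.size (n + 2) + 24 * Nat.size (n + 2) ^ 2) := by
          generalize Nat.size (n + 2) = s
          rw [← pow_mul, ← pow_mul, ← pow_add]
          congr 1
          ring
  unfold CP
  have hb' : (((n + 2 : ℕ) : ℝ) + 1) ^ (2 * KK (n + 2)) ≤ 2 ^ (3 * Nat.size (n + 2) ^ 4) := by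
    have : ((n + 2 : ℕ) : ℝ) + 1 = (n : ℝ) + 3 := by push_cast; ring
    rw [this]
    exact hb
  have hR0 : (0 : ℝ) ≤ rho (64 * (n + 1)) (KK (n + 2)) := by
    unfold rho
    positivity
  have hb0 : (0 : ℝ) ≤ (((n + 2 : ℕ) : ℝ) + 1) ^ (2 * KK (n + 2)) := by positivity
  clear hl hb h1 hK
  revert hr hb' hL hE hR0 hb0 h2
  generalize rho (64 * ((n : ℝ) + 1)) (KK (n + 2)) = ρ
  generalize (((n + 2 : ℕ) : ℝ) + 1) ^ (2 * KK (n + 2)) = β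
  generalize LL (n + 2) = l
  generalize encN (n + 2) = e
  generalize Nat.size (n + 2) = s
  intro hρ h2 hl he hβ hρ0 hβ0
  calc (l : ℝ) ^ 2 * e * (β * ρ)
      ≤ (2 ^ (3 * s + 3)) ^ 2 * 2 ^ (2 * s + 24 * s ^ 2) * (2 ^ (3 * s ^ 4) * 2 ^ (2532 * s ^ 4)) := by
        gcongr
    _ = 2 ^ ((3 * s + 3) * 2 + (2 * s + 24 * s ^ 2) + (3 * s ^ 4 + 2532 * s ^ 4)) := by
        rw [← pow_mul, ← pow_add, ← pow_add, ← pow_add]
    _ ≤ 2 ^ (2543 * s ^ 4) := by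
        refine pow_le_pow_right₀ (by norm_num) ?_
        have e1 : 4 ≤ s ^ 2 := by nlinarith
        have e3 : 4 * s ^ 2 ≤ s ^ 4 := by
          nlinarith [Nat.mul_le_mul_left (s ^ 2) e1]
        have e4 : 2 * s ≤ s ^ 2 := by nlinarith
        nlinarith

theorem num2_eta (n g : ℕ) :
    (2 : ℝ)⁻¹ ^ g * ((n + 3 : ℝ) ^ (2 * KK (n + 2)) * rho (64 * (n + 1)) (KK (n + 2))) ≤
      (2 : ℝ)⁻¹ ^ g * 2 ^ (2535 * Nat.size (n + 2) ^ 4) := by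
  have hr := rho_le n
  have hb := num2_b n
  have hR0 : (0 : ℝ) ≤ rho (64 * (n + 1)) (KK (n + 2)) := by
    unfold rho
    positivity
  calc (2 : ℝ)⁻¹ ^ g * ((n + 3 : ℝ) ^ (2 * KK (n + 2)) * rho (64 * (n + 1)) (KK (n + 2)))
      ≤ (2 : ℝ)⁻¹ ^ g * (2 ^ (3 * Nat.size (n + 2) ^ 4) * 2 ^ (2532 * Nat.size (n + 2) ^ 4)) := by
        gcongr
    _ = (2 : ℝ)⁻¹ ^ g * 2 ^ (2535 * Nat.size (n + 2) ^ 4) := by
        rw [← pow_add]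
        congr 2
        ring

/-- the bound of `η` -/
theorem num2_eta' (n s : ℕ) (X : ℕ) (hs : Nat.size (n + 2) = s) (x : ℕ) (hx : Nat.size X = x) :
    (2 : ℝ)⁻¹ ^ (2600 * s ^ 4 + 100 * x) *
      ((n + 3 : ℝ) ^ (2 * KK (n + 2)) * rho (64 * (n + 1)) (KK (n + 2))) ≤
      ((X : ℝ) + 1)⁻¹ ^ 100 := by
  refine (num2_eta n _).trans ?_
  rw [hs]
  have hX : ((X : ℝ) + 1) ≤ 2 ^ x := by
    have : X < 2 ^ Nat.size X := Nat.lt_size_self _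
    rw [hx] at this
    exact_mod_cast this
  have e1 : (2 : ℝ)⁻¹ ^ (2600 * s ^ 4 + 100 * x) * 2 ^ (2535 * s ^ 4) ≤ ((2 : ℝ)⁻¹ ^ x) ^ 100 := by
    rw [pow_add, show 2600 * s ^ 4 = 65 * s ^ 4 + 2535 * s ^ 4 by ring, pow_add]
    have : (2 : ℝ)⁻¹ ^ (65 * s ^ 4) ≤ 1 := pow_le_one₀ (by norm_num) (by norm_num)
    have h3 : (2 : ℝ)⁻¹ ^ (2535 * s ^ 4) * 2 ^ (2535 * s ^ 4) = 1 := by
      rw [← mul_pow]
      norm_num
    calc (2 : ℝ)⁻¹ ^ (65 * s ^ 4) * 2⁻¹ ^ (2535 * s ^ 4) * 2⁻¹ ^ (100 * x) * 2 ^ (2535 * s ^ 4)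
        = (2 : ℝ)⁻¹ ^ (65 * s ^ 4) * ((2⁻¹ ^ (2535 * s ^ 4)) * 2 ^ (2535 * s ^ 4)) *
            2⁻¹ ^ (100 * x) := by ring
      _ = (2 : ℝ)⁻¹ ^ (65 * s ^ 4) * 2⁻¹ ^ (100 * x) := by rw [h3, mul_one]
      _ ≤ 1 * 2⁻¹ ^ (100 * x) := by gcongr
      _ = ((2 : ℝ)⁻¹ ^ x) ^ 100 := by rw [one_mul, ← pow_mul, mul_comm]
  refine e1.trans ?_
  rw [inv_pow 2 x]
  gcongr

theorem num_heta {n a b : ℕ} (_ha : 1 ≤ a) (_hb : 1 ≤ b) :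
    etaP (parOf 2600 100 6000 500 50 12 n a b) n ≤ 1 / 2 := by
  have h := num2_eta' n _ (n + a + Nat.size b + 2) rfl _ rfl
  refine (show etaP (parOf 2600 100 6000 500 50 12 n a b) n ≤ _ from h).trans ?_
  clear h
  have hX : (2 : ℝ) ≤ ((n + a + Nat.size b + 2 : ℕ) : ℝ) + 1 := by
    push_cast
    have : (0 : ℝ) ≤ n := n.cast_nonneg
    have : (0 : ℝ) ≤ a := a.cast_nonneg
    have : (0 : ℝ) ≤ (Nat.size b : ℝ) := (Nat.size b).cast_nonneg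
    linarith
  revert hX
  generalize ((n + a + Nat.size b + 2 : ℕ) : ℝ) + 1 = Y
  intro hY
  have h0 : (0 : ℝ) ≤ Y⁻¹ := by positivity
  have h1 : Y⁻¹ ≤ 1 / 2 := by
    rw [inv_le_comm₀ (by linarith) (by norm_num)]
    linarith
  calc Y⁻¹ ^ 100 ≤ Y⁻¹ ^ 1 := pow_le_pow_of_le_one h0 (by linarith) (by norm_num)
    _ ≤ 1 / 2 := by simpa using h1

theorem num2_CP0 (n : ℕ) : 0 ≤ CP (n + 2) (64 * (n + 1)) := by
  unfold CP rho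
  have h : (0 : ℝ) ≤ 64 * (n + 1) := by positivity
  exact mul_nonneg (mul_nonneg (sq_nonneg _) (Nat.cast_nonneg _))
    (mul_nonneg (pow_nonneg (by positivity) _) (pow_nonneg h _))

theorem num2_inner (n s x X : ℕ) (hX : n + 3 ≤ X) (hs : Nat.size (n + 2) = s)
    (hx : Nat.size X = x) {A : ℝ} (hA0 : 0 < A)
    (hA : (2 : ℝ) ^ (5200 * s ^ 4) ≤ A) :
    2 * (CP (n + 2) (64 * (n + 1)) * 4 ^ s * 2 ^ (2600 * s ^ 4 + 100 * x)) * (16 * (n + 1)) /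
      (A * (X : ℝ) ^ 500 + 1) ≤ (((X : ℝ))⁻¹ ^ 100) ^ 2 := by
  have hC := num2_CP n
  have h1 := num2_pow n
  have h2 := num1_two_le n
  rw [hs] at hC h1 h2
  have hC0 := num2_CP0 n
  have hX0 : (3 : ℝ) ≤ X := by exact_mod_cast (show 3 ≤ X by omega)
  have hXx : (2 : ℝ) ^ x ≤ 2 * X := by
    have h3 : 2 ^ (x - 1) ≤ X := by
      rw [← Nat.lt_size]
      have : 0 < Nat.size X := by
        rw [Nat.lt_size]
        omega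
      omega
    have h4 : 2 ^ x = 2 * 2 ^ (x - 1) := by
      have : 0 < x := by
        rw [← hx, Nat.lt_size]
        omega
      obtain ⟨y, rfl⟩ : ∃ y, x = y + 1 := ⟨x - 1, by omega⟩
      rw [pow_succ]
      simp [mul_comm]
    have h5 : 2 ^ x ≤ 2 * X := by omega
    exact_mod_cast h5
  have hn : (16 * ((n : ℝ) + 1)) ≤ 2 ^ (4 + s) := by
    rw [pow_add]
    norm_num
    linarith
  revert hC hC0
  generalize CP (n + 2) (64 * (n + 1)) = c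
  intro hC hC0
  have hs4 : 16 ≤ s ^ 4 := by
    calc 16 = 2 ^ 4 := by norm_num
      _ ≤ s ^ 4 := Nat.pow_le_pow_left h2 4
  have hs1 : 3 * s ≤ s ^ 4 := by
    have := Nat.mul_le_mul h2 h2
    nlinarith [Nat.mul_le_mul_left s (Nat.mul_le_mul h2 this)]
  have hT : (0 : ℝ) < A * X ^ 500 := by positivity
  have hnum : 2 * (c * 4 ^ s * 2 ^ (2600 * s ^ 4 + 100 * x)) * (16 * (n + 1)) ≤
      A * ((X : ℝ) ^ 200) := by
    calc 2 * (c * 4 ^ s * 2 ^ (2600 * s ^ 4 + 100 * x)) * (16 * ((n : ℝ) + 1))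
        ≤ 2 * (2 ^ (2543 * s ^ 4) * 4 ^ s * 2 ^ (2600 * s ^ 4 + 100 * x)) * 2 ^ (4 + s) := by
          gcongr
      _ = 2 ^ (1 + 2543 * s ^ 4 + 2 * s + 2600 * s ^ 4 + (4 + s)) * (2 ^ x) ^ 100 := by
          rw [show (4 : ℝ) ^ s = 2 ^ (2 * s) by rw [pow_mul]; norm_num, ← pow_mul, mul_comm x 100]
          simp only [pow_add, pow_one]
          ring
      _ ≤ 2 ^ (5200 * s ^ 4) * (2 * X) ^ 100 := by
          gcongr
          · norm_num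
          · omega
      _ ≤ A * ((X : ℝ) ^ 2) ^ 100 := by
          gcongr
          nlinarith
      _ = A * ((X : ℝ) ^ 200) := by rw [← pow_mul]
  clear hC hA hn hXx h1
  rw [div_le_iff₀ (by positivity)]
  refine hnum.trans ?_
  have e : (((X : ℝ))⁻¹ ^ 100) ^ 2 * (A * (X : ℝ) ^ 500) =
      A * (X : ℝ) ^ 300 := by
    have h5 : (X : ℝ) ^ 500 = X ^ 200 * X ^ 300 := by rw [← pow_add]
    have h6 : ((X : ℝ)⁻¹ ^ 100) ^ 2 * X ^ 200 = 1 := by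
      rw [← pow_mul, ← mul_pow, inv_mul_cancel₀ (by positivity), one_pow]
    rw [h5]
    calc ((X : ℝ)⁻¹ ^ 100) ^ 2 * (A * (X ^ 200 * X ^ 300))
        = (((X : ℝ)⁻¹ ^ 100) ^ 2 * X ^ 200) * (A * X ^ 300) := by ring
      _ = A * X ^ 300 := by rw [h6, one_mul]
  have e2 : (0 : ℝ) ≤ (((X : ℝ))⁻¹ ^ 100) ^ 2 := by positivity
  calc A * ((X : ℝ) ^ 200) ≤ A * (X : ℝ) ^ 300 := by
        gcongr
        · linarith
        · norm_num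
    _ = (((X : ℝ))⁻¹ ^ 100) ^ 2 * (A * (X : ℝ) ^ 500) := e.symm
    _ ≤ (((X : ℝ))⁻¹ ^ 100) ^ 2 * (A * (X : ℝ) ^ 500 + 1) := by
        gcongr
        linarith

theorem num2_eps (n s x X : ℕ) (hX : n + 3 ≤ X) (hs : Nat.size (n + 2) = s)
    (hx : Nat.size X = x) {A : ℝ} (hA0 : 0 < A)
    (hA : (2 : ℝ) ^ (5200 * s ^ 4) ≤ A)
    {e : ℝ} (he0 : 0 ≤ e) (he : e ≤ ((X : ℝ) + 1)⁻¹ ^ 100) :
    (X : ℝ) ^ 12 * (2 * (16 * (n + 1)) * e +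
      Real.sqrt (2 * (CP (n + 2) (64 * (n + 1)) * 4 ^ s * 2 ^ (2600 * s ^ 4 + 100 * x)) *
        (16 * (n + 1)) / (A * (X : ℝ) ^ 500 + 1))) ≤
      (X : ℝ)⁻¹ ^ 80 := by
  have h := num2_inner n s x X hX hs hx hA0 hA
  have hX0 : (3 : ℝ) ≤ X := by exact_mod_cast (show 3 ≤ X by omega)
  have hXn : (n : ℝ) + 1 ≤ X := by exact_mod_cast (show n + 1 ≤ X by omega)
  have hi0 : 0 < (X : ℝ)⁻¹ := by positivity
  have h2 : Real.sqrt (2 * (CP (n + 2) (64 * (n + 1)) * 4 ^ s * 2 ^ (2600 * s ^ 4 + 100 * x)) *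
        (16 * (n + 1)) / (A * (X : ℝ) ^ 500 + 1)) ≤ (X : ℝ)⁻¹ ^ 100 := by
    rw [Real.sqrt_le_left (by positivity)]
    exact h
  have h3 : e ≤ (X : ℝ)⁻¹ ^ 100 := he.trans (by gcongr; linarith)
  have h4 : 2 * (16 * ((n : ℝ) + 1)) * e ≤ 32 * X * (X : ℝ)⁻¹ ^ 100 := by
    have : 2 * (16 * ((n : ℝ) + 1)) ≤ 32 * X := by linarith
    gcongr
  have e1 : (X : ℝ) ^ 12 * (32 * X * (X : ℝ)⁻¹ ^ 100 + (X : ℝ)⁻¹ ^ 100) =
      (32 * X + 1) * (X : ℝ)⁻¹ ^ 8 * (X : ℝ)⁻¹ ^ 80 := by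
    rw [show (X : ℝ)⁻¹ ^ 100 = (X : ℝ)⁻¹ ^ 12 * ((X : ℝ)⁻¹ ^ 8 * (X : ℝ)⁻¹ ^ 80) by
      rw [← pow_add, ← pow_add]]
    have : (X : ℝ) ^ 12 * (X : ℝ)⁻¹ ^ 12 = 1 := by
      rw [← mul_pow, mul_inv_cancel₀ (by positivity), one_pow]
    calc (X : ℝ) ^ 12 * (32 * X * ((X : ℝ)⁻¹ ^ 12 * ((X : ℝ)⁻¹ ^ 8 * (X : ℝ)⁻¹ ^ 80)) +
          (X : ℝ)⁻¹ ^ 12 * ((X : ℝ)⁻¹ ^ 8 * (X : ℝ)⁻¹ ^ 80))
        = ((X : ℝ) ^ 12 * (X : ℝ)⁻¹ ^ 12) * ((32 * X + 1) * (X : ℝ)⁻¹ ^ 8 * (X : ℝ)⁻¹ ^ 80) := by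
          ring
      _ = _ := by rw [this, one_mul]
  have e2 : (32 * (X : ℝ) + 1) * (X : ℝ)⁻¹ ^ 8 ≤ 1 := by
    rw [inv_pow, ← div_eq_mul_inv, div_le_one (by positivity)]
    have h7 : (3 : ℝ) ^ 7 ≤ (X : ℝ) ^ 7 := pow_le_pow_left₀ (by norm_num) hX0 7
    have : (X : ℝ) ^ 8 = X * X ^ 7 := by ring
    rw [this]
    nlinarith
  calc (X : ℝ) ^ 12 * (2 * (16 * ((n : ℝ) + 1)) * e + _)
      ≤ (X : ℝ) ^ 12 * (32 * X * (X : ℝ)⁻¹ ^ 100 + (X : ℝ)⁻¹ ^ 100) := by gcongr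
    _ = (32 * X + 1) * (X : ℝ)⁻¹ ^ 8 * (X : ℝ)⁻¹ ^ 80 := e1
    _ ≤ 1 * (X : ℝ)⁻¹ ^ 80 := by gcongr
    _ = _ := one_mul _

theorem num2_ta (n a b X : ℕ) (hX : X = n + a + Nat.size b + 2) (ha : 1 ≤ a) :
    (X : ℝ)⁻¹ ^ 80 ≤ taN n a b / 2 := by
  unfold taN thN
  rw [← hX]
  have hX0 : (3 : ℝ) ≤ X := by exact_mod_cast (show 3 ≤ X by omega)
  have hn : (n : ℝ) ≤ X := by exact_mod_cast (show n ≤ X by omega)
  have haX : (a : ℝ) ≤ X := by exact_mod_cast (show a ≤ X by omega)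
  have ha0 : (1 : ℝ) ≤ a := by exact_mod_cast ha
  have h1 : 8 * (a : ℝ) * ((X : ℝ) ^ 3 * (n : ℝ) ^ 2 + 1) ≤ 8 * X * (X ^ 3 * X ^ 2 + 1) := by
    gcongr
  have h2 : 20 * (1 + 8 * (n : ℝ)) ≤ 20 * (1 + 8 * X) := by linarith
  rw [div_div, div_div, inv_pow, ← one_div]
  apply one_div_le_one_div_of_le (by positivity)
  calc 8 * (a : ℝ) * ((X : ℝ) ^ 3 * (n : ℝ) ^ 2 + 1) * (20 * (1 + 8 * (n : ℝ)) * 2)
      ≤ 8 * (X : ℝ) * ((X : ℝ) ^ 3 * (X : ℝ) ^ 2 + 1) * (20 * (1 + 8 * (X : ℝ)) * 2) := by gcongr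
    _ ≤ (X : ℝ) ^ 80 := by
        have p1 : (1 : ℝ) ≤ X := by linarith
        have p2 : (X : ℝ) ^ 3 * X ^ 2 + 1 ≤ 2 * X ^ 5 := by
          have : (1 : ℝ) ≤ X ^ 5 := one_le_pow₀ p1
          nlinarith [this]
        have p3 : 20 * (1 + 8 * (X : ℝ)) * 2 ≤ 400 * X := by linarith
        have p4 : (6400 : ℝ) ≤ X ^ 73 := by
          calc (6400 : ℝ) ≤ 3 ^ 73 := by norm_num
            _ ≤ X ^ 73 := pow_le_pow_left₀ (by norm_num) hX0 _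
        calc 8 * (X : ℝ) * ((X : ℝ) ^ 3 * (X : ℝ) ^ 2 + 1) * (20 * (1 + 8 * (X : ℝ)) * 2)
            ≤ 8 * (X : ℝ) * (2 * (X : ℝ) ^ 5) * (400 * (X : ℝ)) := by gcongr
          _ = 6400 * (X : ℝ) ^ 7 := by ring
          _ ≤ (X : ℝ) ^ 73 * (X : ℝ) ^ 7 := by gcongr
          _ = (X : ℝ) ^ 80 := by rw [← pow_add]

theorem num_heps {n a b : ℕ} (ha : 1 ≤ a) (_hb : 1 ≤ b) :
    (parOf 2600 100 6000 500 50 12 n a b).R * epsP (parOf 2600 100 6000 500 50 12 n a b) n ≤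
      taN n a b / 2 := by
  obtain ⟨X, hX⟩ : ∃ X, X = n + a + Nat.size b + 2 := ⟨_, rfl⟩
  have hη : etaP (parOf 2600 100 6000 500 50 12 n a b) n ≤ ((X : ℝ) + 1)⁻¹ ^ 100 := by
    rw [hX]
    exact num2_eta' n _ (n + a + Nat.size b + 2) rfl _ rfl
  have hη0 : 0 ≤ etaP (parOf 2600 100 6000 500 50 12 n a b) n := by
    unfold etaP rho
    exact mul_nonneg (pow_nonneg (by norm_num) _)
      (mul_nonneg (pow_nonneg (by positivity) _) (pow_nonneg (by positivity) _))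
  obtain ⟨s, hs⟩ : ∃ s, Nat.size (n + 2) = s := ⟨_, rfl⟩
  obtain ⟨x, hx⟩ : ∃ x, Nat.size X = x := ⟨_, rfl⟩
  have hA0 : (0 : ℝ) < 2 ^ (6000 * s ^ 4) := pow_pos (by norm_num) _
  have hA : (2 : ℝ) ^ (5200 * s ^ 4) ≤ 2 ^ (6000 * s ^ 4) :=
    pow_le_pow_right₀ (by norm_num) (by omega)
  have h := num2_eps n s x X (by omega) hs hx hA0 hA hη0 hη
  refine le_trans (le_of_eq ?_) (h.trans (num2_ta n a b X hX ha))
  have hR : ((parOf 2600 100 6000 500 50 12 n a b).R : ℝ) = (X : ℝ) ^ 12 := by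
    rw [hX, ← Nat.cast_pow]
    rfl
  have hBn : (parOf 2600 100 6000 500 50 12 n a b).Bn = s := by
    rw [← hs]
    rfl
  have hg : (parOf 2600 100 6000 500 50 12 n a b).g = 2600 * s ^ 4 + 100 * x := by
    rw [← hs, ← hx, hX]
    rfl
  have hT : ((parOf 2600 100 6000 500 50 12 n a b).T : ℝ) =
      2 ^ (6000 * s ^ 4) * (X : ℝ) ^ 500 := by
    have : (parOf 2600 100 6000 500 50 12 n a b).T = 2 ^ (6000 * s ^ 4) * X ^ 500 := by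
      rw [← hs, hX]
      rfl
    rw [this, Nat.cast_mul, Nat.cast_pow, Nat.cast_pow, Nat.cast_ofNat]
  unfold epsP
  rw [hR, hBn, hg, hT]

end Vale.Agent.P308Q
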