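import Vale.Agent.P308Q.TotPath

/-!
# The restricted Poincaré inequality
-/

namespace Vale.Agent.P308Q

open Finset

variable {V : Type} [Fintype V] [DecidableEq V]

/-- perfect matchings -/
def PM (V : Type) [Fintype V] [DecidableEq V] : Finset (Mat V) :=
  univ.filter fun m => holes m.1 = ∅

/-- matchings with at most `D` holes -/
def FM (V : Type) [Fintype V] [DecidableEq V] (D : ℕ) : Finset (Mat V) :=
  univ.filter fun m => (holes m.1).card ≤ D

/-- The number of encodings (without the complementary matching). -/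
def encN (N : ℕ) : ℕ := N ^ 2 * (N ^ 2 + 1) ^ (2 * KK N)

/-- The constant of the Poincaré inequality. -/
noncomputable def CP (N : ℕ) (R : ℝ) : ℝ :=
  (LL N : ℝ) ^ 2 * encN N * ((N + 1) ^ (2 * KK N) * rho R (KK N))

private theorem pm_ne {m : Mat V} (hm : m ∈ PM V) (v : V) : m.1 v ≠ v := by
  intro h
  have h1 : holes m.1 = ∅ := (mem_filter.1 hm).2
  have h2 : v ∈ holes m.1 := mem_holes.2 h
  rw [h1] at h2
  exact absurd h2 (Finset.notMem_empty v)

open Classical in
/-- The load of one state. -/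
theorem load_le (E : Exps V) (L : ℕ) (hL : ∀ u v, E.l u v ≤ L) {R : ℝ} (hR : RBd E R)
    (rk : V ≃ Fin (Fintype.card V)) (M : V → V) :
    ∑ q ∈ (PM V ×ˢ PM V).filter (fun q => ∃ (c : V) (s : St V),
        Enc E L (2 * KK (Fintype.card V)) (fun v => (rk v : ℕ)) q.1.1 q.2.1 c s ∧
          M = cur q.1.1 q.2.1 s), wt E q.1.1 * wt E q.2.1 ≤
      encN (Fintype.card V) * ((Fintype.card V + 1) ^ (2 * KK (Fintype.card V)) *
        rho R (KK (Fintype.card V))) * NN E ∅ * wh E L M := by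
  set D := 2 * KK (Fintype.card V) with hD
  set Q := (PM V ×ˢ PM V).filter (fun q => ∃ (c : V) (s : St V),
        Enc E L D (fun v => (rk v : ℕ)) q.1.1 q.2.1 c s ∧
          M = cur q.1.1 q.2.1 s) with hQ
  have hrk : Function.Injective (fun v => (rk v : ℕ)) := fun a b h =>
    rk.injective (Fin.ext h)
  -- the choice
  have hch : ∀ q : {q // q ∈ Q}, ∃ p : V × St V,
      Enc E L D (fun v => (rk v : ℕ)) q.1.1.1 q.1.2.1 p.1 p.2 ∧ M = cur q.1.1.1 q.1.2.1 p.2 := by
    intro q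
    obtain ⟨c, s, h⟩ := (mem_filter.1 q.2).2
    exact ⟨(c, s), h⟩
  choose p hp1 hp2 using hch
  have hP1 : ∀ q : {q // q ∈ Q}, q.1.1 ∈ PM V := fun q =>
    (mem_product.1 (mem_filter.1 q.2).1).1
  have hP2 : ∀ q : {q // q ∈ Q}, q.1.2 ∈ PM V := fun q =>
    (mem_product.1 (mem_filter.1 q.2).1).2
  let G : {q // q ∈ Q} → Mat V × (V × V) × Finset (V × V) := fun q =>
    (⟨cmpl q.1.1.1 q.1.2.1 (p q).2, cmpl_invol q.1.1.2 q.1.2.2 (hp1 q).vld⟩,
      ((p q).1, q.1.1.1 (p q).1), edg q.1.1.1 q.1.2.1 (p q).2)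
  have hGinj : Function.Injective G := by
    intro q q' h
    have h1 : cmpl q.1.1.1 q.1.2.1 (p q).2 = cmpl q'.1.1.1 q'.1.2.1 (p q').2 :=
      congrArg (fun y => y.1.1) h
    have h2 : (p q).1 = (p q').1 := congrArg (fun y => y.2.1.1) h
    have h3 : q.1.1.1 (p q).1 = q'.1.1.1 (p q').1 := congrArg (fun y => y.2.1.2) h
    have h4 : edg q.1.1.1 q.1.2.1 (p q).2 = edg q'.1.1.1 q'.1.2.1 (p q').2 :=
      congrArg (fun y => y.2.2) h
    have e2 := hp1 q'
    rw [← h2] at e2 h3
    obtain ⟨r1, r2⟩ := enc_inj hrk q.1.1.2 q.1.2.2 (pm_ne (hP1 q)) (pm_ne (hP2 q)) q'.1.1.2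
      q'.1.2.2 (pm_ne (hP1 q')) (pm_ne (hP2 q')) (hp1 q) e2 ((hp2 q).symm.trans (hp2 q'))
      h1 h4 h3
    exact Subtype.ext (Prod.ext (Subtype.ext r1) (Subtype.ext r2))
  have hstep : ∀ q : {q // q ∈ Q}, wt E q.1.1.1 * wt E q.1.2.1 ≤ wh E L M * wh E L (G q).1.1 := by
    intro q
    have h := wt_le_wh E L hL q.1.1.2 q.1.2.2 (pm_ne (hP1 q)) (pm_ne (hP2 q)) (hp1 q).vld
      (hp1 q).rc
    rw [← hp2 q] at h
    exact h
  let T : Finset (Mat V × (V × V) × Finset (V × V)) :=
    (FM V D) ×ˢ ((univ : Finset (V × V)) ×ˢ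
      (univ : Finset (Finset (V × V))).filter fun s => s.card ≤ D)
  have hGT : ∀ q ∈ Q.attach, G q ∈ T := by
    intro q _
    refine mem_product.2 ⟨?_, mem_product.2 ⟨mem_univ _, ?_⟩⟩
    · refine mem_filter.2 ⟨mem_univ _, ?_⟩
      have h1 := card_holes_cur_add (pm_ne (hP1 q)) (pm_ne (hP2 q)) (p q).2
      have h2 := (hp1 q).card
      show (holes (cmpl q.1.1.1 q.1.2.1 (p q).2)).card ≤ D
      omega
    · refine mem_filter.2 ⟨mem_univ _, ?_⟩
      exact (card_edg_le _ _ _).trans (hp1 q).card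
  have hwM := (wh_pos E L M).le
  have hsum : ∑ q ∈ Q.attach, wh E L (G q).1.1 ≤ ∑ y ∈ T, wh E L y.1.1 := by
    have h1 : ∑ q ∈ Q.attach, wh E L (G q).1.1 = ∑ y ∈ Q.attach.image G, wh E L y.1.1 := by
      rw [Finset.sum_image (fun a _ b _ h => hGinj h)]
    rw [h1]
    refine Finset.sum_le_sum_of_subset_of_nonneg ?_ (fun y _ _ => (wh_pos E L _).le)
    intro y hy
    obtain ⟨q, hq, rfl⟩ := mem_image.1 hy
    exact hGT q hq
  have hT : ∑ y ∈ T, wh E L y.1.1 ≤ (encN (Fintype.card V) : ℝ) *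
      ((Fintype.card V + 1) ^ D * rho R (KK (Fintype.card V)) * NN E ∅) := by
    have hZ := Zhat_le E L hR (KK (Fintype.card V))
    have hZ0 : 0 ≤ ∑ m ∈ FM V D, wh E L m.1 := Finset.sum_nonneg fun m _ => (wh_pos E L _).le
    rw [Finset.sum_product]
    have h1 : ∀ m ∈ FM V D, ∑ y ∈ ((univ : Finset (V × V)) ×ˢ
        (univ : Finset (Finset (V × V))).filter fun s => s.card ≤ D), wh E L (m, y).1.1 ≤
        (encN (Fintype.card V) : ℝ) * wh E L m.1 := by
      intro m _
      show ∑ _y ∈ ((univ : Finset (V × V)) ×ˢ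
        (univ : Finset (Finset (V × V))).filter fun s => s.card ≤ D), wh E L m.1 ≤ _
      rw [Finset.sum_const, nsmul_eq_mul]
      refine mul_le_mul_of_nonneg_right ?_ (wh_pos E L _).le
      rw [Finset.card_product, Finset.card_univ, Fintype.card_prod]
      have h2 := card_small_sets (V × V) D
      rw [Fintype.card_prod] at h2
      have h3 : Fintype.card V * Fintype.card V *
          ((univ : Finset (Finset (V × V))).filter fun s => s.card ≤ D).card ≤
          encN (Fintype.card V) := by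
        unfold encN
        rw [sq, ← hD]
        exact Nat.mul_le_mul_left _ h2
      exact_mod_cast h3
    refine (Finset.sum_le_sum h1).trans ?_
    rw [← Finset.mul_sum]
    exact mul_le_mul_of_nonneg_left hZ (Nat.cast_nonneg _)
  calc ∑ q ∈ Q, wt E q.1.1 * wt E q.2.1 = ∑ q ∈ Q.attach, wt E q.1.1.1 * wt E q.1.2.1 :=
        (Finset.sum_attach Q (fun q => wt E q.1.1 * wt E q.2.1)).symm
    _ ≤ ∑ q ∈ Q.attach, wh E L M * wh E L (G q).1.1 := Finset.sum_le_sum fun q _ => hstep q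
    _ = wh E L M * ∑ q ∈ Q.attach, wh E L (G q).1.1 := by rw [Finset.mul_sum]
    _ ≤ wh E L M * ((encN (Fintype.card V) : ℝ) *
      ((Fintype.card V + 1) ^ D * rho R (KK (Fintype.card V)) * NN E ∅)) :=
        mul_le_mul_of_nonneg_left (hsum.trans hT) hwM
    _ = _ := by ring

open Classical in
/-- The canonical path argument, abstractly. -/
theorem poinc_abs {T : Type} (P M : Finset T) (w W : T → ℝ) (hw : ∀ t, 0 ≤ w t)
    (A : T → T → Prop) (Q : T × T → T → Prop) {Λ : ℝ} (hΛ : 0 ≤ Λ) (Lc : ℕ)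
    (hpath : ∀ q ∈ P ×ˢ P, ∃ (n : ℕ) (g : ℕ → T), n ≤ Lc ∧ g 0 = q.1 ∧ g n = q.2 ∧
      ∀ i < n, g i = g (i + 1) ∨
        (A (g i) (g (i + 1)) ∧ g i ∈ M ∧ g (i + 1) ∈ M ∧ Q q (g i) ∧ Q q (g (i + 1))))
    (hload : ∀ t, ∑ q ∈ (P ×ˢ P).filter (fun q => Q q t), w q.1 * w q.2 ≤ Λ * W t)
    (f : T → ℝ) :
    ∑ I ∈ P, ∑ F ∈ P, w I * w F * (f I - f F) ^ 2 ≤
      (Lc : ℝ) ^ 2 * Λ * ∑ m ∈ M, ∑ m' ∈ M,
        if A m m' then min (W m) (W m') * (f m - f m') ^ 2 else 0 := by
  -- the contribution of one pair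
  have h1 : ∀ q ∈ P ×ˢ P, (f q.1 - f q.2) ^ 2 ≤ (Lc : ℝ) ^ 2 *
      ∑ p ∈ M ×ˢ M, if A p.1 p.2 ∧ Q q p.1 ∧ Q q p.2 then (f p.1 - f p.2) ^ 2 else 0 := by
    intro q hq
    obtain ⟨n, g, hn, h0, hn', hstep⟩ := hpath q hq
    set S : ℝ := ∑ p ∈ M ×ˢ M, if A p.1 p.2 ∧ Q q p.1 ∧ Q q p.2 then (f p.1 - f p.2) ^ 2 else 0
      with hS
    have hS0 : 0 ≤ S := Finset.sum_nonneg fun p _ => by
      split_ifs
      · positivity
      · exact le_rfl
    have hterm : ∀ i ∈ range n, (f (g i) - f (g (i + 1))) ^ 2 ≤ S := by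
      intro i hi
      rcases hstep i (mem_range.1 hi) with h | ⟨hA, hM, hM', hQ, hQ'⟩
      · rw [h]
        simpa using hS0
      · have := Finset.single_le_sum (f := fun p : T × T =>
          if A p.1 p.2 ∧ Q q p.1 ∧ Q q p.2 then (f p.1 - f p.2) ^ 2 else (0 : ℝ))
          (s := M ×ˢ M) (fun p _ => by
            show (0 : ℝ) ≤ if A p.1 p.2 ∧ Q q p.1 ∧ Q q p.2 then (f p.1 - f p.2) ^ 2 else 0
            split_ifs
            · positivity
            · exact le_rfl) (Finset.mem_product.2 ⟨hM, hM'⟩ : (g i, g (i + 1)) ∈ M ×ˢ M)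
        simpa [hA, hQ, hQ'] using this
    have htel : f q.1 - f q.2 = ∑ i ∈ range n, (f (g i) - f (g (i + 1))) := by
      rw [Finset.sum_range_sub' (fun i => f (g i)) n, h0, hn']
    have hcs := sq_sum_le_card_mul_sum_sq (s := range n)
      (f := fun i => f (g i) - f (g (i + 1)))
    rw [← htel, card_range] at hcs
    have hsum : ∑ i ∈ range n, (f (g i) - f (g (i + 1))) ^ 2 ≤ n * S := by
      have := Finset.sum_le_card_nsmul (range n) _ S hterm
      simpa using this
    have hnL : (n : ℝ) ≤ Lc := by exact_mod_cast hn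
    calc (f q.1 - f q.2) ^ 2 ≤ n * ∑ i ∈ range n, (f (g i) - f (g (i + 1))) ^ 2 := hcs
      _ ≤ n * (n * S) := mul_le_mul_of_nonneg_left hsum (Nat.cast_nonneg n)
      _ = (n : ℝ) ^ 2 * S := by ring
      _ ≤ (Lc : ℝ) ^ 2 * S := by
        apply mul_le_mul_of_nonneg_right _ hS0
        exact pow_le_pow_left₀ (Nat.cast_nonneg n) hnL 2
  have e1 : ∑ I ∈ P, ∑ F ∈ P, w I * w F * (f I - f F) ^ 2 =
      ∑ q ∈ P ×ˢ P, w q.1 * w q.2 * (f q.1 - f q.2) ^ 2 := by
    rw [Finset.sum_product]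
  have e2 : (∑ m ∈ M, ∑ m' ∈ M,
        if A m m' then min (W m) (W m') * (f m - f m') ^ 2 else 0) =
      ∑ p ∈ M ×ˢ M, if A p.1 p.2 then min (W p.1) (W p.2) * (f p.1 - f p.2) ^ 2 else 0 := by
    rw [Finset.sum_product]
  rw [e1, e2]
  calc ∑ q ∈ P ×ˢ P, w q.1 * w q.2 * (f q.1 - f q.2) ^ 2
      ≤ ∑ q ∈ P ×ˢ P, w q.1 * w q.2 * ((Lc : ℝ) ^ 2 *
        ∑ p ∈ M ×ˢ M, if A p.1 p.2 ∧ Q q p.1 ∧ Q q p.2 then (f p.1 - f p.2) ^ 2 else 0) :=
        Finset.sum_le_sum fun q hq =>
          mul_le_mul_of_nonneg_left (h1 q hq) (mul_nonneg (hw _) (hw _))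
    _ = (Lc : ℝ) ^ 2 * ∑ p ∈ M ×ˢ M, if A p.1 p.2 then
        (∑ q ∈ (P ×ˢ P).filter (fun q => Q q p.1 ∧ Q q p.2), w q.1 * w q.2) *
          (f p.1 - f p.2) ^ 2 else 0 := by
        rw [Finset.mul_sum]
        simp_rw [Finset.mul_sum]
        rw [Finset.sum_comm]
        refine Finset.sum_congr rfl fun p _ => ?_
        by_cases hA : A p.1 p.2
        · simp only [hA, true_and, if_true]
          rw [Finset.sum_mul, Finset.mul_sum, Finset.sum_filter]
          refine Finset.sum_congr rfl fun q _ => ?_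
          split_ifs <;> ring
        · simp [hA]
    _ ≤ (Lc : ℝ) ^ 2 * ∑ p ∈ M ×ˢ M, Λ *
        (if A p.1 p.2 then min (W p.1) (W p.2) * (f p.1 - f p.2) ^ 2 else 0) := by
        apply mul_le_mul_of_nonneg_left _ (by positivity)
        refine Finset.sum_le_sum fun p _ => ?_
        by_cases hA : A p.1 p.2
        · simp only [hA, if_true]
          rw [← mul_assoc]
          apply mul_le_mul_of_nonneg_right _ (sq_nonneg _)
          rw [mul_min_of_nonneg _ _ hΛ]
          apply le_min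
          · refine le_trans ?_ (hload p.1)
            apply Finset.sum_le_sum_of_subset_of_nonneg
            · intro q hq
              rw [Finset.mem_filter] at hq ⊢
              exact ⟨hq.1, hq.2.1⟩
            · intro q _ _
              exact mul_nonneg (hw _) (hw _)
          · refine le_trans ?_ (hload p.2)
            apply Finset.sum_le_sum_of_subset_of_nonneg
            · intro q hq
              rw [Finset.mem_filter] at hq ⊢
              exact ⟨hq.1, hq.2.2⟩
            · intro q _ _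
              exact mul_nonneg (hw _) (hw _)
        · simp [hA]
    _ = (Lc : ℝ) ^ 2 * Λ * ∑ p ∈ M ×ˢ M,
        (if A p.1 p.2 then min (W p.1) (W p.2) * (f p.1 - f p.2) ^ 2 else 0) := by
        rw [← Finset.mul_sum, mul_assoc]

open Classical in
/-- **The restricted Poincaré inequality.** -/
theorem poincare (E : Exps V) (L : ℕ) (hL : ∀ u v, E.l u v ≤ L) {R : ℝ} (hR : RBd E R)
    (f : Mat V → ℝ) :
    ∑ I ∈ PM V, ∑ F ∈ PM V, wt E I.1 * wt E F.1 * (f I - f F) ^ 2 ≤
      CP (Fintype.card V) R * NN E ∅ *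
        ∑ m ∈ FM V (2 * KK (Fintype.card V)), ∑ m' ∈ FM V (2 * KK (Fintype.card V)),
          if AdjM m.1 m'.1 then min (wh E L m.1) (wh E L m'.1) * (f m - f m') ^ 2 else 0 := by
  have rk := Fintype.equivFin V
  have hN := NN_empty_pos E hR.even
  have hR2 := hR.two
  have hrho : 0 ≤ rho R (KK (Fintype.card V)) := by
    unfold rho
    positivity
  have hΛ : 0 ≤ encN (Fintype.card V) * (((Fintype.card V : ℝ) + 1) ^ (2 * KK (Fintype.card V)) *
      rho R (KK (Fintype.card V))) * NN E ∅ := by positivity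
  have key := poinc_abs (PM V) (FM V (2 * KK (Fintype.card V))) (fun m => wt E m.1)
    (fun m => wh E L m.1) (fun m => (wt_pos E m.1).le) (fun m m' => AdjM m.1 m'.1)
    (fun q m => ∃ (c : V) (s : St V),
        Enc E L (2 * KK (Fintype.card V)) (fun v => (rk v : ℕ)) q.1.1 q.2.1 c s ∧
          m.1 = cur q.1.1 q.2.1 s) hΛ (LL (Fintype.card V)) ?_ ?_ f
  · refine key.trans (le_of_eq ?_)
    unfold CP
    ring
  · rintro ⟨I, F⟩ hq
    rw [Finset.mem_product] at hq
    have hI0 : ∀ v, I.1 v ≠ v := fun v hv => by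
      have h1 := hq.1
      simp only [PM, Finset.mem_filter, Finset.mem_univ, true_and] at h1
      have h2 : v ∈ holes I.1 := mem_holes.2 hv
      rw [h1] at h2
      simp at h2
    have hF0 : ∀ v, F.1 v ≠ v := fun v hv => by
      have h1 := hq.2
      simp only [PM, Finset.mem_filter, Finset.mem_univ, true_and] at h1
      have h2 : v ∈ holes F.1 := mem_holes.2 hv
      rw [h1] at h2
      simp at h2
    obtain ⟨n, g, hn, h0, hn', henc, hstep⟩ := total_path E L rk I.2 F.2 hI0 hF0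
    have hinv : ∀ i ≤ n, ∀ v, g i (g i v) = v := by
      intro i hi
      rcases henc i hi with h | ⟨c, s, hs, he⟩
      · have : i = 0 := by omega
        rw [this, h0]
        exact I.2
      · rw [he]
        exact cur_invol I.2 F.2 hs.vld
    refine ⟨n, fun i => if h : i ≤ n then ⟨g i, hinv i h⟩ else F, hn, ?_, ?_, ?_⟩
    · simp only [Nat.zero_le, dif_pos]
      exact Subtype.ext h0
    · simp only [le_refl, dif_pos]
      exact Subtype.ext hn'
    · intro i hi
      have hi1 : i ≤ n := hi.le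
      have hi2 : i + 1 ≤ n := hi
      simp only [hi1, hi2, dif_pos]
      have hn0 : n ≠ 0 := by omega
      obtain ⟨c, s, hs, he⟩ := (henc i hi1).resolve_left hn0
      obtain ⟨c', s', hs', he'⟩ := (henc (i + 1) hi2).resolve_left hn0
      have hFM : ∀ (x : Mat V) (c : V) (s : St V),
          Enc E L (2 * KK (Fintype.card V)) (fun v => (rk v : ℕ)) I.1 F.1 c s →
          x.1 = cur I.1 F.1 s → x ∈ FM V (2 * KK (Fintype.card V)) := by
        intro x c s hs hx
        simp only [FM, Finset.mem_filter, Finset.mem_univ, true_and]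
        rw [hx]
        have h1 := card_holes_cur_add hI0 hF0 s
        have h2 := hs.card
        omega
      rcases hstep i hi with h | h
      · left
        exact Subtype.ext h
      · right
        exact ⟨h, hFM _ c s hs he, hFM _ c' s' hs' he', ⟨c, s, hs, he⟩, ⟨c', s', hs', he'⟩⟩
  · intro t
    have h := load_le E L hL hR rk t.1
    refine le_trans (le_of_eq (Finset.sum_congr ?_ fun _ _ => rfl)) h
    ext q
    simp only [Finset.mem_filter]

end Vale.Agent.P308Q
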