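import Vale.Agent.P308Q.Kern
import Vale.Agent.P308Q.Poinc

/-!
# Convergence at one stage
-/

namespace Vale.Agent.P308Q

open Finset Vale.Agent.P328R Vale.Agent.P317R Vale.Agent.P328RAM
open scoped ENNReal

variable {n : ℕ}

private theorem stg_Zhat {V : Type} [Fintype V] [DecidableEq V] (E : Exps V) (L : ℕ) {R : ℝ}
    (hR : RBd E R) (K : ℕ) : ∑ m ∈ FM V (2 * K), wh E L m.1 ≤
      (Fintype.card V + 1) ^ (2 * K) * rho R K * NN E ∅ := Zhat_le E L hR K

private theorem stg_rho_nonneg {R : ℝ} (hR : 0 ≤ R) (K : ℕ) : 0 ≤ rho R K := pow_nonneg hR _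

private theorem stg_CP_nonneg {R : ℝ} (hR : 0 ≤ R) (N : ℕ) : 0 ≤ CP N R := by
  have h1 : (0 : ℝ) ≤ (N + 1 : ℝ) ^ (2 * KK N) := pow_nonneg (by positivity) _
  exact mul_nonneg (mul_nonneg (sq_nonneg _) (Nat.cast_nonneg _))
    (mul_nonneg h1 (stg_rho_nonneg hR _))

private theorem stg_sum_FS (H : ℕ) (f : Stt n → ℝ) :
    ∑ x ∈ FS n H, f x = ∑ m ∈ FM (Fin (n + 2)) H, f m.1 := by
  classical
  symm
  refine Finset.sum_bij (fun m _ => m.1) ?_ ?_ ?_ ?_
  · intro m hm
    simp only [FM, mem_filter, mem_univ, true_and] at hm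
    simp only [FS, mem_filter, mem_univ, true_and]
    exact ⟨m.2, hm⟩
  · intro a _ b _ h
    exact Subtype.ext h
  · intro x hx
    simp only [FS, mem_filter, mem_univ, true_and] at hx
    exact ⟨⟨x, hx.1⟩, by simp only [FM, mem_filter, mem_univ, true_and]; exact hx.2, rfl⟩
  · intro m _
    rfl

private theorem stg_sum_PS (f : Stt n → ℝ) :
    ∑ x ∈ PS n, f x = ∑ m ∈ PM (Fin (n + 2)), f m.1 := by
  classical
  symm
  refine Finset.sum_bij (fun m _ => m.1) ?_ ?_ ?_ ?_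
  · intro m hm
    simp only [PM, mem_filter, mem_univ, true_and] at hm
    simp only [PS, mem_filter, mem_univ, true_and]
    exact ⟨m.2, hm⟩
  · intro a _ b _ h
    exact Subtype.ext h
  · intro x hx
    simp only [PS, mem_filter, mem_univ, true_and] at hx
    exact ⟨⟨x, hx.1⟩, by simp only [PM, mem_filter, mem_univ, true_and]; exact hx.2, rfl⟩
  · intro m _
    rfl

private theorem stg_PS_sub (H : ℕ) : PS n ⊆ FS n H := by
  intro x hx
  simp only [PS, mem_filter, mem_univ, true_and] at hx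
  simp only [FS, mem_filter, mem_univ, true_and]
  exact ⟨hx.1, by rw [hx.2]; simp⟩

private theorem stg_NN (E : Exps (Fin (n + 2))) :
    ∑ m ∈ PM (Fin (n + 2)), wt E m.1 = NN E ∅ := by
  unfold NN PM
  rw [Finset.sum_filter]

private theorem stg_wph_PS (p : Par) (b : Ext n) (h : IsExt b) (hB : ∀ u v, b u v ≤ p.B)
    {x : Stt n} (hx : x ∈ PS n) : wph p b x = wt (toE b h) x := by
  simp only [PS, mem_filter, mem_univ, true_and] at hx
  rw [wph_eq p b h hB hx.1, if_pos hx.2, mul_one, wh_perfect _ _ hx.2]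

private theorem stg_sum_wph (p : Par) (b : Ext n) (h : IsExt b) (hB : ∀ u v, b u v ≤ p.B) :
    ∑ x ∈ PS n, wph p b x = NN (toE b h) ∅ := by
  rw [Finset.sum_congr rfl fun x hx => stg_wph_PS p b h hB hx, stg_sum_PS, stg_NN]

private theorem stg_Z_pos (p : Par) (b : Ext n) (h : IsExt b) (hB : ∀ u v, b u v ≤ p.B)
    (hN : 0 < NN (toE b h) ∅) : 0 < ∑ x ∈ FS n p.H, wph p b x := by
  refine lt_of_lt_of_le hN ?_
  rw [← stg_sum_wph p b h hB]
  exact Finset.sum_le_sum_of_subset_of_nonneg (stg_PS_sub _) fun x _ _ => (wph_pos p b x).le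

private theorem stg_mass (p : Par) (b : Ext n) (h : IsExt b) (hB : ∀ u v, b u v ≤ p.B)
    (hN : 0 < NN (toE b h) ∅) :
    mass (piS p b) (PS n) = NN (toE b h) ∅ / ∑ x ∈ FS n p.H, wph p b x := by
  unfold piS
  rw [gibbs_mass (fun x _ => (wph_pos p b x).le) (stg_Z_pos p b h hB hN) (stg_PS_sub _),
    stg_sum_wph p b h hB]

/-- The mass of the non-perfect states. -/
theorem mass_perfect (p : Par) (b : Ext n) (h : IsExt b) (hB : ∀ u v, b u v ≤ p.B)
    (hH : p.H = 2 * KK (n + 2)) {R : ℝ} (hR : RBd (toE b h) R) :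
    1 - (2 : ℝ)⁻¹ ^ p.g * ((n + 3 : ℝ) ^ (2 * KK (n + 2)) * rho R (KK (n + 2))) ≤
      mass (piS p b) (PS n) := by
  classical
  have hN := NN_empty_pos (toE b h) hR.even
  set N := NN (toE b h) ∅ with hNdef
  have hZ := stg_Z_pos p b h hB hN
  set Z := ∑ x ∈ FS n p.H, wph p b x with hZdef
  rw [stg_mass p b h hB hN, ← hZdef, ← hNdef]
  set c := (2 : ℝ)⁻¹ ^ p.g with hc
  have hc0 : 0 < c := by positivity
  set W := (n + 3 : ℝ) ^ (2 * KK (n + 2)) * rho R (KK (n + 2)) with hW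
  have hZh := stg_Zhat (toE b h) p.B hR (KK (n + 2))
  rw [Fintype.card_fin] at hZh
  -- `Z ≤ N + c W N`
  have hZle : Z ≤ N + c * (W * N) := by
    have h1 : Z = ∑ x ∈ PS n, wph p b x + ∑ x ∈ FS n p.H \ PS n, wph p b x := by
      rw [hZdef, add_comm, Finset.sum_sdiff (stg_PS_sub _)]
    have h2 : ∑ x ∈ FS n p.H \ PS n, wph p b x ≤ ∑ x ∈ FS n p.H, c * wh (toE b h) p.B x := by
      refine (Finset.sum_le_sum (g := fun x => c * wh (toE b h) p.B x) ?_).trans
        (Finset.sum_le_sum_of_subset_of_nonneg Finset.sdiff_subset fun x _ _ =>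
          (mul_pos hc0 (wh_pos _ _ _)).le)
      intro x hx
      rw [Finset.mem_sdiff] at hx
      have hx1 := hx.1
      have hx2 := hx.2
      simp only [FS, mem_filter, mem_univ, true_and] at hx1
      simp only [PS, mem_filter, mem_univ, true_and, not_and] at hx2
      rw [wph_eq p b h hB hx1.1, if_neg (hx2 hx1.1), ← hc]
      exact le_of_eq (mul_comm _ _)
    have h3 : ∑ x ∈ FS n p.H, c * wh (toE b h) p.B x ≤ c * (W * N) := by
      rw [← Finset.mul_sum, stg_sum_FS]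
      refine mul_le_mul_of_nonneg_left ?_ hc0.le
      rw [hH]
      refine hZh.trans (le_of_eq ?_)
      rw [hW]
      push_cast
      ring
    rw [h1, stg_sum_wph p b h hB]
    linarith
  rw [le_div_iff₀ hZ]
  have hW0 : 0 ≤ W := by
    have h2R := hR.two
    exact mul_nonneg (pow_nonneg (by positivity) _) (stg_rho_nonneg (by linarith) _)
  nlinarith [mul_nonneg (mul_nonneg hc0.le hW0) (sub_nonneg.2 (show N ≤ Z by
    rw [hNdef, ← stg_sum_wph p b h hB]
    exact Finset.sum_le_sum_of_subset_of_nonneg (stg_PS_sub _) fun x _ _ => (wph_pos p b x).le))]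

private theorem stg_var {σ : Type} (F : Finset σ) (w : σ → ℝ) (hW : 0 < ∑ x ∈ F, w x)
    (g : σ → ℝ) :
    ∑ x ∈ F, w x * (g x - (∑ z ∈ F, w z * g z) / ∑ z ∈ F, w z) ^ 2
      = (1 / (2 * ∑ z ∈ F, w z)) * ∑ x ∈ F, ∑ y ∈ F, w x * w y * (g x - g y) ^ 2 := by
  set W := ∑ z ∈ F, w z with hWd
  set S1 := ∑ z ∈ F, w z * g z with hS1
  set S2 := ∑ z ∈ F, w z * g z ^ 2 with hS2
  have h1 : ∑ x ∈ F, w x * (g x - S1 / W) ^ 2 = S2 - S1 ^ 2 / W := by
    have : ∀ x ∈ F, w x * (g x - S1 / W) ^ 2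
        = w x * g x ^ 2 - 2 * (S1 / W) * (w x * g x) + (S1 / W) ^ 2 * w x := by
      intro x _
      ring
    rw [Finset.sum_congr rfl this, Finset.sum_add_distrib, Finset.sum_sub_distrib,
      ← Finset.mul_sum, ← Finset.mul_sum, ← hS1, ← hS2, ← hWd]
    field_simp
    ring
  have h2 : ∑ x ∈ F, ∑ y ∈ F, w x * w y * (g x - g y) ^ 2 = 2 * W * S2 - 2 * S1 ^ 2 := by
    have : ∀ x ∈ F, ∑ y ∈ F, w x * w y * (g x - g y) ^ 2
        = w x * g x ^ 2 * W - 2 * (w x * g x) * S1 + w x * S2 := by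
      intro x _
      rw [hWd, hS1, hS2, Finset.mul_sum, Finset.mul_sum, Finset.mul_sum,
        ← Finset.sum_sub_distrib, ← Finset.sum_add_distrib]
      refine Finset.sum_congr rfl fun y _ => ?_
      ring
    rw [Finset.sum_congr rfl this, Finset.sum_add_distrib, Finset.sum_sub_distrib,
      ← Finset.sum_mul, ← Finset.sum_mul, ← Finset.sum_mul, ← Finset.mul_sum, ← hS1, ← hS2,
      ← hWd]
    ring
  rw [h1, h2]
  field_simp

/-- The variance on the perfect states is controlled by the Dirichlet form. -/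
theorem restricted (p : Par) (b : Ext n) (h : IsExt b) (hB : ∀ u v, b u v ≤ p.B)
    (hBn : n + 2 ≤ 2 ^ p.Bn) (hH : p.H = 2 * KK (n + 2)) {R : ℝ} (hR : RBd (toE b h) R)
    (g : Stt n → ℝ) :
    ∑ x ∈ PS n, (piS p b x).toReal *
      (g x - (∑ z ∈ PS n, (piS p b z).toReal * g z) / mass (piS p b) (PS n)) ^ 2 ≤
      (CP (n + 2) R * 4 ^ p.Bn * 2 ^ p.g) *
        dir (FS n p.H) (piS p b) (stepK p b (fw b (n + 2))) g := by
  classical
  have hN := NN_empty_pos (toE b h) hR.even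
  set N := NN (toE b h) ∅ with hNdef
  have hZ := stg_Z_pos p b h hB hN
  set Z := ∑ x ∈ FS n p.H, wph p b x with hZdef
  have hpi : ∀ x ∈ FS n p.H, (piS p b x).toReal = wph p b x / Z := fun x hx =>
    gibbs_apply (fun x _ => (wph_pos p b x).le) hZ hx
  have hpiP : ∀ x ∈ PS n, (piS p b x).toReal = wt (toE b h) x / Z := fun x hx => by
    rw [hpi x (stg_PS_sub _ hx), stg_wph_PS p b h hB hx]
  have hmass : mass (piS p b) (PS n) = ∑ x ∈ PS n, (piS p b x).toReal := rfl
  have hmass2 : ∑ x ∈ PS n, (piS p b x).toReal = N / Z := by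
    rw [← hmass, stg_mass p b h hB hN]
  rw [hmass, stg_var (PS n) (fun x => (piS p b x).toReal) (by rw [hmass2]; positivity) g, hmass2]
  -- the double sum over perfect matchings
  have h1 : ∑ x ∈ PS n, ∑ y ∈ PS n, (piS p b x).toReal * (piS p b y).toReal * (g x - g y) ^ 2
      = (1 / Z ^ 2) * ∑ I ∈ PM (Fin (n + 2)), ∑ F ∈ PM (Fin (n + 2)),
        wt (toE b h) I.1 * wt (toE b h) F.1 * (g I.1 - g F.1) ^ 2 := by
    rw [← stg_sum_PS (fun x => ∑ F ∈ PM (Fin (n + 2)),
        wt (toE b h) x * wt (toE b h) F.1 * (g x - g F.1) ^ 2), Finset.mul_sum]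
    refine Finset.sum_congr rfl fun x hx => ?_
    rw [← stg_sum_PS (fun y => wt (toE b h) x * wt (toE b h) y * (g x - g y) ^ 2),
      Finset.mul_sum]
    refine Finset.sum_congr rfl fun y hy => ?_
    rw [hpiP x hx, hpiP y hy]
    field_simp
  have h2 := poincare (toE b h) p.B hB hR (fun m : Mat (Fin (n + 2)) => g m.1)
  rw [Fintype.card_fin] at h2
  -- the Dirichlet form
  set T := ∑ m ∈ FM (Fin (n + 2)) (2 * KK (n + 2)), ∑ m' ∈ FM (Fin (n + 2)) (2 * KK (n + 2)),
          (if AdjM m.1 m'.1 then min (wh (toE b h) p.B m.1) (wh (toE b h) p.B m'.1)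
            * (g m.1 - g m'.1) ^ 2 else 0) with hT
  have hT2 : ∑ m ∈ FM (Fin (n + 2)) (2 * KK (n + 2)), ∑ m' ∈ FM (Fin (n + 2)) (2 * KK (n + 2)),
          (if AdjM m.1 m'.1 then min (wh (toE b h) p.B m.1) (wh (toE b h) p.B m'.1)
            * (g m.1 - g m'.1) ^ 2 else 0)
      = ∑ x ∈ FS n p.H, ∑ y ∈ FS n p.H,
          (if AdjM x y then min (wh (toE b h) p.B x) (wh (toE b h) p.B y)
            * (g x - g y) ^ 2 else 0) := by
    rw [stg_sum_FS p.H, hH]
    refine Finset.sum_congr rfl fun m _ => ?_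
    rw [stg_sum_FS (2 * KK (n + 2))]
  have h3 : (1 / 2) * ((4 : ℝ)⁻¹ ^ p.Bn * (2 : ℝ)⁻¹ ^ p.g * (T / Z)) ≤
      dir (FS n p.H) (piS p b) (stepK p b (fw b (n + 2))) g := by
    unfold dir
    refine mul_le_mul_of_nonneg_left ?_ (by norm_num)
    rw [hT, hT2, Finset.sum_div, Finset.mul_sum]
    refine Finset.sum_le_sum fun x hx => ?_
    rw [Finset.sum_div, Finset.mul_sum]
    refine Finset.sum_le_sum fun y hy => ?_
    by_cases hxy : x = y
    · subst hxy
      have : (if AdjM x x then min (wh (toE b h) p.B x) (wh (toE b h) p.B x)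
            * (g x - g x) ^ 2 else 0) = 0 := by
        split_ifs <;> simp
      rw [this]
      simp
    · have hx' := hx
      have hy' := hy
      simp only [FS, mem_filter, mem_univ, true_and] at hx' hy'
      rw [stepK_val p b hBn hx'.1 hxy, hpi x hx]
      by_cases hadj : AdjM x y
      · rw [if_pos hadj, if_pos ⟨hadj, hy'.2⟩]
        have hwx := wph_pos p b x
        have e1 : wph p b x / Z * ((4 : ℝ)⁻¹ ^ p.Bn * min 1 (wph p b y / wph p b x))
            = (4 : ℝ)⁻¹ ^ p.Bn * (min (wph p b x) (wph p b y) / Z) := by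
          have : min (wph p b x) (wph p b y) = wph p b x * min 1 (wph p b y / wph p b x) := by
            rw [mul_min_of_nonneg _ _ hwx.le, mul_one, mul_div_cancel₀ _ hwx.ne']
          rw [this]
          ring
        rw [e1]
        have e2 : (2 : ℝ)⁻¹ ^ p.g * min (wh (toE b h) p.B x) (wh (toE b h) p.B y)
            ≤ min (wph p b x) (wph p b y) := by
          have hle : ∀ z : Stt n, (∀ v, z (z v) = v) →
              (2 : ℝ)⁻¹ ^ p.g * wh (toE b h) p.B z ≤ wph p b z := by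
            intro z hz
            rw [wph_eq p b h hB hz, mul_comm]
            refine mul_le_mul_of_nonneg_left ?_ (wh_pos _ _ _).le
            split_ifs
            · exact pow_le_one₀ (by norm_num) (by norm_num)
            · exact le_rfl
          refine le_min ?_ ?_
          · exact (mul_le_mul_of_nonneg_left (min_le_left _ _) (by positivity)).trans
              (hle x hx'.1)
          · exact (mul_le_mul_of_nonneg_left (min_le_right _ _) (by positivity)).trans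
              (hle y hy'.1)
        calc (4 : ℝ)⁻¹ ^ p.Bn * (2 : ℝ)⁻¹ ^ p.g *
              (min (wh (toE b h) p.B x) (wh (toE b h) p.B y) * (g x - g y) ^ 2 / Z)
            = (4 : ℝ)⁻¹ ^ p.Bn * (((2 : ℝ)⁻¹ ^ p.g *
              min (wh (toE b h) p.B x) (wh (toE b h) p.B y)) / Z) * (g x - g y) ^ 2 := by ring
          _ ≤ (4 : ℝ)⁻¹ ^ p.Bn * (min (wph p b x) (wph p b y) / Z) * (g x - g y) ^ 2 := by
              refine mul_le_mul_of_nonneg_right ?_ (sq_nonneg _)
              refine mul_le_mul_of_nonneg_left ?_ (by positivity)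
              exact div_le_div_of_nonneg_right e2 hZ.le
      · rw [if_neg hadj, if_neg (fun hh => hadj hh.1)]
        simp
  have hCP : 0 ≤ CP (n + 2) R := by
    have h2R := hR.two
    exact stg_CP_nonneg (by linarith) _
  have h4 : (CP (n + 2) R * 4 ^ p.Bn * 2 ^ p.g) *
      ((1 / 2) * ((4 : ℝ)⁻¹ ^ p.Bn * (2 : ℝ)⁻¹ ^ p.g * (T / Z)))
      = CP (n + 2) R * (T / (2 * Z)) := by
    have e4 : (4 : ℝ) ^ p.Bn * (4 : ℝ)⁻¹ ^ p.Bn = 1 := by
      rw [← mul_pow]; norm_num
    have e2 : (2 : ℝ) ^ p.g * (2 : ℝ)⁻¹ ^ p.g = 1 := by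
      rw [← mul_pow]; norm_num
    calc (CP (n + 2) R * 4 ^ p.Bn * 2 ^ p.g) *
      ((1 / 2) * ((4 : ℝ)⁻¹ ^ p.Bn * (2 : ℝ)⁻¹ ^ p.g * (T / Z)))
        = CP (n + 2) R * ((4 : ℝ) ^ p.Bn * (4 : ℝ)⁻¹ ^ p.Bn) * ((2 : ℝ) ^ p.g * (2 : ℝ)⁻¹ ^ p.g)
          * (1 / 2 * (T / Z)) := by ring
      _ = CP (n + 2) R * (T / (2 * Z)) := by
        rw [e4, e2]
        field_simp
  refine le_trans ?_ (mul_le_mul_of_nonneg_left h3 (by positivity))
  rw [h4]
  have h5 : ∑ x ∈ PS n, ∑ y ∈ PS n, (fun x => (piS p b x).toReal) x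
      * (fun x => (piS p b x).toReal) y * (g x - g y) ^ 2
      ≤ (1 / Z ^ 2) * (CP (n + 2) R * N * T) := by
    have e := h1
    simp only at e ⊢
    rw [e]
    exact mul_le_mul_of_nonneg_left h2 (by positivity)
  calc (1 / (2 * (N / Z))) * ∑ x ∈ PS n, ∑ y ∈ PS n, (fun x => (piS p b x).toReal) x
      * (fun x => (piS p b x).toReal) y * (g x - g y) ^ 2
      ≤ (1 / (2 * (N / Z))) * ((1 / Z ^ 2) * (CP (n + 2) R * N * T)) :=
        mul_le_mul_of_nonneg_left h5 (by positivity)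
    _ = CP (n + 2) R * (T / (2 * Z)) := by
        field_simp

/-- The law on the perfect states is the conditional law. -/
theorem piP_cond (p : Par) (b : Ext n) (h : IsExt b) (hB : ∀ u v, b u v ≤ p.B) (hn : Even n)
    {x : Stt n} (hx : x ∈ PS n) :
    (piP b x).toReal = (piS p b x).toReal / mass (piS p b) (PS n) := by
  classical
  have hev : Even (Fintype.card (Fin (n + 2))) := by
    rw [Fintype.card_fin]
    exact hn.add (by decide)
  have hN := NN_empty_pos (toE b h) hev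
  have hZ := stg_Z_pos p b h hB hN
  have hsum : ∑ z ∈ PS n, q2 ^ (∑ v, b v (z v)) = NN (toE b h) ∅ := by
    rw [← stg_sum_wph p b h hB]
    refine Finset.sum_congr rfl fun z hz => ?_
    rw [stg_wph_PS p b h hB hz]
    rfl
  unfold piP
  rw [gibbs_apply (fun z _ => (zpow_pos q2_pos _).le) (by rw [hsum]; exact hN) hx, hsum,
    stg_mass p b h hB hN]
  unfold piS
  rw [gibbs_apply (fun z _ => (wph_pos p b z).le) hZ (stg_PS_sub _ hx),
    stg_wph_PS p b h hB hx, div_div_div_cancel_right₀ hZ.ne']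
  rfl

/-- **Convergence at one stage.** -/
theorem stage_conv (p : Par) (b : Ext n) (h : IsExt b) (hB : ∀ u v, b u v ≤ p.B)
    (hBn : n + 2 ≤ 2 ^ p.Bn) (hH : p.H = 2 * KK (n + 2)) {R : ℝ} (hR : RBd (toE b h) R)
    {η : ℝ} (hη : η ≤ 1 / 2)
    (hg : (2 : ℝ)⁻¹ ^ p.g * ((n + 3 : ℝ) ^ (2 * KK (n + 2)) * rho R (KK (n + 2))) ≤ η)
    {μ : PMF (Stt n)} {D : ℝ} (hD : 0 ≤ D) (hM : ∀ x, (μ x).toReal ≤ D * (piP b x).toReal) :
    TVle (μ.bind (stageK p b)) (piP b) (ENNReal.ofReal (2 * D * η +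
      Real.sqrt (2 * (CP (n + 2) R * 4 ^ p.Bn * 2 ^ p.g) * D / (p.T + 1)))) := by
  classical
  have hn : Even n := by
    have h1 := hR.even
    rw [Fintype.card_fin] at h1
    exact (Nat.even_add.1 h1).2 (by decide)
  have hN := NN_empty_pos (toE b h) hR.even
  have hCP : 0 ≤ CP (n + 2) R := by
    have h2R := hR.two
    exact stg_CP_nonneg (by linarith) _
  refine conv (stepK_rev p b hBn hn) (stg_PS_sub _) hη ?_ ?_
    (fun x hx => piP_cond p b h hB hn hx) (by positivity)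
    (fun g => restricted p b h hB hBn hH hR g) hD hM p.T
  · have := mass_perfect p b h hB hH hR
    linarith
  · intro x hx
    unfold piP
    refine gibbs_off (fun z _ => (zpow_pos q2_pos _).le) ?_ hx
    have hsum : ∑ z ∈ PS n, q2 ^ (∑ v, b v (z v)) = NN (toE b h) ∅ := by
      rw [← stg_sum_wph p b h hB]
      refine Finset.sum_congr rfl fun z hz => ?_
      rw [stg_wph_PS p b h hB hz]
      rfl
    rw [hsum]
    exact hN

end Vale.Agent.P308Q
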