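import Vale.Agent.P308Q.Ends
import Vale.Agent.P308Q.Stage
import Vale.Agent.P328R.Est

/-!
# Passes and counters
-/

namespace Vale.Agent.P308Q

open Finset Vale.Agent.P328R Vale.Agent.P317R Vale.Agent.P328RAM
open scoped ENNReal

variable {n : ℕ}

/-- mass of the non-perfect states -/
noncomputable def etaP (p : Par) (n : ℕ) : ℝ :=
  (2 : ℝ)⁻¹ ^ p.g * ((n + 3 : ℝ) ^ (2 * KK (n + 2)) * rho (64 * (n + 1)) (KK (n + 2)))

/-- error of one stage -/
noncomputable def epsP (p : Par) (n : ℕ) : ℝ :=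
  2 * (16 * (n + 1)) * etaP p n +
    Real.sqrt (2 * (CP (n + 2) (64 * (n + 1)) * 4 ^ p.Bn * 2 ^ p.g) * (16 * (n + 1)) / (p.T + 1))

/-- An admissible history of scaled exponents. -/
structure Hist (p : Par) (hist : ℕ → Ext n) (i : ℕ) : Prop where
  ok : ∀ j ≤ i, ∃ h : IsExt (hist j), RBd (toE (hist j) h) (64 * (n + 1))
  bd : ∀ j ≤ i, ∀ u v, hist j u v ≤ p.B
  start : ∀ M : Stt n, ((PMF.pure (M0 n) : PMF (Stt n)) M).toReal ≤
    16 * (n + 1) * (piP (hist 0) M).toReal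
  dens : ∀ j < i, ∀ M : Stt n, (piP (hist j) M).toReal ≤ 16 * (piP (hist (j + 1)) M).toReal

/-- **The law at the end of a pass.** -/
theorem pass_tv (p : Par) (hBn : n + 2 ≤ 2 ^ p.Bn) (hH : p.H = 2 * KK (n + 2))
    (hη : etaP p n ≤ 1 / 2) {hist : ℕ → Ext n} {i : ℕ} (h : Hist p hist i) :
    TVle (passK p hist i) (piP (hist i)) (ENNReal.ofReal ((i + 1) * epsP p n)) := by
  have hη0 : 0 ≤ etaP p n := by
    unfold etaP rho
    positivity
  have hε0 : 0 ≤ epsP p n := by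
    unfold epsP
    have := Real.sqrt_nonneg (2 * (CP (n + 2) (64 * (n + 1)) * 4 ^ p.Bn * 2 ^ p.g) *
      (16 * (n + 1)) / (p.T + 1))
    positivity
  have key : ∀ j ≤ i, TVle (seqBind (fun j => stageK p (hist j)) (j + 1) (M0 n)) (piP (hist j))
      (ENNReal.ofReal ((j + 1) * epsP p n)) := by
    intro j
    induction j with
    | zero =>
      intro hj
      obtain ⟨hx, hR⟩ := h.ok 0 hj
      have h1 := stage_conv p (hist 0) hx (h.bd 0 hj) hBn hH hR hη (le_refl (etaP p n))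
        (μ := PMF.pure (M0 n)) (D := 16 * (n + 1)) (by positivity) h.start
      have h2 : ((0 : ℕ) + 1 : ℝ) * epsP p n = epsP p n := by
        rw [Nat.cast_zero, zero_add, one_mul]
      rw [h2]
      exact h1
    | succ j ih =>
      intro hj
      obtain ⟨hx, hR⟩ := h.ok (j + 1) hj
      have h0 := (ih (by omega)).bind (stageK p (hist (j + 1)))
      have h1 := stage_conv p (hist (j + 1)) hx (h.bd (j + 1) hj) hBn hH hR hη
        (le_refl (etaP p n)) (μ := piP (hist j)) (D := 16 * (n + 1)) (by positivity) (fun x => by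
          refine (h.dens j (by omega) x).trans ?_
          have h3 : (0 : ℝ) ≤ (piP (hist (j + 1)) x).toReal := ENNReal.toReal_nonneg
          have h4 : (0 : ℝ) ≤ (n : ℝ) := Nat.cast_nonneg n
          nlinarith [mul_nonneg h4 h3])
      have h2 := h0.trans h1
      refine h2.mono (le_of_eq ?_)
      rw [← ENNReal.ofReal_add (by positivity) (by exact hε0)]
      congr 1
      push_cast
      unfold epsP
      ring
  exact key i le_rfl

/-- the counted events -/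
def ev (n : ℕ) (e : ℕ × ℕ) : Option (Fin (n + 2)) → Set (Stt n)
  | none => {M | M (vα n) = vβ n ∧ ∃ u : Fin (n + 2), (u : ℕ) = e.1 ∧ ((M u : Fin (n + 2)) : ℕ) = e.2}
  | some u => {M | M (vα n) = u}

/-- their probabilities -/
noncomputable def prT (b : Ext n) (e : ℕ × ℕ) (o : Option (Fin (n + 2))) : ℝ :=
  ((piP b).toOuterMeasure (ev n e o)).toReal

theorem cnt_step (e : ℕ × ℕ) (M : Stt n) (c : Cnt n) (o : Option (Fin (n + 2))) :
    (M ∈ ev n e o ∧ cntU e M c o = c o + 1) ∨ (M ∉ ev n e o ∧ cntU e M c o = c o) := by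
  cases o with
  | none =>
    by_cases h : M (vα n) = vβ n ∧
        (∃ u : Fin (n + 2), (u : ℕ) = e.1 ∧ ((M u : Fin (n + 2)) : ℕ) = e.2)
    · exact Or.inl ⟨h, if_pos h⟩
    · exact Or.inr ⟨h, if_neg h⟩
  | some u =>
    by_cases h : M (vα n) = u
    · exact Or.inl ⟨h, if_pos h⟩
    · exact Or.inr ⟨h, if_neg h⟩

/-- **The counters are accurate.** -/
theorem cnt_good (p : Par) (e : ℕ × ℕ) (hist : ℕ → Ext n) (i : ℕ) {δ τ : ℝ} (hδ : 0 ≤ δ)
    (hTV : TVle (passK p hist i) (piP (hist i)) (ENNReal.ofReal δ)) (hτ0 : 0 ≤ τ) (hτ : τ ≤ 2)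
    (hS : 0 < p.S) :
    (cntK p e hist i).toOuterMeasure {c | ∃ o, δ + τ < |(c o : ℝ) / p.S - prT (hist i) e o|} ≤
      ENNReal.ofReal (2 * (n + 3) * Real.exp (-(p.S * τ ^ 2 / 4))) := by
  have h := counters_good (K := fun c : Cnt n => (passK p hist i).map fun M => cntU e M c)
    (I := fun _ => True) (fun _ _ _ _ => trivial)
    (c := fun (o : Option (Fin (n + 2))) (x : Cnt n) => (x o : ℝ))
    (p := fun o => prT (hist i) e o) (η := δ) (τ := τ) ?_ ?_ hτ0 hτ p.S (fun _ => 0) trivial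
    (fun _ => Nat.cast_zero) hS
  · refine h.trans (le_of_eq ?_)
    congr 2
    rw [Fintype.card_option, Fintype.card_fin]
    push_cast
    ring
  · intro o x _ y hy
    rw [PMF.support_map] at hy
    obtain ⟨M, _, rfl⟩ := hy
    rcases cnt_step e M x o with ⟨_, h2⟩ | ⟨_, h2⟩
    · right
      show ((cntU e M x o : ℕ) : ℝ) = (x o : ℝ) + 1
      rw [h2]
      push_cast
      ring
    · left
      show ((cntU e M x o : ℕ) : ℝ) = (x o : ℝ)
      rw [h2]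
  · intro o x _
    have hset : (fun M => cntU e M x) ⁻¹' {y : Cnt n | (y o : ℝ) = (x o : ℝ) + 1} = ev n e o := by
      ext M
      show ((cntU e M x o : ℕ) : ℝ) = (x o : ℝ) + 1 ↔ M ∈ ev n e o
      rcases cnt_step e M x o with ⟨h1, h2⟩ | ⟨h1, h2⟩
      · rw [h2]
        refine iff_of_true ?_ h1
        push_cast
        ring
      · rw [h2]
        refine iff_of_false ?_ h1
        intro h3
        linarith
    rw [PMF.toOuterMeasure_map_apply, hset]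
    exact hTV.abs_prob hδ (ev n e o)

private theorem prt_eq (b : Ext n) (hn : Even n) (A : Set (Stt n)) [DecidablePred (· ∈ A)] :
    ((piP b).toOuterMeasure A).toReal = (∑ z ∈ (PS n).filter (· ∈ A), wb b z) / NB b ∅ := by
  have h0 : ∀ x ∈ PS n, 0 ≤ wb b x := fun x _ => (zpow_pos q2_pos _).le
  have hN : ∑ x ∈ PS n, wb b x = NB b ∅ := rfl
  have h1 : 0 < ∑ x ∈ PS n, wb b x := by
    rw [hN]
    exact NB_pos b ∅ hn (by simp)
  have h2 := gibbs_prob h0 h1 A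
  rw [hN] at h2
  exact h2

theorem prT_some (b : Ext n) (h : IsScl b) (hn : Even n) (e : ℕ × ℕ) {u : Fin (n + 2)}
    (hu : u ≠ vα n) : prT b e (some u) = NB b {vα n, u} / NB b ∅ := by
  classical
  unfold prT
  rw [prt_eq b hn, ← NB_alpha b h hu]
  refine congrArg (fun x : ℝ => x / NB b ∅) (Finset.sum_congr (Finset.filter_congr ?_) fun _ _ => rfl)
  intro M _
  rfl

theorem prT_none (b : Ext n) (h : IsScl b) (hn : Even n) (u v : Fin n) :
    prT b ((u : ℕ), (v : ℕ)) none =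
      (∑ M ∈ (PS n).filter (fun M => M (vα n) = vβ n ∧ M (vv u) = vv v), wb b M) / NB b ∅ := by
  classical
  unfold prT
  rw [prt_eq b hn]
  refine congrArg (fun x : ℝ => x / NB b ∅) (Finset.sum_congr (Finset.filter_congr ?_) fun _ _ => rfl)
  intro M _
  constructor
  · rintro ⟨h1, w, h2, h3⟩
    refine ⟨h1, ?_⟩
    have hw : w = vv u := Fin.ext h2
    rw [hw] at h3
    exact Fin.ext h3
  · rintro ⟨h1, h2⟩
    exact ⟨h1, vv u, rfl, congrArg Fin.val h2⟩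

/-- **The decisions are right.** -/
theorem dy_right (b : Ext n) (h : IsScl b) (hn : Even n) (hr : ∀ u, rw' b u ≤ 8) (e : ℕ × ℕ)
    {S : ℕ} (hS : 0 < S) {c : Cnt n} {τ : ℝ} (hτ : τ ≤ 1 / (20 * (1 + 8 * n)))
    (hc : ∀ o, |(c o : ℝ) / S - prT b e o| ≤ τ) (u : Fin n) :
    (dy c u = 0 ∧ 1 / 4 ≤ rw' b u ∧ rw' b u ≤ 4) ∨ (dy c u = 1 ∧ 21 / 10 ≤ rw' b u) ∨
      (dy c u = -1 ∧ rw' b u ≤ 2 / 5) := by
  have hn8 : (0 : ℝ) < 1 + 8 * n := by positivity
  have hP := ab_prob b h hn hr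
  set P := NB b {vα n, vβ n} / NB b ∅ with hPdef
  have hPpos : 0 < P := lt_of_lt_of_le (by positivity) hP
  have hτP : 20 * τ ≤ P := by
    have h1 : 20 * τ ≤ 1 / (1 + 8 * n) := by
      calc 20 * τ ≤ 20 * (1 / (20 * (1 + 8 * n))) := mul_le_mul_of_nonneg_left hτ (by norm_num)
        _ = 1 / (1 + 8 * n) := by field_simp
    exact h1.trans hP
  have hβα : vβ n ≠ vα n := by
    intro hh
    have := congrArg Fin.val hh
    simp [vα, vβ] at this
  have huα : vv u ≠ vα n := by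
    intro hh
    have := congrArg Fin.val hh
    simp only [vv, vα] at this
    have := u.2
    omega
  have hNβ : 0 < NB b {vα n, vβ n} :=
    NB_pos b _ hn (by rw [Finset.card_pair hβα.symm]; exact even_two)
  have hrP : NB b {vα n, vv u} / NB b ∅ = rw' b u * P := by
    rw [hPdef]
    unfold rw'
    field_simp
  have h1 := hc (some (vβ n))
  have h2 := hc (some (vv u))
  rw [prT_some b h hn e hβα, ← hPdef, abs_le] at h1
  rw [prT_some b h hn e huα, hrP, abs_le] at h2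
  set r := rw' b u with hrdef
  have hS' : (0 : ℝ) < S := by exact_mod_cast hS
  set x := (c (some (vβ n)) : ℝ) / S with hx
  set y := (c (some (vv u)) : ℝ) / S with hy
  have hdy : dy c u = if 3 * c (some (vβ n)) ≤ c (some (vv u)) then 1
    else if 3 * c (some (vv u)) ≤ c (some (vβ n)) then -1 else 0 := by
    unfold dy
    rw [dif_pos u.2]
    rfl
  have hle : ∀ p q : ℕ, 3 * p ≤ q → 3 * ((p : ℝ) / S) ≤ (q : ℝ) / S := by
    intro p q hpq
    have h3 : (3 : ℝ) * p ≤ q := by exact_mod_cast hpq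
    rw [← mul_div_assoc]
    exact div_le_div_of_nonneg_right h3 hS'.le
  have hlt : ∀ p q : ℕ, ¬ 3 * p ≤ q → (q : ℝ) / S ≤ 3 * ((p : ℝ) / S) := by
    intro p q hpq
    have h3 : (q : ℝ) ≤ 3 * p := by exact_mod_cast (not_le.1 hpq).le
    rw [← mul_div_assoc]
    exact div_le_div_of_nonneg_right h3 hS'.le
  rw [hdy]
  by_cases hA : 3 * c (some (vβ n)) ≤ c (some (vv u))
  · rw [if_pos hA]
    have h3 := hle _ _ hA
    rw [← hx, ← hy] at h3
    refine Or.inr (Or.inl ⟨rfl, ?_⟩)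
    have h4 : (21 / 10) * P ≤ r * P := by linarith
    exact le_of_mul_le_mul_right h4 hPpos
  · rw [if_neg hA]
    have h3 := hlt _ _ hA
    rw [← hx, ← hy] at h3
    by_cases hB : 3 * c (some (vv u)) ≤ c (some (vβ n))
    · rw [if_pos hB]
      have h4 := hle _ _ hB
      rw [← hx, ← hy] at h4
      refine Or.inr (Or.inr ⟨rfl, ?_⟩)
      have h5 : r * P ≤ (2 / 5) * P := by linarith
      exact le_of_mul_le_mul_right h5 hPpos
    · rw [if_neg hB]
      have h4 := hlt _ _ hB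
      rw [← hx, ← hy] at h4
      refine Or.inl ⟨rfl, ?_, ?_⟩
      · have h5 : (1 / 4) * P ≤ r * P := by linarith
        exact le_of_mul_le_mul_right h5 hPpos
      · have h5 : r * P ≤ 4 * P := by linarith
        exact le_of_mul_le_mul_right h5 hPpos

/-- what is needed about the frequencies -/
private theorem est_facts (b : Ext n) (h : IsScl b) (hn : Even n) (hr : ∀ u, rw' b u ≤ 8)
    (u v : Fin n) {S : ℕ} {c : Cnt n} {τ θ : ℝ} (hτ : τ ≤ θ / (20 * (1 + 8 * n)))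
    (hc : ∀ o, |(c o : ℝ) / S - prT b ((u : ℕ), (v : ℕ)) o| ≤ τ) {Q : ℝ}
    (hQ : Q = ∑ M ∈ (PS n).filter (fun M => M (vα n) = vβ n ∧ M (vv u) = vv v), wb b M) :
    ∃ p q : ℝ, 0 < p ∧ 0 ≤ q ∧ q ≤ p ∧ 0 ≤ θ ∧ τ ≤ θ * p / 20 ∧ Q / NB b {vα n, vβ n} = q / p ∧
      |(c (some (vβ n)) : ℝ) / S - p| ≤ τ ∧ |(c none : ℝ) / S - q| ≤ τ := by
  have hD : 0 < NB b {vα n, vβ n} := NB_pos b _ hn (card_ab n)
  have h0 : 0 < NB b ∅ := NB_pos b _ hn (by simp)
  have hp := ab_prob b h hn hr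
  have hN : (0 : ℝ) < 1 + 8 * n := by positivity
  have hτ0 : 0 ≤ τ := (abs_nonneg _).trans (hc none)
  have hθ0 : 0 ≤ θ := by
    have h1 : 0 ≤ θ / (20 * (1 + 8 * n)) := hτ0.trans hτ
    by_contra h2
    push Not at h2
    have h3 : θ / (20 * (1 + 8 * n)) < 0 := div_neg_of_neg_of_pos h2 (by positivity)
    linarith
  have hQ0 : 0 ≤ Q := by
    rw [hQ]
    exact Finset.sum_nonneg fun M _ => (wb_pos b M).le
  have hQP : Q ≤ NB b {vα n, vβ n} := by
    rw [hQ, ← NB_alpha b h s2_ab.symm]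
    refine Finset.sum_le_sum_of_subset_of_nonneg ?_ fun M _ _ => (wb_pos b M).le
    intro M hM
    simp only [mem_filter] at hM ⊢
    exact ⟨hM.1, hM.2.1⟩
  refine ⟨NB b {vα n, vβ n} / NB b ∅, Q / NB b ∅, div_pos hD h0, div_nonneg hQ0 h0.le,
    div_le_div_of_nonneg_right hQP h0.le, hθ0, ?_, ?_, ?_, ?_⟩
  · refine hτ.trans ?_
    have h1 : θ / (20 * (1 + 8 * n)) = θ * (1 / (1 + 8 * n)) / 20 := by
      field_simp
    rw [h1]
    have h2 : θ * (1 / (1 + 8 * n)) ≤ θ * (NB b {vα n, vβ n} / NB b ∅) :=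
      mul_le_mul_of_nonneg_left hp hθ0
    linarith
  · rw [div_div_div_cancel_right₀ h0.ne']
  · have h1 := hc (some (vβ n))
    rwa [prT_some b h hn _ s2_ab.symm] at h1
  · have h1 := hc none
    rwa [prT_none b h hn, ← hQ] at h1

private theorem est_pos {S : ℕ} {k : ℕ} {τ θ p : ℝ} (hp : 0 < p) (hθ : θ ≤ 1) (hθ0 : 0 ≤ θ)
    (hτ : τ ≤ θ * p / 20) (hc : |(k : ℝ) / S - p| ≤ τ) : 0 < k := by
  rcases Nat.eq_zero_or_pos k with h | h
  · exfalso
    rw [h] at hc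
    have h1 := (abs_le.1 hc).1
    rw [Nat.cast_zero, zero_div] at h1
    nlinarith
  · exact h

private theorem est_upR {x z p q τ θ : ℝ} (hp : 0 < p) (hq : 0 ≤ q) (hθ : θ ≤ 1) (hθ0 : 0 ≤ θ)
    (hτ : τ ≤ θ * p / 20) (hx : |x - p| ≤ τ) (hz : |z - q| ≤ τ) :
    (1 - θ) * (1 + q / p) ≤ (x + z) / x ∧ (x + z) / x ≤ (1 + θ) * (1 + q / p) := by
  obtain ⟨hx1, hx2⟩ := abs_le.1 hx
  obtain ⟨hz1, hz2⟩ := abs_le.1 hz
  have hθp : θ * p ≤ p := by nlinarith
  have hx0 : 0 < x := by linarith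
  have e : ∀ t : ℝ, t * (1 + q / p) = t * (p + q) / p := by
    intro t
    field_simp
  rw [e, e, div_le_div_iff₀ hp hx0, div_le_div_iff₀ hx0 hp]
  have hθq : 0 ≤ θ * q := mul_nonneg hθ0 hq
  have hs : 0 < p + q := by linarith
  constructor
  · -- (1 - θ) (p + q) x ≤ (x + z) p
    have h1 : (1 - θ) * x ≤ (1 - θ / 10) * p := by nlinarith
    have h2 : (1 - θ / 10) * (p + q) ≤ x + z := by nlinarith
    calc (1 - θ) * (p + q) * x = (p + q) * ((1 - θ) * x) := by ring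
      _ ≤ (p + q) * ((1 - θ / 10) * p) := mul_le_mul_of_nonneg_left h1 hs.le
      _ = ((1 - θ / 10) * (p + q)) * p := by ring
      _ ≤ (x + z) * p := mul_le_mul_of_nonneg_right h2 hp.le
  · have h1 : (1 + θ / 10) * p ≤ (1 + θ) * x := by nlinarith [mul_nonneg hθ0 (sub_nonneg.2 hθ)]
    have h2 : x + z ≤ (1 + θ / 10) * (p + q) := by nlinarith
    calc (x + z) * p ≤ ((1 + θ / 10) * (p + q)) * p := mul_le_mul_of_nonneg_right h2 hp.le
      _ = (p + q) * ((1 + θ / 10) * p) := by ring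
      _ ≤ (p + q) * ((1 + θ) * x) := mul_le_mul_of_nonneg_left h1 hs.le
      _ = (1 + θ) * (p + q) * x := by ring

private theorem est_downR {x z p q τ θ : ℝ} (hp : 0 < p) (hqp : q ≤ p) (hθ : θ ≤ 1) (hθ0 : 0 ≤ θ)
    (hτ : τ ≤ θ * p / 20) (hx : |x - p| ≤ τ) (hz : |z - q| ≤ τ) :
    z ≤ 2 * x ∧ (1 - θ) * (1 - q / p / 2) ≤ (2 * x - z) / (2 * x) ∧
      (2 * x - z) / (2 * x) ≤ (1 + θ) * (1 - q / p / 2) := by
  obtain ⟨hx1, hx2⟩ := abs_le.1 hx
  obtain ⟨hz1, hz2⟩ := abs_le.1 hz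
  have hθp : θ * p ≤ p := by nlinarith
  have hx0 : 0 < 2 * x := by linarith
  have hp2 : 0 < 2 * p := by linarith
  have e : ∀ t : ℝ, t * (1 - q / p / 2) = t * (2 * p - q) / (2 * p) := by
    intro t
    field_simp
  rw [e, e, div_le_div_iff₀ hp2 hx0, div_le_div_iff₀ hx0 hp2]
  have hs : 0 < 2 * p - q := by linarith
  have hθs : θ * p ≤ θ * (2 * p - q) := mul_le_mul_of_nonneg_left (by linarith) hθ0
  refine ⟨by linarith, ?_, ?_⟩
  · have h1 : (1 - θ) * x ≤ (1 - 3 * θ / 20) * p := by nlinarith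
    have h2 : (1 - 3 * θ / 20) * (2 * p - q) ≤ 2 * x - z := by nlinarith
    calc (1 - θ) * (2 * p - q) * (2 * x) = 2 * (2 * p - q) * ((1 - θ) * x) := by ring
      _ ≤ 2 * (2 * p - q) * ((1 - 3 * θ / 20) * p) :=
        mul_le_mul_of_nonneg_left h1 (by positivity)
      _ = ((1 - 3 * θ / 20) * (2 * p - q)) * (2 * p) := by ring
      _ ≤ (2 * x - z) * (2 * p) := mul_le_mul_of_nonneg_right h2 hp2.le
  · have h1 : (1 + 3 * θ / 20) * p ≤ (1 + θ) * x := by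
      nlinarith [mul_nonneg hθ0 (sub_nonneg.2 hθ)]
    have h2 : 2 * x - z ≤ (1 + 3 * θ / 20) * (2 * p - q) := by nlinarith
    calc (2 * x - z) * (2 * p) ≤ ((1 + 3 * θ / 20) * (2 * p - q)) * (2 * p) :=
        mul_le_mul_of_nonneg_right h2 hp2.le
      _ = 2 * (2 * p - q) * ((1 + 3 * θ / 20) * p) := by ring
      _ ≤ 2 * (2 * p - q) * ((1 + θ) * x) := mul_le_mul_of_nonneg_left h1 (by positivity)
      _ = (1 + θ) * (2 * p - q) * (2 * x) := by ring

/-- The estimated ratio in a raising operation. -/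
theorem est_up (b : Ext n) (h : IsScl b) (hn : Even n) (hr : ∀ u, rw' b u ≤ 8) (u v : Fin n)
    {S : ℕ} (hS : 0 < S) {c : Cnt n} {τ θ : ℝ} (hθ : θ ≤ 1) (hτ : τ ≤ θ / (20 * (1 + 8 * n)))
    (hc : ∀ o, |(c o : ℝ) / S - prT b ((u : ℕ), (v : ℕ)) o| ≤ τ) {ρ : ℝ}
    (hρ : ρ = 1 + (∑ M ∈ (PS n).filter (fun M => M (vα n) = vβ n ∧ M (vv u) = vv v), wb b M) /
      NB b {vα n, vβ n}) :
    0 < c (some (vβ n)) ∧
      (1 - θ) * ρ ≤ ((2 * (c (some (vβ n)) + c none) : ℕ) : ℝ) / ((2 * c (some (vβ n)) : ℕ) : ℝ) ∧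
      ((2 * (c (some (vβ n)) + c none) : ℕ) : ℝ) / ((2 * c (some (vβ n)) : ℕ) : ℝ) ≤
        (1 + θ) * ρ := by
  obtain ⟨p, q, hp, hq, -, hθ0, hτp, he, h1, h2⟩ := est_facts b h hn hr u v hτ hc rfl
  have hSR : (0 : ℝ) < S := Nat.cast_pos.2 hS
  have e : ((2 * (c (some (vβ n)) + c none) : ℕ) : ℝ) / ((2 * c (some (vβ n)) : ℕ) : ℝ) =
      ((c (some (vβ n)) : ℝ) / S + (c none : ℝ) / S) / ((c (some (vβ n)) : ℝ) / S) := by
    push_cast
    rw [← add_div, div_div_div_cancel_right₀ hSR.ne',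
      mul_div_mul_left _ _ (two_ne_zero : (2 : ℝ) ≠ 0)]
  rw [e, hρ, he]
  exact ⟨est_pos hp hθ hθ0 hτp h1, est_upR hp hq hθ hθ0 hτp h1 h2⟩

/-- The estimated ratio in a lowering operation. -/
theorem est_down (b : Ext n) (h : IsScl b) (hn : Even n) (hr : ∀ u, rw' b u ≤ 8) (u v : Fin n)
    {S : ℕ} (hS : 0 < S) {c : Cnt n} {τ θ : ℝ} (hθ : θ ≤ 1) (hτ : τ ≤ θ / (20 * (1 + 8 * n)))
    (hc : ∀ o, |(c o : ℝ) / S - prT b ((u : ℕ), (v : ℕ)) o| ≤ τ) {ρ : ℝ}
    (hρ : ρ = 1 - (∑ M ∈ (PS n).filter (fun M => M (vα n) = vβ n ∧ M (vv u) = vv v), wb b M) /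
      NB b {vα n, vβ n} / 2) :
    0 < c (some (vβ n)) ∧
      (1 - θ) * ρ ≤ ((2 * c (some (vβ n)) - c none : ℕ) : ℝ) / ((2 * c (some (vβ n)) : ℕ) : ℝ) ∧
      ((2 * c (some (vβ n)) - c none : ℕ) : ℝ) / ((2 * c (some (vβ n)) : ℕ) : ℝ) ≤
        (1 + θ) * ρ := by
  obtain ⟨p, q, hp, hq, hqp, hθ0, hτp, he, h1, h2⟩ := est_facts b h hn hr u v hτ hc rfl
  have hSR : (0 : ℝ) < S := Nat.cast_pos.2 hS
  obtain ⟨h3, h4, h5⟩ := est_downR hp hqp hθ hθ0 hτp h1 h2
  have h6 : c none ≤ 2 * c (some (vβ n)) := by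
    have h7 : (c none : ℝ) ≤ 2 * (c (some (vβ n)) : ℝ) := by
      rw [← mul_div_assoc] at h3
      exact (div_le_div_iff_of_pos_right hSR).1 h3
    exact_mod_cast h7
  have e : ((2 * c (some (vβ n)) - c none : ℕ) : ℝ) / ((2 * c (some (vβ n)) : ℕ) : ℝ) =
      (2 * ((c (some (vβ n)) : ℝ) / S) - (c none : ℝ) / S) / (2 * ((c (some (vβ n)) : ℝ) / S)) := by
    rw [Nat.cast_sub h6]
    push_cast
    rw [← mul_div_assoc, ← sub_div, div_div_div_cancel_right₀ hSR.ne']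
  rw [e, hρ, he]
  exact ⟨est_pos hp hθ hθ0 hτp h1, h4, h5⟩

end Vale.Agent.P308Q
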