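import Vale.Agent.P308Q.Scal

/-!
# The potential
-/

namespace Vale.Agent.P308Q

open Finset

variable {n : ℕ}

/-- The potential of the scaling. -/
noncomputable def Psi (n : ℕ) (a : ℕ → ℕ → ℤ) (y : ℕ → ℤ) : ℝ :=
  (1 / 2) * ∑ u : Fin n, rw' (scl n a y) u + Real.log 2 * ∑ u : Fin n, (y u : ℝ)

/-! ### PSIA: helper lemmas -/

private theorem psia_swap (f : Fin n → Fin n → ℝ) :
    ∑ u, ∑ v ∈ univ.erase u, f u v = ∑ u, ∑ v ∈ univ.erase u, f v u := by
  have h : ∀ g : Fin n → Fin n → ℝ, ∑ u, ∑ v ∈ univ.erase u, g u v =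
      ∑ u, ∑ v, if v ≠ u then g u v else 0 := by
    intro g
    refine sum_congr rfl fun u _ => ?_
    rw [← sum_filter]
    refine sum_congr ?_ fun _ _ => rfl
    ext v; simp
  rw [h, h, sum_comm]
  refine sum_congr rfl fun u _ => sum_congr rfl fun v _ => ?_
  by_cases hv : v = u
  · simp [hv]
  · rw [if_pos (Ne.symm hv), if_pos hv]

private theorem psia_pow (x y : ℤ) :
    (2 : ℝ) ^ (-x - y) ≤ 1 / 2 * ((4 : ℝ) ^ (-x) + (4 : ℝ) ^ (-y)) := by
  have h4 : ∀ x : ℤ, (4 : ℝ) ^ (-x) = (2 : ℝ) ^ (-x) * (2 : ℝ) ^ (-x) := by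
    intro x
    rw [← mul_zpow]; norm_num
  have h2 : (2 : ℝ) ^ (-x - y) = (2 : ℝ) ^ (-x) * (2 : ℝ) ^ (-y) := by
    rw [← zpow_add₀ (by norm_num : (2 : ℝ) ≠ 0)]; congr 1
  rw [h4, h4, h2]
  nlinarith [sq_nonneg ((2 : ℝ) ^ (-x) - (2 : ℝ) ^ (-y))]

private theorem psia_row {a : ℕ → ℕ → ℤ} (ha : Sym a) (y δ : ℕ → ℤ) (u : Fin n) :
    rw' (scl n a fun u => y u + δ u) u =
      ∑ v ∈ univ.erase u, (2 : ℝ) ^ (-(δ u) - δ v) * Kf (scl n a y) u v := by
  rw [rw_eq_sum _ (isScl_scl ha _)]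
  refine sum_congr rfl fun v hv => ?_
  exact Kf_scale a y δ (Ne.symm (ne_of_mem_erase hv))

/-- **The potential drops in an update of the vertex exponents.** -/
theorem psi_drop (hn : Even n) {a : ℕ → ℕ → ℤ} (ha : Sym a) (y δ : ℕ → ℤ)
    (h1 : ∀ u : Fin n, δ u = 0 ∨ (δ u = 1 ∧ 21 / 10 ≤ rw' (scl n a y) u) ∨
      (δ u = -1 ∧ rw' (scl n a y) u ≤ 2 / 5)) (h2 : ∃ u : Fin n, δ u ≠ 0) :
    Psi n a (fun u => y u + δ u) ≤ Psi n a y - 9 / 100 := by
  have hS := isScl_scl (n := n) ha y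
  -- the sum of the new rows
  have hrows : ∑ u : Fin n, rw' (scl n a fun u => y u + δ u) u ≤
      ∑ u : Fin n, rw' (scl n a y) u * (4 : ℝ) ^ (-(δ u)) := by
    have e1 : ∑ u : Fin n, rw' (scl n a fun u => y u + δ u) u ≤
        ∑ u : Fin n, ∑ v ∈ univ.erase u,
          (1 / 2 * (Kf (scl n a y) u v * (4 : ℝ) ^ (-(δ u))) +
            1 / 2 * (Kf (scl n a y) u v * (4 : ℝ) ^ (-(δ v)))) := by
      refine sum_le_sum fun u _ => ?_
      rw [psia_row ha]
      refine sum_le_sum fun v _ => ?_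
      have := mul_le_mul_of_nonneg_right (psia_pow (δ u) (δ v)) (Kf_nonneg (scl n a y) u v)
      linarith
    have e2 : ∑ u : Fin n, ∑ v ∈ univ.erase u, Kf (scl n a y) u v * (4 : ℝ) ^ (-(δ v)) =
        ∑ u : Fin n, ∑ v ∈ univ.erase u, Kf (scl n a y) u v * (4 : ℝ) ^ (-(δ u)) := by
      rw [psia_swap]
      refine sum_congr rfl fun u _ => sum_congr rfl fun v _ => ?_
      rw [Kf_symm]
    have e3 : ∑ u : Fin n, ∑ v ∈ univ.erase u, Kf (scl n a y) u v * (4 : ℝ) ^ (-(δ u)) =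
        ∑ u : Fin n, rw' (scl n a y) u * (4 : ℝ) ^ (-(δ u)) := by
      refine sum_congr rfl fun u _ => ?_
      rw [rw_eq_sum _ hS, sum_mul]
    refine e1.trans (le_of_eq ?_)
    simp_rw [sum_add_distrib, ← mul_sum]
    rw [e2, e3]; ring
  -- the termwise bound
  have hterm : ∀ u : Fin n, 1 / 2 * (rw' (scl n a y) u * (4 : ℝ) ^ (-(δ u)) - rw' (scl n a y) u)
      + Real.log 2 * (δ u : ℝ) ≤ if δ u = 0 then 0 else -(9 / 100) := by
    intro u
    have hl1 := Real.log_two_gt_d9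
    have hl2 := Real.log_two_lt_d9
    rcases h1 u with h | ⟨h, hr⟩ | ⟨h, hr⟩
    · rw [if_pos h, h]; simp
    · rw [if_neg (by rw [h]; decide), h]
      norm_num
      linarith
    · rw [if_neg (by rw [h]; decide), h]
      norm_num
      linarith
  have hsum : ∑ u : Fin n, (1 / 2 * (rw' (scl n a y) u * (4 : ℝ) ^ (-(δ u)) - rw' (scl n a y) u)
      + Real.log 2 * (δ u : ℝ)) ≤ -(9 / 100) := by
    refine (sum_le_sum fun u _ => hterm u).trans ?_
    obtain ⟨u0, hu0⟩ := h2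
    rw [← add_sum_erase _ _ (mem_univ u0), if_neg hu0]
    have : ∑ x ∈ univ.erase u0, (if δ (x : Fin n) = 0 then (0 : ℝ) else -(9 / 100)) ≤ 0 := by
      refine sum_nonpos fun x _ => ?_
      split_ifs <;> norm_num
    linarith
  unfold Psi
  have e5 : ∑ u : Fin n, ((y u + δ u : ℤ) : ℝ) = ∑ u : Fin n, (y u : ℝ) + ∑ u : Fin n, (δ u : ℝ) := by
    push_cast
    rw [sum_add_distrib]
  have e6 : ∑ u : Fin n, (1 / 2 * (rw' (scl n a y) u * (4 : ℝ) ^ (-(δ u)) - rw' (scl n a y) u)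
      + Real.log 2 * (δ u : ℝ)) = 1 / 2 * ((∑ u : Fin n, rw' (scl n a y) u * (4 : ℝ) ^ (-(δ u))) -
        ∑ u : Fin n, rw' (scl n a y) u) + Real.log 2 * ∑ u : Fin n, (δ u : ℝ) := by
    rw [sum_add_distrib, ← mul_sum, ← mul_sum, sum_sub_distrib]
  rw [e6] at hsum
  simp only [e5]
  nlinarith

/-- The rows stay in `[1/8, 8]` in an update. -/
theorem rows_update (hn : Even n) {a : ℕ → ℕ → ℤ} (ha : Sym a) (y δ : ℕ → ℤ)
    (hr : ∀ u : Fin n, 1 / 8 ≤ rw' (scl n a y) u ∧ rw' (scl n a y) u ≤ 8)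
    (h1 : ∀ u : Fin n, (δ u = 0 ∧ 1 / 4 ≤ rw' (scl n a y) u ∧ rw' (scl n a y) u ≤ 4) ∨
      (δ u = 1 ∧ 21 / 10 ≤ rw' (scl n a y) u) ∨
      (δ u = -1 ∧ rw' (scl n a y) u ≤ 2 / 5)) (u : Fin n) :
    1 / 8 ≤ rw' (scl n a fun u => y u + δ u) u ∧ rw' (scl n a fun u => y u + δ u) u ≤ 8 := by
  have hS := isScl_scl (n := n) ha y
  have hδ : ∀ v : Fin n, 1 / 2 ≤ (2 : ℝ) ^ (-(δ v)) ∧ (2 : ℝ) ^ (-(δ v)) ≤ 2 := by
    intro v
    rcases h1 v with ⟨h, _⟩ | ⟨h, _⟩ | ⟨h, _⟩ <;> rw [h] <;> norm_num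
  have hrow : rw' (scl n a fun u => y u + δ u) u =
      (2 : ℝ) ^ (-(δ u)) * ∑ v ∈ univ.erase u, (2 : ℝ) ^ (-(δ v)) * Kf (scl n a y) u v := by
    rw [psia_row ha, mul_sum]
    refine sum_congr rfl fun v _ => ?_
    rw [← mul_assoc, ← zpow_add₀ (by norm_num : (2 : ℝ) ≠ 0)]
    congr 2
  have hlow : 1 / 2 * rw' (scl n a y) u ≤
      ∑ v ∈ univ.erase u, (2 : ℝ) ^ (-(δ v)) * Kf (scl n a y) u v := by
    rw [rw_eq_sum _ hS, mul_sum]
    exact sum_le_sum fun v _ => mul_le_mul_of_nonneg_right (hδ v).1 (Kf_nonneg _ _ _)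
  have hupp : ∑ v ∈ univ.erase u, (2 : ℝ) ^ (-(δ v)) * Kf (scl n a y) u v ≤
      2 * rw' (scl n a y) u := by
    rw [rw_eq_sum _ hS, mul_sum]
    exact sum_le_sum fun v _ => mul_le_mul_of_nonneg_right (hδ v).2 (Kf_nonneg _ _ _)
  obtain ⟨hr1, hr2⟩ := hr u
  rw [hrow]
  generalize (∑ v ∈ univ.erase u, (2 : ℝ) ^ (-(δ v)) * Kf (scl n a y) u v) = s at hlow hupp ⊢
  rcases h1 u with ⟨h, h3, h4⟩ | ⟨h, h3⟩ | ⟨h, h3⟩
  · rw [h, neg_zero, zpow_zero, one_mul]
    constructor <;> linarith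
  · have e : (2 : ℝ) ^ (-(1 : ℤ)) = 1 / 2 := by norm_num
    rw [h, e]
    constructor <;> linarith
  · have e : (2 : ℝ) ^ (-(-1 : ℤ)) = 2 := by norm_num
    rw [h, e]
    constructor <;> linarith

theorem psb_sym {a : ℕ → ℕ → ℤ} (ha : Sym a) (e : ℕ × ℕ) (d : ℤ) : Sym (addE a e d) := by
  intro u v
  unfold addE
  rw [ha u v]
  congr 1
  apply if_congr _ rfl rfl
  constructor <;> rintro (⟨h1, h2⟩ | ⟨h1, h2⟩)
  · exact Or.inr ⟨h2, h1⟩
  · exact Or.inl ⟨h2, h1⟩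
  · exact Or.inr ⟨h2, h1⟩
  · exact Or.inl ⟨h2, h1⟩

theorem psb_rw (hn : Even n) {a : ℕ → ℕ → ℤ} (ha : Sym a) (y : ℕ → ℤ) (e : ℕ × ℕ)
    (he : e.1 < e.2) {d : ℤ} (hd : |d| ≤ 1) (u : Fin n) :
    rw' (scl n (addE a e d) y) u ≤ 2 * rw' (scl n a y) u ∧
      rw' (scl n a y) u / 2 ≤ rw' (scl n (addE a e d) y) u := by
  rw [rw_eq_sum _ (isScl_scl (psb_sym ha e d) y), rw_eq_sum _ (isScl_scl ha y), Finset.mul_sum,
    Finset.sum_div]
  constructor
  · apply Finset.sum_le_sum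
    intro v hv
    exact (Kf_op hn a y e he hd (Finset.ne_of_mem_erase hv).symm).1
  · apply Finset.sum_le_sum
    intro v hv
    exact (Kf_op hn a y e he hd (Finset.ne_of_mem_erase hv).symm).2

/-- The rows stay in `[1/8, 8]` in an operation. -/
theorem rows_op (hn : Even n) {a : ℕ → ℕ → ℤ} (ha : Sym a) (y : ℕ → ℤ) (e : ℕ × ℕ)
    (he : e.1 < e.2) {d : ℤ} (hd : |d| ≤ 1)
    (hr : ∀ u : Fin n, 1 / 4 ≤ rw' (scl n a y) u ∧ rw' (scl n a y) u ≤ 4) (u : Fin n) :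
    1 / 8 ≤ rw' (scl n (addE a e d) y) u ∧ rw' (scl n (addE a e d) y) u ≤ 8 := by
  obtain ⟨h1, h2⟩ := psb_rw hn ha y e he hd u
  obtain ⟨h3, h4⟩ := hr u
  constructor <;> linarith

/-- The potential rises by at most `2 n` in an operation. -/
theorem psi_op (hn : Even n) {a : ℕ → ℕ → ℤ} (ha : Sym a) (y : ℕ → ℤ) (e : ℕ × ℕ)
    (he : e.1 < e.2) {d : ℤ} (hd : |d| ≤ 1)
    (hr : ∀ u : Fin n, rw' (scl n a y) u ≤ 4) :
    Psi n (addE a e d) y ≤ Psi n a y + 2 * n := by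
  unfold Psi
  have h1 : ∑ u : Fin n, rw' (scl n (addE a e d) y) u ≤ ∑ u : Fin n, (rw' (scl n a y) u + 4) := by
    apply Finset.sum_le_sum
    intro u _
    have := (psb_rw hn ha y e he hd u).1
    have := hr u
    linarith
  rw [Finset.sum_add_distrib] at h1
  simp only [Finset.sum_const, Finset.card_univ, Fintype.card_fin, nsmul_eq_mul] at h1
  linarith

/-- weight bounds -/
theorem psb_rw_nonneg (b : Ext n) (u : Fin n) : 0 ≤ rw' b u :=
  div_nonneg (NB_nonneg _ _) (NB_nonneg _ _)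

/-- the partner in the pairing `2 i ~ 2 i + 1` -/
def psbp (w : ℕ) : ℕ := if w % 2 = 0 then w + 1 else w - 1

theorem psbp_invol (w : ℕ) : psbp (psbp w) = w := by
  unfold psbp; split_ifs <;> omega

theorem psbp_ne (w : ℕ) : psbp w ≠ w := by
  unfold psbp; split_ifs <;> omega

theorem psbp_lt (hn : Even n) {w : ℕ} (hw : w < n) : psbp w < n := by
  unfold psbp
  obtain ⟨k, hk⟩ := hn
  split_ifs <;> omega

/-- the matching with holes `α, β, u, psbp u` -/
def psbM (hn : Even n) (u : ℕ) : Stt n := fun w =>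
  if h : (w : ℕ) < n ∧ (w : ℕ) ≠ u ∧ (w : ℕ) ≠ psbp u then
    ⟨psbp w, (psbp_lt hn h.1).trans (by omega)⟩ else w

theorem psbM_invol (hn : Even n) (u : ℕ) (w : Fin (n + 2)) :
    psbM hn u (psbM hn u w) = w := by
  by_cases h : (w : ℕ) < n ∧ (w : ℕ) ≠ u ∧ (w : ℕ) ≠ psbp u
  · have h1 : psbM hn u w = ⟨psbp w, (psbp_lt hn h.1).trans (by omega)⟩ := by
      unfold psbM; rw [dif_pos h]
    rw [h1]
    have h2 : psbp (w : ℕ) < n ∧ psbp (w : ℕ) ≠ u ∧ psbp (w : ℕ) ≠ psbp u := by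
      refine ⟨psbp_lt hn h.1, ?_, ?_⟩
      · intro h3
        apply h.2.2
        rw [← h3, psbp_invol]
      · intro h3
        apply h.2.1
        rw [← psbp_invol (w : ℕ), h3, psbp_invol]
    unfold psbM
    rw [dif_pos (by exact h2)]
    apply Fin.ext
    simp [psbp_invol]
  · have h1 : psbM hn u w = w := by
      unfold psbM; rw [dif_neg h]
    rw [h1, h1]

theorem psbM_holes (hn : Even n) (u : Fin n) :
    holes (psbM hn u) = {vα n, vβ n, vv u, vv ⟨psbp u, psbp_lt hn u.2⟩} := by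
  ext w
  rw [mem_holes]
  simp only [mem_insert, mem_singleton]
  unfold psbM
  by_cases h : (w : ℕ) < n ∧ (w : ℕ) ≠ u ∧ (w : ℕ) ≠ psbp u
  · rw [dif_pos h]
    have := psbp_ne (w : ℕ)
    constructor
    · intro h1
      exact absurd (congrArg Fin.val h1) this
    · rintro (h1 | h1 | h1 | h1)
      · rw [h1] at h; exact absurd h.1 (by simp [vα])
      · rw [h1] at h; exact absurd h.1 (by simp [vβ])
      · rw [h1] at h; exact absurd rfl h.2.1
      · rw [h1] at h; exact absurd rfl h.2.2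
  · rw [dif_neg h]
    simp only [true_iff]
    have hw := w.2
    by_cases h1 : (w : ℕ) < n
    · by_cases h2 : (w : ℕ) = u
      · exact Or.inr (Or.inr (Or.inl (Fin.ext h2)))
      · have h3 : (w : ℕ) = psbp u := by
          by_contra h3
          exact h ⟨h1, h2, h3⟩
        exact Or.inr (Or.inr (Or.inr (Fin.ext h3)))
    · by_cases h2 : (w : ℕ) = n
      · exact Or.inl (Fin.ext h2)
      · exact Or.inr (Or.inl (Fin.ext (by simp only [vβ]; omega)))

theorem psb_wb_lower {a : ℕ → ℕ → ℤ} (L : ℕ)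
    (hL : ∀ u v, u < n → v < n → u ≠ v → -(L : ℤ) ≤ a u v) (M : Stt n) :
    q2 ^ (-((n : ℤ) * L)) ≤ wb (scl n a fun _ => 0) M := by
  unfold wb
  apply zpow_le_zpow_right₀ one_le_q2
  have h1 : ∀ v : Fin (n + 2), (if (v : ℕ) < n then -(L : ℤ) else 0) ≤
      scl n a (fun _ => 0) v (M v) := by
    intro v
    unfold scl
    by_cases h : (v : ℕ) < n
    · rw [if_pos h]
      by_cases h2 : (v : ℕ) < n ∧ (M v : ℕ) < n ∧ v ≠ M v
      · rw [if_pos h2]
        have := hL v (M v) h h2.2.1 (fun h3 => h2.2.2 (Fin.ext h3))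
        linarith
      · rw [if_neg h2]
        linarith [Int.natCast_nonneg L]
    · rw [if_neg h, if_neg (fun h3 => h h3.1)]
  refine le_trans ?_ (Finset.sum_le_sum fun v _ => h1 v)
  rw [← Finset.sum_filter, Finset.sum_const, nsmul_eq_mul]
  have h2 : (univ.filter fun v : Fin (n + 2) => (v : ℕ) < n).card ≤ n := by
    have : (univ.filter fun v : Fin (n + 2) => (v : ℕ) < n).card =
        ((univ.filter fun v : Fin (n + 2) => (v : ℕ) < n).image Fin.val).card :=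
      (Finset.card_image_of_injective _ Fin.val_injective).symm
    rw [this]
    calc _ ≤ (Finset.range n).card := by
          apply Finset.card_le_card
          intro x hx
          simp only [mem_image, mem_filter, mem_univ, true_and] at hx
          obtain ⟨v, hv, rfl⟩ := hx
          exact Finset.mem_range.2 hv
      _ = n := Finset.card_range n
  have h3 : ((univ.filter fun v : Fin (n + 2) => (v : ℕ) < n).card : ℤ) ≤ n := by exact_mod_cast h2
  nlinarith [Int.natCast_nonneg L]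

theorem psb_wb_upper {a : ℕ → ℕ → ℤ}
    (h0 : ∀ u v, u < n → v < n → u ≠ v → a u v ≤ 0) (M : Stt n) :
    wb (scl n a fun _ => 0) M ≤ 1 := by
  unfold wb
  apply zpow_le_one_of_nonpos₀ one_le_q2
  apply Finset.sum_nonpos
  intro v _
  unfold scl
  split_ifs with h
  · have := h0 v (M v) h.1 h.2.1 (fun h3 => h.2.2 (Fin.ext h3))
    linarith
  · exact le_refl _

theorem psb_NB_upper {a : ℕ → ℕ → ℤ}
    (h0 : ∀ u v, u < n → v < n → u ≠ v → a u v ≤ 0) (U : Finset (Fin (n + 2))) :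
    NB (scl n a fun _ => 0) U ≤ ((n : ℝ) + 2) ^ (n + 2) := by
  unfold NB
  calc _ ≤ ∑ M ∈ univ.filter (fun M : Stt n => (∀ v, M (M v) = v) ∧ holes M = U), (1 : ℝ) :=
        Finset.sum_le_sum fun M _ => psb_wb_upper h0 M
    _ ≤ ∑ M : Stt n, (1 : ℝ) :=
        Finset.sum_le_sum_of_subset_of_nonneg (Finset.filter_subset _ _) fun _ _ _ => zero_le_one
    _ = _ := by
        rw [Finset.sum_const, Finset.card_univ, Fintype.card_fun, Fintype.card_fin, nsmul_eq_mul,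
          mul_one]
        push_cast
        ring

theorem psb_K0 (hn : Even n) {a : ℕ → ℕ → ℤ} (L : ℕ)
    (h0 : ∀ u v, u < n → v < n → u ≠ v → a u v ≤ 0)
    (hL : ∀ u v, u < n → v < n → u ≠ v → -(L : ℤ) ≤ a u v) (u : Fin n) :
    q2 ^ (-((n : ℤ) * L)) / ((n : ℝ) + 2) ^ (n + 2) ≤
      Kf (scl n a fun _ => 0) u ⟨psbp u, psbp_lt hn u.2⟩ := by
  unfold Kf
  have h1 : q2 ^ (-((n : ℤ) * L)) ≤
      NB (scl n a fun _ => 0) {vα n, vβ n, vv u, vv ⟨psbp u, psbp_lt hn u.2⟩} := by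
    unfold NB
    refine le_trans (psb_wb_lower L hL (psbM hn u)) ?_
    apply Finset.single_le_sum (f := fun M => wb (scl n a fun _ => 0) M)
      (fun M _ => (zpow_pos q2_pos _).le)
    rw [mem_filter]
    exact ⟨mem_univ _, psbM_invol hn u, psbM_holes hn u⟩
  have h2 : 0 < NB (scl n a fun _ => 0) {vα n, vβ n} := by
    apply NB_pos _ _ hn
    rw [Finset.card_pair]
    · exact ⟨1, rfl⟩
    · intro h
      exact absurd (congrArg Fin.val h) (by simp [vα, vβ])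
  exact div_le_div₀ (NB_nonneg _ _) h1 h2 (psb_NB_upper h0 _)

theorem psb_rw_ge {a : ℕ → ℕ → ℤ} (ha : Sym a) (y : ℕ → ℤ) {u v : Fin n} (huv : u ≠ v) :
    Kf (scl n a y) u v ≤ rw' (scl n a y) u := by
  rw [rw_eq_sum _ (isScl_scl ha y)]
  exact Finset.single_le_sum (f := fun v => Kf (scl n a y) u v) (fun v _ => Kf_nonneg _ _ _)
    (Finset.mem_erase.2 ⟨huv.symm, mem_univ _⟩)

theorem psb_log {K0 : ℝ} (hK : 0 < K0) (s : ℤ) :
    1 + Real.log K0 ≤ (2 : ℝ) ^ (-s) * K0 + Real.log 2 * s := by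
  have h1 : 0 < (2 : ℝ) ^ (-s) * K0 := mul_pos (zpow_pos (by norm_num) _) hK
  have h2 := Real.add_one_le_exp (Real.log ((2 : ℝ) ^ (-s) * K0))
  rw [Real.exp_log h1, Real.log_mul (zpow_pos (by norm_num) _).ne' hK.ne', Real.log_zpow] at h2
  push_cast at h2
  linarith

/-- The lower bound of the potential. -/
theorem psi_lower (hn : Even n) {a : ℕ → ℕ → ℤ} (ha : Sym a) (y : ℕ → ℤ) (L : ℕ)
    (h0 : ∀ u v, u < n → v < n → u ≠ v → a u v ≤ 0)
    (hL : ∀ u v, u < n → v < n → u ≠ v → -(L : ℤ) ≤ a u v) :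
    -((n : ℝ) ^ 2 * L + (n : ℝ) ^ 3) ≤ Psi n a y := by
  -- sum over all `u` of the half contributions
  set σ : Fin n → Fin n := fun u => ⟨psbp u, psbp_lt hn u.2⟩ with hσ
  have hσ2 : ∀ u, σ (σ u) = u := fun u => Fin.ext (psbp_invol u)
  have hσn : ∀ u, u ≠ σ u := fun u h => psbp_ne u (congrArg Fin.val h).symm
  have hy : ∑ u : Fin n, (y u : ℝ) = ∑ u : Fin n, ((y u : ℝ) + y (σ u)) / 2 := by
    have h1 : ∑ u : Fin n, (y (σ u) : ℝ) = ∑ u : Fin n, (y u : ℝ) :=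
      Function.Bijective.sum_comp (Function.Involutive.bijective hσ2) fun u : Fin n => (y u : ℝ)
    rw [← Finset.sum_div, Finset.sum_add_distrib, h1]
    ring
  have key : ∀ u : Fin n, (1 / 2 : ℝ) * (1 + (-((n : ℝ) * L / 2) * Real.log 2 -
      (n + 2) * Real.log (n + 2))) ≤
      1 / 2 * rw' (scl n a y) u + Real.log 2 * (((y u : ℝ) + y (σ u)) / 2) := by
    intro u
    have hq : Real.log q2 = Real.log 2 / 2 := by
      have h := congrArg Real.log q2_sq
      rw [Real.log_pow] at h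
      push_cast at h
      linarith
    have hK0 := psb_K0 hn L h0 hL u
    have hpos : 0 < q2 ^ (-((n : ℤ) * L)) / ((n : ℝ) + 2) ^ (n + 2) :=
      div_pos (zpow_pos q2_pos _) (by positivity)
    have hKpos := lt_of_lt_of_le hpos hK0
    have h1 := psb_log hKpos (y u + y (σ u))
    have h2 := Kf_scale a (fun _ => 0) y (hσn u)
    have h3 := psb_rw_ge ha y (hσn u)
    simp only [zero_add] at h2
    have h4 : Real.log (q2 ^ (-((n : ℤ) * L)) / ((n : ℝ) + 2) ^ (n + 2)) ≤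
        Real.log (Kf (scl n a fun _ => 0) u (σ u)) := Real.log_le_log hpos hK0
    rw [Real.log_div (zpow_pos q2_pos _).ne' (by positivity), Real.log_zpow, Real.log_pow, hq] at h4
    have h5 : (2 : ℝ) ^ (-(y u + y (σ u))) * Kf (scl n a fun _ => 0) u (σ u) =
        Kf (scl n a y) u (σ u) := by
      rw [h2]
      congr 2
      ring
    have h1' : 1 + Real.log (Kf (scl n a fun _ => 0) u (σ u)) ≤
        Kf (scl n a y) u (σ u) + Real.log 2 * ((y u + y (σ u) : ℤ) : ℝ) := by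
      rw [← h5]
      exact h1
    push_cast at h4 h1'
    linarith
  have hP : Psi n a y = ∑ u : Fin n,
      (1 / 2 * rw' (scl n a y) u + Real.log 2 * (((y u : ℝ) + y (σ u)) / 2)) := by
    unfold Psi
    rw [hy, Finset.sum_add_distrib, Finset.mul_sum, Finset.mul_sum]
  rw [hP]
  refine le_trans ?_ (Finset.sum_le_sum fun u _ => key u)
  rw [Finset.sum_const, Finset.card_univ, Fintype.card_fin, nsmul_eq_mul]
  have hl2 : Real.log 2 ≤ 1 := by
    have := Real.log_two_lt_d9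
    linarith
  have hl2' : 0 ≤ Real.log 2 := Real.log_nonneg (by norm_num)
  have hln : Real.log ((n : ℝ) + 2) ≤ ((n : ℝ) + 2) / 2 := by
    have h1 : Real.log ((n : ℝ) + 2) = Real.log (((n : ℝ) + 2) / 2) + Real.log 2 := by
      rw [← Real.log_mul (by positivity) (by norm_num)]
      congr 1
      ring
    have h2 := Real.log_le_sub_one_of_pos (show (0 : ℝ) < ((n : ℝ) + 2) / 2 by positivity)
    linarith
  have hn0 : (0 : ℝ) ≤ n := Nat.cast_nonneg n
  have hL0 : (0 : ℝ) ≤ L := Nat.cast_nonneg L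
  have e1 : (n : ℝ) * L / 2 * Real.log 2 ≤ (n : ℝ) * L / 2 := by
    have : 0 ≤ (n : ℝ) * L / 2 := by positivity
    nlinarith
  have e2 : ((n : ℝ) + 2) * Real.log (n + 2) ≤ (n + 2) * ((n + 2) / 2) :=
    mul_le_mul_of_nonneg_left hln (by positivity)
  have e3 : (1 / 2 : ℝ) * (1 + (-((n : ℝ) * L / 2) - (n + 2) * ((n + 2) / 2))) ≤
      (1 / 2 : ℝ) * (1 + (-((n : ℝ) * L / 2) * Real.log 2 - (n + 2) * Real.log (n + 2))) := by
    linarith
  refine le_trans ?_ (mul_le_mul_of_nonneg_left e3 hn0)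
  rcases Nat.eq_zero_or_pos n with h | h
  · subst h
    simp
  · have h2 : 2 ≤ n := by
      obtain ⟨k, hk⟩ := hn
      omega
    have h2' : (2 : ℝ) ≤ n := by exact_mod_cast h2
    have e4 : (n : ℝ) * ((1 / 2 : ℝ) * (1 + (-((n : ℝ) * L / 2) - (n + 2) * ((n + 2) / 2)))) =
        -((n : ℝ) ^ 2 * L / 4) - (n * (n + 2) ^ 2 / 4 - n / 2) := by ring
    rw [e4]
    have e5 : (n : ℝ) * (n + 2) ^ 2 / 4 - n / 2 ≤ (n : ℝ) ^ 3 := by
      nlinarith [mul_nonneg hn0 (sub_nonneg.2 h2'), mul_nonneg (mul_nonneg hn0 hn0) (sub_nonneg.2 h2')]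
    have e6 : 0 ≤ (n : ℝ) ^ 2 * L := by positivity
    linarith

theorem DENS_pos (hn : Even n) (b : Ext n) : 0 < ∑ x ∈ PS n, q2 ^ (∑ v, b v (x v)) := by
  refine Finset.sum_pos (fun x _ => zpow_pos q2_pos _) ⟨M0 n, ?_⟩
  have h := kr_M0_mem hn 0
  simp only [FS, PS, Finset.mem_filter, Finset.mem_univ, true_and] at h ⊢
  exact ⟨h.1, Finset.card_eq_zero.1 (Nat.le_zero.1 h.2)⟩

theorem DENS_gen (hn : Even n) (b b' : Ext n) (c : ℤ)
    (h : ∀ M ∈ PS n, |∑ v, b' v (M v) - ∑ v, b v (M v) - c| ≤ 4) (M : Stt n) :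
    (piP b M).toReal ≤ 16 * (piP b' M).toReal := by
  have hq1 : (1 : ℝ) ≤ q2 := one_le_q2
  have hq0 : q2 ≠ 0 := q2_pos.ne'
  have hq4 : q2 ^ (4 : ℤ) = 4 := by
    have h1 : q2 ^ (4 : ℤ) = (q2 ^ 2) ^ 2 := by
      rw [← pow_mul]; norm_cast
    rw [h1, q2_sq]; norm_num
  have hc0 : 0 < q2 ^ c := zpow_pos q2_pos c
  have hup : ∀ M ∈ PS n, q2 ^ (∑ v, b' v (M v)) ≤ 4 * q2 ^ c * q2 ^ (∑ v, b v (M v)) := by
    intro M hM
    have h1 := (abs_le.1 (h M hM)).2
    calc q2 ^ (∑ v, b' v (M v)) ≤ q2 ^ (4 + c + ∑ v, b v (M v)) :=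
          zpow_le_zpow_right₀ hq1 (by linarith)
      _ = _ := by rw [zpow_add₀ hq0, zpow_add₀ hq0, hq4]
  have hlo : ∀ M ∈ PS n, q2 ^ c * q2 ^ (∑ v, b v (M v)) ≤ 4 * q2 ^ (∑ v, b' v (M v)) := by
    intro M hM
    have h1 := (abs_le.1 (h M hM)).1
    calc q2 ^ c * q2 ^ (∑ v, b v (M v)) = q2 ^ (c + ∑ v, b v (M v)) := by rw [zpow_add₀ hq0]
      _ ≤ q2 ^ (4 + ∑ v, b' v (M v)) := zpow_le_zpow_right₀ hq1 (by linarith)
      _ = _ := by rw [zpow_add₀ hq0, hq4]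
  have hZ := DENS_pos hn b
  have hZ' := DENS_pos hn b'
  have hw : ∀ x ∈ PS n, 0 ≤ q2 ^ (∑ v, b v (x v)) := fun x _ => (zpow_pos q2_pos _).le
  have hw' : ∀ x ∈ PS n, 0 ≤ q2 ^ (∑ v, b' v (x v)) := fun x _ => (zpow_pos q2_pos _).le
  unfold piP
  by_cases hM : M ∈ PS n
  · rw [gibbs_apply hw hZ hM, gibbs_apply hw' hZ' hM]
    have h1 : ∑ x ∈ PS n, q2 ^ (∑ v, b' v (x v)) ≤
        4 * q2 ^ c * ∑ x ∈ PS n, q2 ^ (∑ v, b v (x v)) := by
      rw [mul_sum]
      exact sum_le_sum hup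
    have h2 := hlo M hM
    rw [← mul_div_assoc, div_le_div_iff₀ hZ hZ']
    set A := q2 ^ (∑ v, b v (M v))
    set A' := q2 ^ (∑ v, b' v (M v))
    set Z := ∑ x ∈ PS n, q2 ^ (∑ v, b v (x v))
    set Z' := ∑ x ∈ PS n, q2 ^ (∑ v, b' v (x v))
    have hA : 0 < A := zpow_pos q2_pos _
    calc A * Z' ≤ A * (4 * q2 ^ c * Z) := mul_le_mul_of_nonneg_left h1 hA.le
      _ = 4 * (q2 ^ c * A) * Z := by ring
      _ ≤ 4 * (4 * A') * Z := by
          apply mul_le_mul_of_nonneg_right _ hZ.le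
          linarith
      _ = 16 * A' * Z := by ring
  · rw [gibbs_off hw hZ hM]
    simp

/-- two matchings with edge exponents that are close have close laws: update -/
theorem dens_update (hn : Even n) {a : ℕ → ℕ → ℤ} (ha : Sym a) (y δ : ℕ → ℤ)
    (hδ : ∀ u, |δ u| ≤ 1) (M : Stt n) :
    (piP (scl n a y) M).toReal ≤ 16 * (piP (scl n a fun u => y u + δ u) M).toReal := by
  refine DENS_gen hn _ _ (2 * ∑ v : Fin (n + 2), if (v : ℕ) < n then δ v else 0) ?_ M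
  intro M hM
  simp only [PS, Finset.mem_filter, Finset.mem_univ, true_and] at hM
  obtain ⟨hinv, hh⟩ := hM
  have hne : ∀ v, v ≠ M v := by
    intro v hv
    have : v ∈ holes M := mem_holes.2 hv.symm
    rw [hh] at this
    simp at this
  -- the difference
  have e1 : ∑ v, scl n a (fun u => y u + δ u) v (M v) - ∑ v, scl n a y v (M v) =
      (∑ v : Fin (n + 2), if (v : ℕ) < n ∧ (M v : ℕ) < n then δ v else 0) +
      ∑ v : Fin (n + 2), if (v : ℕ) < n ∧ (M v : ℕ) < n then δ (M v) else 0 := by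
    rw [← sum_sub_distrib, ← sum_add_distrib]
    refine sum_congr rfl fun v _ => ?_
    unfold scl
    by_cases h1 : (v : ℕ) < n ∧ (M v : ℕ) < n
    · rw [if_pos ⟨h1.1, h1.2, hne v⟩, if_pos ⟨h1.1, h1.2, hne v⟩, if_pos h1, if_pos h1]
      ring
    · rw [if_neg (fun h => h1 ⟨h.1, h.2.1⟩), if_neg (fun h => h1 ⟨h.1, h.2.1⟩), if_neg h1,
        if_neg h1]
      ring
  have e2 : (∑ v : Fin (n + 2), if (v : ℕ) < n ∧ (M v : ℕ) < n then δ (M v) else 0) =
      ∑ v : Fin (n + 2), if (v : ℕ) < n ∧ (M v : ℕ) < n then δ v else 0 := by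
    refine Fintype.sum_equiv (⟨M, M, hinv, hinv⟩ : Equiv.Perm (Fin (n + 2))) _ _ fun v => ?_
    simp only [Equiv.coe_fn_mk, hinv v, and_comm]
  have e3 : (∑ v : Fin (n + 2), if (v : ℕ) < n then δ v else 0) =
      (∑ v : Fin (n + 2), if (v : ℕ) < n ∧ (M v : ℕ) < n then δ v else 0) +
      ∑ v : Fin (n + 2), if (v : ℕ) < n ∧ n ≤ (M v : ℕ) then δ v else 0 := by
    rw [← sum_add_distrib]
    refine sum_congr rfl fun v _ => ?_
    by_cases h1 : (v : ℕ) < n
    · by_cases h2 : (M v : ℕ) < n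
      · simp [h1, h2, Nat.not_le.2 h2]
      · simp [h1, h2, Nat.not_lt.1 h2]
    · simp [h1]
  have e4 : |∑ v : Fin (n + 2), if (v : ℕ) < n ∧ n ≤ (M v : ℕ) then δ v else 0| ≤ 2 := by
    calc |∑ v : Fin (n + 2), if (v : ℕ) < n ∧ n ≤ (M v : ℕ) then δ v else 0|
        ≤ ∑ v : Fin (n + 2), |if (v : ℕ) < n ∧ n ≤ (M v : ℕ) then δ v else 0| :=
          abs_sum_le_sum_abs _ _
      _ ≤ ∑ v : Fin (n + 2), if v ∈ ({M (vα n), M (vβ n)} : Finset (Fin (n + 2))) then 1 else 0 := by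
          refine sum_le_sum fun v _ => ?_
          by_cases h1 : (v : ℕ) < n ∧ n ≤ (M v : ℕ)
          · have h2 : v ∈ ({M (vα n), M (vβ n)} : Finset (Fin (n + 2))) := by
              have h3 : M v = vα n ∨ M v = vβ n := by
                have h4 := (M v).2
                rcases Nat.eq_or_lt_of_le h1.2 with h5 | h5
                · left; exact Fin.ext h5.symm
                · right; apply Fin.ext; show (M v : ℕ) = n + 1; omega
              rcases h3 with h3 | h3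
              · rw [← h3, hinv]; simp
              · rw [← h3, hinv]; simp
            rw [if_pos h1, if_pos h2]
            exact hδ v
          · rw [if_neg h1, abs_zero]
            split_ifs <;> norm_num
      _ = (({M (vα n), M (vβ n)} : Finset (Fin (n + 2))).card : ℤ) := by
          rw [sum_boole, filter_mem_eq_inter, univ_inter]
      _ ≤ 2 := by exact_mod_cast card_le_two
  rw [e1, e2, e3]
  rw [abs_le] at e4 ⊢
  constructor <;> linarith [e4.1, e4.2]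

/-- two matchings with edge exponents that are close have close laws: operation -/
theorem dens_op (hn : Even n) {a : ℕ → ℕ → ℤ} (ha : Sym a) (y : ℕ → ℤ) (e : ℕ × ℕ)
    (he : e.1 < e.2) {d : ℤ} (hd : |d| ≤ 1) (M : Stt n) :
    (piP (scl n a y) M).toReal ≤ 16 * (piP (scl n (addE a e d) y) M).toReal := by
  refine DENS_gen hn _ _ 0 ?_ M
  intro M hM
  rw [sub_zero, ← sum_sub_distrib]
  have key : ∀ v : Fin (n + 2), |scl n (addE a e d) y v (M v) - scl n a y v (M v)| ≤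
      (if (v : ℕ) = e.1 then 1 else 0) + (if (v : ℕ) = e.2 then 1 else 0) := by
    intro v
    unfold scl addE
    have h0 : (0 : ℤ) ≤ (if (v : ℕ) = e.1 then 1 else 0) + (if (v : ℕ) = e.2 then 1 else 0) := by
      split_ifs <;> norm_num
    by_cases h1 : (v : ℕ) < n ∧ (M v : ℕ) < n ∧ v ≠ M v
    · rw [if_pos h1, if_pos h1]
      by_cases h2 : ((v : ℕ) = e.1 ∧ (M v : ℕ) = e.2) ∨ ((v : ℕ) = e.2 ∧ (M v : ℕ) = e.1)
      · rw [if_pos h2]
        have h3 : |a v (M v) + d + y v + y (M v) - (a v (M v) + y v + y (M v))| = |d| := by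
          congr 1; ring
        rw [h3]
        refine hd.trans ?_
        rcases h2 with h2 | h2
        · rw [if_pos h2.1]
          split_ifs <;> norm_num
        · rw [if_pos h2.1]
          split_ifs <;> norm_num
      · rw [if_neg h2]
        have h3 : |a v (M v) + 0 + y v + y (M v) - (a v (M v) + y v + y (M v))| = 0 := by
          rw [add_zero, sub_self, abs_zero]
        rw [h3]
        exact h0
    · rw [if_neg h1, if_neg h1, sub_zero, abs_zero]
      exact h0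
  have hcard : ∀ k : ℕ, (∑ v : Fin (n + 2), if (v : ℕ) = k then (1 : ℤ) else 0) ≤ 1 := by
    intro k
    rw [sum_boole]
    have : (univ.filter fun v : Fin (n + 2) => (v : ℕ) = k).card ≤ 1 := by
      rw [card_le_one]
      intro x hx z hz
      simp only [mem_filter, mem_univ, true_and] at hx hz
      exact Fin.ext (hx.trans hz.symm)
    exact_mod_cast this
  calc |∑ v, (scl n (addE a e d) y v (M v) - scl n a y v (M v))|
      ≤ ∑ v, |scl n (addE a e d) y v (M v) - scl n a y v (M v)| := abs_sum_le_sum_abs _ _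
    _ ≤ ∑ v : Fin (n + 2), ((if (v : ℕ) = e.1 then (1 : ℤ) else 0) +
          (if (v : ℕ) = e.2 then 1 else 0)) := sum_le_sum fun v _ => key v
    _ ≤ 1 + 1 := by
        rw [sum_add_distrib]
        exact add_le_add (hcard _) (hcard _)
    _ ≤ 4 := by norm_num

end Vale.Agent.P308Q
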