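import Vale.Agent.P308Q.State

/-!
# The run inequality
-/

namespace Vale.Agent.P308Q

open Finset

variable {V : Type} [Fintype V] [DecidableEq V]

/-- Parity of the number of fixed points of an involution on a closed set. -/
theorem even_moved (f : V → V) (hf : ∀ v, f (f v) = v) (A : Finset V) (hA : ∀ v ∈ A, f v ∈ A) :
    Even (A.filter fun v => f v ≠ v).card := by
  rw [← ZMod.natCast_eq_zero_iff_even]
  have h := Finset.sum_involution (s := A.filter fun v => f v ≠ v)
    (f := fun _ => (1 : ZMod 2)) (fun v _ => f v) (fun v _ => by decide)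
    (fun v hv _ => (Finset.mem_filter.1 hv).2)
    (fun v hv => by
      rw [Finset.mem_filter] at hv ⊢
      refine ⟨hA v hv.1, fun he => hv.2 ?_⟩
      rw [hf] at he
      exact he.symm)
    (fun v _ => hf v)
  rw [Finset.sum_const, nsmul_eq_mul, mul_one] at h
  exact h

private theorem lev_invol (E : Exps V) (L t : ℕ) {I : V → V} (hI : ∀ v, I (I v) = v) (v : V) :
    lev E L t I (lev E L t I v) = v := by
  by_cases h : t ≤ sim E L v (I v)
  · have h1 : lev E L t I v = I v := if_pos h
    rw [h1]
    unfold lev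
    rw [hI, sim_symm E L (I v) v, if_pos h]
  · have h1 : lev E L t I v = v := if_neg h
    rw [h1, h1]

private theorem lev_ne_iff (E : Exps V) (L t : ℕ) {I : V → V} (hI0 : ∀ v, I v ≠ v) (v : V) :
    lev E L t I v ≠ v ↔ t ≤ sim E L v (I v) := by
  unfold lev
  split_ifs with h
  · exact ⟨fun _ => h, fun _ => hI0 v⟩
  · exact ⟨fun h1 => absurd rfl h1, fun h1 => absurd h1 h⟩

/-- the parity claim: no boundary cuts and constant state on the boundary -/
private theorem run_even (E : Exps V) (L t : ℕ) (ht : 1 ≤ t) {I F : V → V} (hI : ∀ v, I (I v) = v)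
    (hF : ∀ v, F (F v) = v) (hI0 : ∀ v, I v ≠ v) (hF0 : ∀ v, F v ≠ v) {s : St V}
    (hs : Vld I F s) (A : Finset V) (hAI : ∀ v ∈ A, lev E L t I v ∈ A)
    (hAF : ∀ v ∈ A, lev E L t F v ∈ A)
    (h1 : ∀ u ∈ A, ¬ ((lev E L t I u = u ∧ u ∈ s.DI) ∨ (lev E L t F u = u ∧ u ∈ s.DF)))
    (τ0 : Bool) (h2 : ∀ v ∈ A, (lev E L t I v = v ∨ lev E L t F v = v) → s.τ v = τ0) :
    Even (A.filter fun v => v ∈ holes (cur I F s)).card := by
  set M := cur I F s with hM
  have hMi : ∀ v, M (M v) = v := cur_invol hI hF hs
  -- the matching with smaller similarity removed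
  have hlevM : ∀ v, lev E L t M v = if M v = v then v else
      if s.τ v then lev E L t F v else lev E L t I v := by
    intro v
    by_cases hv : M v = v
    · rw [if_pos hv]
      unfold lev
      rw [hv, ite_self]
    · rw [if_neg hv]
      have hc : M v = if s.τ v then (if v ∈ s.DF then v else F v) else
          (if v ∈ s.DI then v else I v) := rfl
      by_cases hτ : s.τ v = true
      · rw [if_pos hτ] at hc ⊢
        by_cases hd : v ∈ s.DF
        · rw [if_pos hd] at hc; exact absurd hc hv
        · rw [if_neg hd] at hc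
          unfold lev
          rw [hc]
      · rw [if_neg hτ] at hc ⊢
        by_cases hd : v ∈ s.DI
        · rw [if_pos hd] at hc; exact absurd hc hv
        · rw [if_neg hd] at hc
          unfold lev
          rw [hc]
  have hAM : ∀ v ∈ A, lev E L t M v ∈ A := by
    intro v hv
    rw [hlevM]
    split_ifs
    · exact hv
    · exact hAF v hv
    · exact hAI v hv
  have e1 := even_moved (lev E L t M) (lev_invol E L t hMi) A hAM
  have e2 := even_moved (lev E L t I) (lev_invol E L t hI) A hAI
  have e3 := even_moved (lev E L t F) (lev_invol E L t hF) A hAF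
  have c1 := Finset.card_filter_add_card_filter_not (s := A) (fun v => lev E L t M v = v)
  have c2 := Finset.card_filter_add_card_filter_not (s := A) (fun v => lev E L t I v = v)
  have c3 := Finset.card_filter_add_card_filter_not (s := A) (fun v => lev E L t F v = v)
  -- split the fixed points of `lev M`
  have c4 := Finset.card_filter_add_card_filter_not
    (s := A.filter fun v => lev E L t M v = v) (fun v => v ∈ holes M)
  rw [Finset.filter_filter, Finset.filter_filter] at c4
  have c5 : (A.filter fun v => lev E L t M v = v ∧ v ∈ holes M) =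
      A.filter fun v => v ∈ holes M := by
    refine Finset.filter_congr fun v _ => ⟨fun h => h.2, fun h => ⟨?_, h⟩⟩
    rw [hlevM, if_pos (mem_holes.1 h)]
  rw [c5] at c4
  cases τ0 with
  | false =>
    have c6 : (A.filter fun v => lev E L t M v = v ∧ v ∉ holes M) =
        A.filter fun v => lev E L t I v = v := by
      refine Finset.filter_congr fun v hv => ?_
      constructor
      · rintro ⟨ha, hb⟩
        rw [mem_holes] at hb
        rw [hlevM, if_neg hb] at ha
        by_cases hτ : s.τ v = true
        · rw [if_pos hτ] at ha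
          have := h2 v hv (Or.inr ha)
          rw [hτ] at this
          exact absurd this (by decide)
        · rwa [if_neg hτ] at ha
      · intro ha
        have hτ := h2 v hv (Or.inl ha)
        have hd : v ∉ s.DI := fun hd => h1 v hv (Or.inl ⟨ha, hd⟩)
        have hMv : M v = I v := by
          show (if s.τ v then (if v ∈ s.DF then v else F v) else (if v ∈ s.DI then v else I v)) = _
          rw [hτ, if_neg (by decide), if_neg hd]
        have hne : M v ≠ v := by rw [hMv]; exact hI0 v
        refine ⟨?_, fun h => hne (mem_holes.1 h)⟩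
        rw [hlevM, if_neg hne, hτ, if_neg (by decide)]
        exact ha
    rw [c6] at c4
    have c7 : (A.filter fun v => v ∈ holes M).card + (A.filter fun v => lev E L t M v ≠ v).card =
        (A.filter fun v => lev E L t I v ≠ v).card := by
      have c1' : (A.filter fun v => lev E L t M v = v).card +
        (A.filter fun v => lev E L t M v ≠ v).card = A.card := c1
      have c2' : (A.filter fun v => lev E L t I v = v).card +
        (A.filter fun v => lev E L t I v ≠ v).card = A.card := c2
      omega
    rw [← c7] at e2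
    exact (Nat.even_add.1 e2).2 e1
  | true =>
    have c6 : (A.filter fun v => lev E L t M v = v ∧ v ∉ holes M) =
        A.filter fun v => lev E L t F v = v := by
      refine Finset.filter_congr fun v hv => ?_
      constructor
      · rintro ⟨ha, hb⟩
        rw [mem_holes] at hb
        rw [hlevM, if_neg hb] at ha
        by_cases hτ : s.τ v = true
        · rwa [if_pos hτ] at ha
        · rw [if_neg hτ] at ha
          exact absurd (h2 v hv (Or.inl ha)) hτ
      · intro ha
        have hτ := h2 v hv (Or.inr ha)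
        have hd : v ∉ s.DF := fun hd => h1 v hv (Or.inr ⟨ha, hd⟩)
        have hMv : M v = F v := by
          show (if s.τ v then (if v ∈ s.DF then v else F v) else (if v ∈ s.DI then v else I v)) = _
          rw [hτ, if_pos rfl, if_neg hd]
        have hne : M v ≠ v := by rw [hMv]; exact hF0 v
        refine ⟨?_, fun h => hne (mem_holes.1 h)⟩
        rw [hlevM, if_neg hne, hτ, if_pos rfl]
        exact ha
    rw [c6] at c4
    have c7 : (A.filter fun v => v ∈ holes M).card + (A.filter fun v => lev E L t M v ≠ v).card =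
        (A.filter fun v => lev E L t F v ≠ v).card := by
      have c1' : (A.filter fun v => lev E L t M v = v).card +
        (A.filter fun v => lev E L t M v ≠ v).card = A.card := c1
      have c3' : (A.filter fun v => lev E L t F v = v).card +
        (A.filter fun v => lev E L t F v ≠ v).card = A.card := c3
      omega
    rw [← c7] at e3
    exact (Nat.even_add.1 e3).2 e1

/-- The inequality for one orbit (or any closed set with the run condition) at level `t`. -/
theorem run_block (E : Exps V) (L t : ℕ) (ht : 1 ≤ t) {I F : V → V} (hI : ∀ v, I (I v) = v)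
    (hF : ∀ v, F (F v) = v) (hI0 : ∀ v, I v ≠ v) (hF0 : ∀ v, F v ≠ v) {s : St V}
    (hs : Vld I F s) (A : Finset V) (hAI : ∀ v ∈ A, lev E L t I v ∈ A)
    (hAF : ∀ v ∈ A, lev E L t F v ∈ A)
    (hRC : (∃ u ∈ A, (lev E L t I u = u ∧ u ∈ s.DI) ∨ (lev E L t F u = u ∧ u ∈ s.DF)) ∨
      (∀ v ∈ A, ∀ v' ∈ A, (lev E L t I v = v ∨ lev E L t F v = v) →
        (lev E L t I v' = v' ∨ lev E L t F v' = v') → s.τ v = s.τ v')) :
    (A.filter fun v => v ∈ s.DI ∧ t ≤ sim E L v (I v)).card +
      (A.filter fun v => v ∈ s.DF ∧ t ≤ sim E L v (F v)).card ≤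
      2 * ((A.filter fun v => v ∈ holes (cur I F s)).card / 2) +
      2 * ((A.filter fun v => v ∈ holes (cmpl I F s)).card / 2) := by
  -- the cuts inside `A`
  have i1 : Even (A.filter fun v => v ∈ s.DI ∧ t ≤ sim E L v (I v)).card := by
    have h := even_moved (lev E L t I) (lev_invol E L t hI) (A.filter fun v => v ∈ s.DI)
      (fun v hv => by
        rw [Finset.mem_filter] at hv ⊢
        refine ⟨hAI v hv.1, ?_⟩
        unfold lev
        split_ifs
        · exact hs.hI v hv.2
        · exact hv.2)
    rw [Finset.filter_filter] at h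
    have e : (A.filter fun v => v ∈ s.DI ∧ lev E L t I v ≠ v) =
        (A.filter fun v => v ∈ s.DI ∧ t ≤ sim E L v (I v)) :=
      Finset.filter_congr fun v _ => and_congr_right fun _ => lev_ne_iff E L t hI0 v
    rwa [e] at h
  have i2 : Even (A.filter fun v => v ∈ s.DF ∧ t ≤ sim E L v (F v)).card := by
    have h := even_moved (lev E L t F) (lev_invol E L t hF) (A.filter fun v => v ∈ s.DF)
      (fun v hv => by
        rw [Finset.mem_filter] at hv ⊢
        refine ⟨hAF v hv.1, ?_⟩
        unfold lev
        split_ifs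
        · exact hs.hF v hv.2
        · exact hv.2)
    rw [Finset.filter_filter] at h
    have e : (A.filter fun v => v ∈ s.DF ∧ lev E L t F v ≠ v) =
        (A.filter fun v => v ∈ s.DF ∧ t ≤ sim E L v (F v)) :=
      Finset.filter_congr fun v _ => and_congr_right fun _ => lev_ne_iff E L t hF0 v
    rwa [e] at h
  -- the decomposition of the cuts
  have o1 := Finset.card_filter_add_card_filter_not (s := A.filter fun v => v ∈ s.DI)
    (fun v => t ≤ sim E L v (I v))
  have o2 := Finset.card_filter_add_card_filter_not (s := A.filter fun v => v ∈ s.DF)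
    (fun v => t ≤ sim E L v (F v))
  rw [Finset.filter_filter, Finset.filter_filter] at o1 o2
  -- the number of holes
  have u1 : (A.filter fun v => v ∈ holes (cur I F s)).card =
      (A.filter fun v => v ∈ s.DI ∧ s.τ v = false).card +
      (A.filter fun v => v ∈ s.DF ∧ s.τ v = true).card := by
    rw [← Finset.card_union_of_disjoint, ← Finset.filter_or]
    · refine congrArg Finset.card (Finset.filter_congr fun v _ => ?_)
      rw [mem_holes_cur hI0 hF0]
      tauto
    · rw [Finset.disjoint_filter]
      rintro v _ ⟨_, h1⟩ ⟨_, h2⟩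
      rw [h1] at h2
      exact absurd h2 (by decide)
  have u2 : (A.filter fun v => v ∈ holes (cmpl I F s)).card =
      (A.filter fun v => v ∈ s.DI ∧ ¬ s.τ v = false).card +
      (A.filter fun v => v ∈ s.DF ∧ ¬ s.τ v = true).card := by
    rw [← Finset.card_union_of_disjoint, ← Finset.filter_or]
    · refine congrArg Finset.card (Finset.filter_congr fun v _ => ?_)
      rw [mem_holes_cmpl hI0 hF0]
      cases s.τ v <;> simp
    · rw [Finset.disjoint_filter]
      rintro v _ ⟨_, h1⟩ ⟨_, h2⟩
      cases h : s.τ v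
      · exact h1 h
      · exact h2 h
  have d1 := Finset.card_filter_add_card_filter_not (s := A.filter fun v => v ∈ s.DI)
    (fun v => s.τ v = false)
  have d2 := Finset.card_filter_add_card_filter_not (s := A.filter fun v => v ∈ s.DF)
    (fun v => s.τ v = true)
  rw [Finset.filter_filter, Finset.filter_filter] at d1 d2
  -- the bad case
  have key : (A.filter fun v => v ∈ s.DI ∧ ¬ t ≤ sim E L v (I v)).card = 0 →
      (A.filter fun v => v ∈ s.DF ∧ ¬ t ≤ sim E L v (F v)).card = 0 →
      Even (A.filter fun v => v ∈ holes (cur I F s)).card := by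
    intro z1 z2
    rw [Finset.card_eq_zero] at z1 z2
    have h1 : ∀ u ∈ A, ¬ ((lev E L t I u = u ∧ u ∈ s.DI) ∨ (lev E L t F u = u ∧ u ∈ s.DF)) := by
      rintro u hu (⟨ha, hb⟩ | ⟨ha, hb⟩)
      · have hm : u ∈ (A.filter fun v => v ∈ s.DI ∧ ¬ t ≤ sim E L v (I v)) := by
          rw [Finset.mem_filter]
          exact ⟨hu, hb, fun hc => (lev_ne_iff E L t hI0 u).2 hc ha⟩
        rw [z1] at hm
        exact absurd hm (Finset.notMem_empty _)
      · have hm : u ∈ (A.filter fun v => v ∈ s.DF ∧ ¬ t ≤ sim E L v (F v)) := by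
          rw [Finset.mem_filter]
          exact ⟨hu, hb, fun hc => (lev_ne_iff E L t hF0 u).2 hc ha⟩
        rw [z2] at hm
        exact absurd hm (Finset.notMem_empty _)
    rcases hRC with ⟨u, hu, hc⟩ | hRC
    · exact absurd hc (h1 u hu)
    · by_cases hex : ∃ v ∈ A, (lev E L t I v = v ∨ lev E L t F v = v)
      · obtain ⟨v0, hv0, hb0⟩ := hex
        exact run_even E L t ht hI hF hI0 hF0 hs A hAI hAF h1 (s.τ v0)
          (fun v hv hb => hRC v hv v0 hv0 hb hb0)
      · exact run_even E L t ht hI hF hI0 hF0 hs A hAI hAF h1 true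
          (fun v hv hb => absurd ⟨v, hv, hb⟩ hex)
  obtain ⟨x, hx⟩ := i1
  obtain ⟨y, hy⟩ := i2
  rcases Nat.even_or_odd' (A.filter fun v => v ∈ holes (cur I F s)).card with ⟨p, hp | hp⟩ <;>
  rcases Nat.even_or_odd' (A.filter fun v => v ∈ holes (cmpl I F s)).card with ⟨q, hq | hq⟩
  · omega
  · omega
  · omega
  · by_cases z1 : (A.filter fun v => v ∈ s.DI ∧ ¬ t ≤ sim E L v (I v)).card = 0
    · by_cases z2 : (A.filter fun v => v ∈ s.DF ∧ ¬ t ≤ sim E L v (F v)).card = 0
      · obtain ⟨w, hw⟩ := key z1 z2
        omega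
      · omega
    · omega

private theorem sum_half_le {α : Type} (S : Finset α) (x : α → ℕ) :
    ∑ i ∈ S, x i / 2 ≤ (∑ i ∈ S, x i) / 2 := by
  rw [Nat.le_div_iff_mul_le (by norm_num), Finset.sum_mul]
  exact Finset.sum_le_sum fun i _ => Nat.div_mul_le_self _ _

open Classical in
/-- The inequality at level `t`. -/
theorem run_level (E : Exps V) (L t : ℕ) (ht : 1 ≤ t) (htL : t ≤ L) {I F : V → V}
    (hI : ∀ v, I (I v) = v)
    (hF : ∀ v, F (F v) = v) (hI0 : ∀ v, I v ≠ v) (hF0 : ∀ v, F v ≠ v) {s : St V}
    (hs : Vld I F s) (hRC : RC E L I F s) :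
    (univ.filter fun v => v ∈ s.DI ∧ t ≤ sim E L v (I v)).card +
      (univ.filter fun v => v ∈ s.DF ∧ t ≤ sim E L v (F v)).card ≤
      2 * (∑ C ∈ univ.image (cmp E t),
        ((holes (cur I F s)).filter fun v => cmp E t v = C).card / 2) +
      2 * (∑ C ∈ univ.image (cmp E t),
        ((holes (cmpl I F s)).filter fun v => cmp E t v = C).card / 2) := by
  have hlI := lev_invol E L t hI
  have hlF := lev_invol E L t hF
  -- the orbits
  let orb : V → Finset V := fun v => univ.filter fun u => Orb (lev E L t I) (lev E L t F) id v u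
  have horb : ∀ v u, u ∈ orb v ↔ Orb (lev E L t I) (lev E L t F) id v u := fun v u => by
    simp [orb]
  have hsymm : ∀ {v u}, Orb (lev E L t I) (lev E L t F) id v u →
      Orb (lev E L t I) (lev E L t F) id u v := fun h => orb_symm hlI hlF (fun _ => rfl) h
  have horbeq : ∀ v z, orb v = orb z ↔ v ∈ orb z := by
    intro v z
    constructor
    · intro h
      rw [← h, horb]
      exact orb_refl _ _ _ _
    · intro h
      rw [horb] at h
      ext u
      rw [horb, horb]
      exact ⟨fun h1 => Relation.ReflTransGen.trans h h1,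
        fun h1 => Relation.ReflTransGen.trans (hsymm h) h1⟩
  -- orbits are inside components
  have hcmp : ∀ v u, Orb (lev E L t I) (lev E L t F) id v u → cmp E t v = cmp E t u := by
    intro v u h
    induction h with
    | refl => rfl
    | @tail a b _ hab ih =>
      rw [ih]
      rw [cmp_eq_iff E L ht htL]
      rcases hab with h1 | h1 | h1
      · rw [h1]
        unfold lev
        split_ifs with h2
        · exact Or.inr h2
        · exact Or.inl rfl
      · rw [h1]
        unfold lev
        split_ifs with h2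
        · exact Or.inr h2
        · exact Or.inl rfl
      · exact Or.inl h1.symm
  -- decomposition of the cardinality of a part of a component
  have hdec : ∀ (C : (GG E t).ConnectedComponent) (p : V → Prop) [DecidablePred p],
      (univ.filter fun v => p v ∧ cmp E t v = C).card =
      ∑ O ∈ (univ.filter fun v => cmp E t v = C).image orb, (O.filter fun v => p v).card := by
    intro C p _
    rw [Finset.card_eq_sum_card_fiberwise (f := orb)
      (t := (univ.filter fun v => cmp E t v = C).image orb)]
    · refine Finset.sum_congr rfl fun O hO => ?_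
      rw [Finset.mem_image] at hO
      obtain ⟨z, hz, rfl⟩ := hO
      rw [Finset.mem_filter] at hz
      refine congrArg Finset.card ?_
      ext v
      simp only [Finset.mem_filter, Finset.mem_univ, true_and]
      rw [horbeq]
      constructor
      · rintro ⟨⟨h1, _⟩, h2⟩
        exact ⟨h2, h1⟩
      · rintro ⟨h1, h2⟩
        exact ⟨⟨h2, by rw [← hz.2]; exact (hcmp z v ((horb z v).1 h1)).symm⟩, h1⟩
    · intro v hv
      have hv' : v ∈ (univ.filter fun v => p v ∧ cmp E t v = C) := hv
      rw [Finset.mem_filter] at hv'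
      have : orb v ∈ (univ.filter fun v => cmp E t v = C).image orb :=
        Finset.mem_image_of_mem _ (Finset.mem_filter.2 ⟨Finset.mem_univ _, hv'.2.2⟩)
      exact this
  -- decomposition over the components
  have hdec2 : ∀ (p : V → Prop) [DecidablePred p], (univ.filter p).card =
      ∑ C ∈ univ.image (cmp E t), (univ.filter fun v => p v ∧ cmp E t v = C).card := by
    intro p _
    rw [Finset.card_eq_sum_card_fiberwise (f := cmp E t) (t := univ.image (cmp E t))]
    · refine Finset.sum_congr rfl fun C _ => ?_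
      rw [Finset.filter_filter]
    · intro v _
      exact Finset.mem_image_of_mem _ (Finset.mem_univ _)
  have hhole : ∀ (m : V → V) (C : (GG E t).ConnectedComponent),
      ((holes m).filter fun v => cmp E t v = C) =
      (univ.filter fun v => v ∈ holes m ∧ cmp E t v = C) := by
    intro m C
    ext v
    simp
  rw [hdec2 (fun v => v ∈ s.DI ∧ t ≤ sim E L v (I v)),
    hdec2 (fun v => v ∈ s.DF ∧ t ≤ sim E L v (F v)), ← Finset.sum_add_distrib, Finset.mul_sum,
    Finset.mul_sum, ← Finset.sum_add_distrib]
  refine Finset.sum_le_sum fun C _ => ?_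
  rw [hhole, hhole, hdec, hdec, hdec, hdec, ← Finset.sum_add_distrib]
  have hb : ∀ O ∈ (univ.filter fun v => cmp E t v = C).image orb,
      (O.filter fun v => v ∈ s.DI ∧ t ≤ sim E L v (I v)).card +
      (O.filter fun v => v ∈ s.DF ∧ t ≤ sim E L v (F v)).card ≤
      2 * ((O.filter fun v => v ∈ holes (cur I F s)).card / 2) +
      2 * ((O.filter fun v => v ∈ holes (cmpl I F s)).card / 2) := by
    intro O hO
    rw [Finset.mem_image] at hO
    obtain ⟨z, _, rfl⟩ := hO
    have hb := run_block E L t ht hI hF hI0 hF0 hs (orb z)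
      (fun v hv => (horb _ _).2 (orb_closed_a ((horb _ _).1 hv)))
      (fun v hv => (horb _ _).2 (orb_closed_b ((horb _ _).1 hv))) (by
        by_contra hcon
        rw [not_or] at hcon
        obtain ⟨hc1, hc2⟩ := hcon
        push Not at hc2
        obtain ⟨v, hv, v', hv', hbv, hbv', hne⟩ := hc2
        rw [horb] at hv hv'
        obtain ⟨u, hu, hcu⟩ := hRC t ht v v' (Relation.ReflTransGen.trans (hsymm hv) hv')
          hbv hbv' hne
        exact hc1 ⟨u, (horb _ _).2 (Relation.ReflTransGen.trans hv hu), hcu⟩)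
    convert hb using 4
  refine le_trans (Finset.sum_le_sum hb) ?_
  rw [Finset.sum_add_distrib, ← Finset.mul_sum, ← Finset.mul_sum]
  exact Nat.add_le_add (Nat.mul_le_mul_left 2 (sum_half_le _ _))
    (Nat.mul_le_mul_left 2 (sum_half_le _ _))

/-- **The run inequality.** -/
theorem run_ineq (E : Exps V) (L : ℕ) {I F : V → V} (hI : ∀ v, I (I v) = v)
    (hF : ∀ v, F (F v) = v) (hI0 : ∀ v, I v ≠ v) (hF0 : ∀ v, F v ≠ v) {s : St V}
    (hs : Vld I F s) (hRC : RC E L I F s) :
    ∑ v ∈ s.DI, sim E L v (I v) + ∑ v ∈ s.DF, sim E L v (F v) ≤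
      2 * (sig E L (holes (cur I F s)) + sig E L (holes (cmpl I F s))) := by
  have h1 : ∀ (D : Finset V) (m : V → V), ∑ v ∈ D, sim E L v (m v) =
      ∑ t ∈ Icc 1 L, (univ.filter fun v => v ∈ D ∧ t ≤ sim E L v (m v)).card := by
    intro D m
    have e1 : ∑ v ∈ D, sim E L v (m v) =
        ∑ v ∈ D, ∑ t ∈ Icc 1 L, if t ≤ sim E L v (m v) then 1 else 0 :=
      Finset.sum_congr rfl fun v _ => sim_eq_sum E L v (m v)
    rw [e1, Finset.sum_comm]
    refine Finset.sum_congr rfl fun t _ => ?_
    rw [Finset.sum_boole, Nat.cast_id]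
    refine congrArg Finset.card ?_
    ext v
    simp
  rw [h1, h1, ← Finset.sum_add_distrib]
  unfold sig
  rw [← Finset.sum_add_distrib, Finset.mul_sum]
  refine Finset.sum_le_sum fun t ht => ?_
  rw [Finset.mem_Icc] at ht
  have h := run_level E L t ht.1 ht.2 hI hF hI0 hF0 hs hRC
  rw [mul_add]
  exact h

/-- The weight of `(I, F)` is at most the product of the chain weights. -/
theorem wt_le_wh (E : Exps V) (L : ℕ) (hL : ∀ u v, E.l u v ≤ L) {I F : V → V}
    (hI : ∀ v, I (I v) = v)
    (hF : ∀ v, F (F v) = v) (hI0 : ∀ v, I v ≠ v) (hF0 : ∀ v, F v ≠ v) {s : St V}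
    (hs : Vld I F s) (hRC : RC E L I F s) :
    wt E I * wt E F ≤ wh E L (cur I F s) * wh E L (cmpl I F s) := by
  rw [wt_cur_mul E I F s]
  unfold wh
  have h1 : (∑ v ∈ s.DI, E.l v (I v) + ∑ v ∈ s.DF, E.l v (F v) : ℤ) ≤
      2 * ((sig E L (holes (cur I F s)) + sig E L (holes (cmpl I F s)) : ℕ) : ℤ) := by
    have h2 := run_ineq E L hI hF hI0 hF0 hs hRC
    have h3 : ∑ v ∈ s.DI, E.l v (I v) ≤ ∑ v ∈ s.DI, (sim E L v (I v) : ℤ) :=
      Finset.sum_le_sum fun v _ => l_le_sim E L hL _ _
    have h4 : ∑ v ∈ s.DF, E.l v (F v) ≤ ∑ v ∈ s.DF, (sim E L v (F v) : ℤ) :=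
      Finset.sum_le_sum fun v _ => l_le_sim E L hL _ _
    have h5 : ((∑ v ∈ s.DI, sim E L v (I v) + ∑ v ∈ s.DF, sim E L v (F v) : ℕ) : ℤ) ≤
        ((2 * (sig E L (holes (cur I F s)) + sig E L (holes (cmpl I F s))) : ℕ) : ℤ) := by
      exact_mod_cast h2
    push_cast at h5 ⊢
    linarith
  have h2 : q2 ^ (∑ v ∈ s.DI, E.l v (I v) + ∑ v ∈ s.DF, E.l v (F v)) ≤
      (2 : ℝ) ^ sig E L (holes (cur I F s)) * 2 ^ sig E L (holes (cmpl I F s)) := by
    refine le_trans (zpow_le_zpow_right₀ one_le_q2 h1) (le_of_eq ?_)
    rw [zpow_mul, zpow_natCast, ← pow_add]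
    congr 1
    exact_mod_cast q2_sq
  calc wt E (cur I F s) * wt E (cmpl I F s) *
        q2 ^ (∑ v ∈ s.DI, E.l v (I v) + ∑ v ∈ s.DF, E.l v (F v))
      ≤ wt E (cur I F s) * wt E (cmpl I F s) *
        ((2 : ℝ) ^ sig E L (holes (cur I F s)) * 2 ^ sig E L (holes (cmpl I F s))) := by
        refine mul_le_mul_of_nonneg_left h2 ?_
        exact (mul_pos (wt_pos _ _) (wt_pos _ _)).le
    _ = _ := by ring

end Vale.Agent.P308Q
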