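import Vale.Agent.P308Q.Kern
import Vale.Agent.P308Q.FTwo

/-!
# The graph with two extra vertices: rows and scaling
-/

namespace Vale.Agent.P308Q

open Finset

variable {n : ℕ}

/-- the weight of a state -/
noncomputable def wb (b : Ext n) (M : Stt n) : ℝ := q2 ^ (∑ v, b v (M v))

/-- the total weight of the matchings with holes `U` -/
noncomputable def NB (b : Ext n) (U : Finset (Fin (n + 2))) : ℝ :=
  ∑ M ∈ univ.filter (fun M : Stt n => (∀ v, M (M v) = v) ∧ holes M = U), wb b M

/-- the vertices of the graph among the `n + 2` vertices -/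
def vv (u : Fin n) : Fin (n + 2) := ⟨u, by omega⟩

/-- symmetric exponents, zero on the diagonal and at the extra vertices -/
def IsScl (b : Ext n) : Prop :=
  IsExt b ∧ ∀ v, b (vα n) v = 0 ∧ b (vβ n) v = 0

/-- symmetric edge exponents -/
def Sym (a : ℕ → ℕ → ℤ) : Prop := ∀ u v, a u v = a v u

theorem isScl_scl {a : ℕ → ℕ → ℤ} (ha : Sym a) (y : ℕ → ℤ) : IsScl (scl n a y) := by
  refine ⟨⟨fun u v => ?_, fun v => ?_⟩, fun v => ⟨?_, ?_⟩⟩
  · unfold scl
    by_cases h : (u : ℕ) < n ∧ (v : ℕ) < n ∧ u ≠ v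
    · rw [if_pos h, if_pos ⟨h.2.1, h.1, h.2.2.symm⟩, ha]
      ring
    · rw [if_neg h, if_neg (fun h' => h ⟨h'.2.1, h'.1, h'.2.2.symm⟩)]
  · unfold scl
    rw [if_neg (fun h => h.2.2 rfl)]
  · unfold scl
    rw [if_neg (fun h => by have h1 := h.1; simp [vα] at h1)]
  · unfold scl
    rw [if_neg (fun h => by have h1 := h.1; simp [vβ] at h1)]

theorem NB_eq (b : Ext n) (h : IsExt b) (U : Finset (Fin (n + 2))) : NN (toE b h) U = NB b U := by
  have h1 : NB b U = ∑ M ∈ univ.filter (fun M : Stt n => ∀ v, M (M v) = v),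
      if holes M = U then wb b M else 0 := by
    unfold NB
    rw [← Finset.filter_filter, Finset.sum_filter]
  rw [h1, Finset.sum_subtype (p := fun M : Stt n => ∀ v, M (M v) = v) _ (by simp)
    (fun M : Stt n => if holes M = U then wb b M else 0)]
  rfl

theorem wb_pos (b : Ext n) (M : Stt n) : 0 < wb b M := zpow_pos q2_pos _

theorem NB_nonneg (b : Ext n) (U : Finset (Fin (n + 2))) : 0 ≤ NB b U :=
  Finset.sum_nonneg fun M _ => (wb_pos b M).le

/-- positivity for the sets which occur -/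
theorem NB_pos (b : Ext n) (U : Finset (Fin (n + 2))) (hn : Even n) (hU : Even U.card) :
    0 < NB b U := by
  have hc : Even (Fintype.card {v : Fin (n + 2) // v ∈ Uᶜ}) := by
    rw [Fintype.card_coe, Finset.card_compl, Fintype.card_fin]
    have hle : U.card ≤ n + 2 := by
      have := Finset.card_le_univ U
      rwa [Fintype.card_fin] at this
    rw [Nat.even_sub hle]
    exact ⟨fun _ => hU, fun _ => hn.add even_two⟩
  obtain ⟨m, hm, hf⟩ := fzero_exists hc
  let M : Stt n := fun v => if h : v ∈ Uᶜ then (m ⟨v, h⟩).1 else v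
  have hM1 : ∀ v (h : v ∈ Uᶜ), M v = (m ⟨v, h⟩).1 := fun v h => dif_pos h
  have hM2 : ∀ v, v ∉ Uᶜ → M v = v := fun v h => dif_neg h
  have hinv : ∀ v, M (M v) = v := by
    intro v
    by_cases h : v ∈ Uᶜ
    · have h2 : M v = (m ⟨v, h⟩).1 := hM1 v h
      rw [h2, hM1 _ (m ⟨v, h⟩).2, Subtype.coe_eta, hm]
    · rw [hM2 v h, hM2 v h]
  have hholes : holes M = U := by
    ext v
    rw [mem_holes]
    by_cases h : v ∈ Uᶜ
    · rw [hM1 v h]
      have h1 : v ∉ U := Finset.mem_compl.1 h
      have h2 : (m ⟨v, h⟩).1 ≠ v := fun he => hf ⟨v, h⟩ (Subtype.ext he)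
      exact iff_of_false h2 h1
    · have h1 : v ∈ U := by
        by_contra h1
        exact h (Finset.mem_compl.2 h1)
      exact iff_of_true (hM2 v h) h1
  unfold NB
  refine Finset.sum_pos (fun M _ => wb_pos b M) ⟨M, ?_⟩
  rw [Finset.mem_filter]
  exact ⟨mem_univ _, hinv, hholes⟩

/-! helper lemmas for the partner sums -/

theorem s2_ab : vα n ≠ vβ n := by
  intro h
  have := congrArg Fin.val h
  simp [vα, vβ] at this

theorem s2_au (u : Fin n) : vα n ≠ vv u := by
  intro h
  have := congrArg Fin.val h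
  have h2 := u.2
  simp [vα, vv] at this
  omega

theorem s2_bu (u : Fin n) : vβ n ≠ vv u := by
  intro h
  have := congrArg Fin.val h
  have h2 := u.2
  simp [vβ, vv] at this
  omega

theorem s2_inj {u v : Fin n} : vv u = vv v ↔ u = v := by
  constructor
  · intro h
    have := congrArg Fin.val h
    exact Fin.ext this
  · rintro rfl; rfl

theorem s2_cases (x : Fin (n + 2)) : x = vα n ∨ x = vβ n ∨ ∃ u : Fin n, x = vv u := by
  rcases lt_trichotomy (x : ℕ) n with h | h | h
  · exact Or.inr (Or.inr ⟨⟨x, h⟩, rfl⟩)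
  · exact Or.inl (Fin.ext h)
  · refine Or.inr (Or.inl (Fin.ext ?_))
    have := x.2
    simp only [vβ]
    omega

/-- toggling the edge `x y` with exponent `0` -/
theorem s2_tog (b : Ext n) (hb : IsExt b) {x y : Fin (n + 2)} (hxy : x ≠ y) (h0 : b x y = 0)
    (U : Finset (Fin (n + 2))) (hx : x ∉ U) (hy : y ∉ U) (P : Stt n → Prop)
    (hP : ∀ M : Stt n, P (fun v => Equiv.swap x y (M v)) ↔ P M) [DecidablePred P] :
    ∑ M ∈ univ.filter (fun M : Stt n => (∀ v, M (M v) = v) ∧ holes M = U ∧ M x = y ∧ P M), wb b M =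
      ∑ M ∈ univ.filter (fun M : Stt n => (∀ v, M (M v) = v) ∧ holes M = insert x (insert y U) ∧
        P M), wb b M := by
  have hs : ∀ M : Stt n, (fun v => Equiv.swap x y ((fun v => Equiv.swap x y (M v)) v)) = M := by
    intro M; funext v; simp
  refine Finset.sum_bij' (fun M _ => fun v => Equiv.swap x y (M v))
    (fun M _ => fun v => Equiv.swap x y (M v)) ?_ ?_ ?_ ?_ ?_
  · intro M hM
    simp only [mem_filter, mem_univ, true_and] at hM ⊢
    obtain ⟨h1, h2, h3, h4⟩ := hM
    have h3' : M y = x := by rw [← h3, h1]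
    have hne : ∀ v, v ≠ x → v ≠ y → M v ≠ x ∧ M v ≠ y := by
      intro v hvx hvy
      constructor
      · intro h; apply hvy; rw [← h1 v, h, h3]
      · intro h; apply hvx; rw [← h1 v, h, h3']
    refine ⟨?_, ?_, (hP M).2 h4⟩
    · intro v
      by_cases hvx : v = x
      · subst hvx; simp [h3]
      · by_cases hvy : v = y
        · subst hvy; simp [h3']
        · have h5 := hne v hvx hvy
          rw [Equiv.swap_apply_of_ne_of_ne h5.1 h5.2, h1, Equiv.swap_apply_of_ne_of_ne hvx hvy]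
    · ext v
      simp only [mem_holes, mem_insert]
      by_cases hvx : v = x
      · subst hvx; simp [h3]
      · by_cases hvy : v = y
        · subst hvy; simp [h3']
        · have h5 := hne v hvx hvy
          rw [Equiv.swap_apply_of_ne_of_ne h5.1 h5.2, ← h2, mem_holes]
          simp [hvx, hvy]
  · intro M hM
    simp only [mem_filter, mem_univ, true_and] at hM ⊢
    obtain ⟨h1, h2, h4⟩ := hM
    have h3 : M x = x := by
      rw [← mem_holes, h2]; simp
    have h3' : M y = y := by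
      rw [← mem_holes, h2]; simp
    have hne : ∀ v, v ≠ x → v ≠ y → M v ≠ x ∧ M v ≠ y := by
      intro v hvx hvy
      constructor
      · intro h; apply hvx; rw [← h1 v, h, h3]
      · intro h; apply hvy; rw [← h1 v, h, h3']
    refine ⟨?_, ?_, ?_, (hP M).2 h4⟩
    · intro v
      by_cases hvx : v = x
      · subst hvx; simp [h3, h3']
      · by_cases hvy : v = y
        · subst hvy; simp [h3, h3']
        · have h5 := hne v hvx hvy
          rw [Equiv.swap_apply_of_ne_of_ne h5.1 h5.2, h1, Equiv.swap_apply_of_ne_of_ne hvx hvy]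
    · ext v
      simp only [mem_holes]
      by_cases hvx : v = x
      · subst hvx; simp [h3, hx, hxy.symm]
      · by_cases hvy : v = y
        · subst hvy; simp [h3', hy, hxy]
        · have h5 := hne v hvx hvy
          rw [Equiv.swap_apply_of_ne_of_ne h5.1 h5.2]
          have : v ∈ holes M ↔ v ∈ U := by rw [h2]; simp [hvx, hvy]
          rw [← this, mem_holes]
    · simp [h3]
  · intro M _; exact hs M
  · intro M _; exact hs M
  · intro M hM
    simp only [mem_filter, mem_univ, true_and] at hM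
    obtain ⟨h1, h2, h3, h4⟩ := hM
    have h3' : M y = x := by rw [← h3, h1]
    unfold wb
    congr 1
    refine Finset.sum_congr rfl fun v _ => ?_
    beta_reduce
    by_cases hvx : v = x
    · subst hvx; simp [h3, h0, hb.2]
    · by_cases hvy : v = y
      · subst hvy; rw [h3', Equiv.swap_apply_left, hb.2, hb.1, h0]
      · rw [Equiv.swap_apply_of_ne_of_ne]
        · intro h; apply hvy; rw [← h1 v, h, h3]
        · intro h; apply hvx; rw [← h1 v, h, h3']

theorem s2_tog' (b : Ext n) (hb : IsExt b) {x y : Fin (n + 2)} (hxy : x ≠ y) (h0 : b x y = 0)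
    (U : Finset (Fin (n + 2))) (hx : x ∉ U) (hy : y ∉ U) :
    ∑ M ∈ univ.filter (fun M : Stt n => ((∀ v, M (M v) = v) ∧ holes M = U) ∧ M x = y), wb b M =
      NB b (insert x (insert y U)) := by
  have h := s2_tog b hb hxy h0 U hx hy (fun _ => True) (fun _ => Iff.rfl)
  unfold NB
  simp only [and_true] at h
  simp only [and_assoc]
  exact h

/-- splitting according to the partner of `x` -/
theorem s2_split (b : Ext n) (U : Finset (Fin (n + 2))) (x : Fin (n + 2)) :
    NB b U = ∑ y, ∑ M ∈ univ.filter (fun M : Stt n =>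
      ((∀ v, M (M v) = v) ∧ holes M = U) ∧ M x = y), wb b M := by
  unfold NB
  rw [← Finset.sum_fiberwise (univ.filter (fun M : Stt n => (∀ v, M (M v) = v) ∧ holes M = U))
    (fun M => M x)]
  refine Finset.sum_congr rfl fun y _ => ?_
  rw [Finset.filter_filter]

theorem s2_sum (f : Fin (n + 2) → ℝ) : ∑ y, f y = f (vα n) + f (vβ n) + ∑ u : Fin n, f (vv u) := by
  rw [Fin.sum_univ_castSucc, Fin.sum_univ_castSucc]
  have h1 : (Fin.last (n + 1) : Fin (n + 2)) = vβ n := rfl
  have h2 : ((Fin.last n).castSucc : Fin (n + 2)) = vα n := rfl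
  have h3 : ∀ u : Fin n, (u.castSucc.castSucc : Fin (n + 2)) = vv u := fun u => rfl
  rw [h1, h2]
  simp only [h3]
  ring

/-- the partner of `α` -/
theorem sum_alpha (b : Ext n) (h : IsScl b) :
    NB b ∅ = NB b {vα n, vβ n} + ∑ u : Fin n, NB b {vα n, vv u} := by
  rw [s2_split b ∅ (vα n), s2_sum]
  have h1 : ∑ M ∈ univ.filter (fun M : Stt n =>
      ((∀ v, M (M v) = v) ∧ holes M = ∅) ∧ M (vα n) = vα n), wb b M = 0 := by
    rw [Finset.filter_false_of_mem, Finset.sum_empty]
    rintro M _ ⟨⟨-, h2⟩, h3⟩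
    have : vα n ∈ holes M := mem_holes.2 h3
    rw [h2] at this
    simp at this
  rw [h1, zero_add]
  congr 1
  · rw [s2_tog' b h.1 s2_ab (h.2 _).1 ∅ (by simp) (by simp)]
    rfl
  · refine Finset.sum_congr rfl fun u _ => ?_
    rw [s2_tog' b h.1 (s2_au u) (h.2 _).1 ∅ (by simp) (by simp)]
    rfl

/-- symmetry of `α` and `β` -/
theorem swap_ab (b : Ext n) (h : IsScl b) (u : Fin n) :
    NB b {vβ n, vv u} = NB b {vα n, vv u} := by
  unfold NB
  have hσ : ∀ v w : Fin (n + 2), b (Equiv.swap (vα n) (vβ n) v) (Equiv.swap (vα n) (vβ n) w) =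
      b v w := by
    intro v w
    by_cases hv : v = vα n
    · subst hv; rw [Equiv.swap_apply_left, (h.2 _).1, (h.2 _).2]
    by_cases hv' : v = vβ n
    · subst hv'; rw [Equiv.swap_apply_right, (h.2 _).1, (h.2 _).2]
    rw [Equiv.swap_apply_of_ne_of_ne hv hv', h.1.1 v, h.1.1 v]
    by_cases hw : w = vα n
    · subst hw; rw [Equiv.swap_apply_left, (h.2 _).1, (h.2 _).2]
    by_cases hw' : w = vβ n
    · subst hw'; rw [Equiv.swap_apply_right, (h.2 _).1, (h.2 _).2]
    rw [Equiv.swap_apply_of_ne_of_ne hw hw']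
  have hss : ∀ v : Fin (n + 2), Equiv.swap (vα n) (vβ n) (Equiv.swap (vα n) (vβ n) v) = v :=
    fun v => Equiv.swap_apply_self _ _ _
  have hu : Equiv.swap (vα n) (vβ n) (vv u) = vv u :=
    Equiv.swap_apply_of_ne_of_ne (s2_au u).symm (s2_bu u).symm
  refine Finset.sum_bij'
    (fun M _ => fun v => Equiv.swap (vα n) (vβ n) (M (Equiv.swap (vα n) (vβ n) v)))
    (fun M _ => fun v => Equiv.swap (vα n) (vβ n) (M (Equiv.swap (vα n) (vβ n) v)))
    ?_ ?_ ?_ ?_ ?_
  · intro M hM
    simp only [mem_filter, mem_univ, true_and] at hM ⊢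
    refine ⟨fun v => by rw [hss, hM.1, hss], ?_⟩
    ext v
    have e1 : v ∈ holes (fun v => Equiv.swap (vα n) (vβ n) (M (Equiv.swap (vα n) (vβ n) v))) ↔
        Equiv.swap (vα n) (vβ n) v ∈ holes M := by
      rw [mem_holes, mem_holes]
      constructor
      · intro h1
        have h2 := congrArg (Equiv.swap (vα n) (vβ n)) h1
        rwa [hss] at h2
      · intro h1
        rw [h1, hss]
    rw [e1, hM.2]
    simp only [mem_insert, mem_singleton]
    constructor
    · rintro (h1 | h1)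
      · left; rw [← hss v, h1, Equiv.swap_apply_right]
      · right; rw [← hss v, h1, hu]
    · rintro (h1 | h1)
      · left; rw [h1, Equiv.swap_apply_left]
      · right; rw [h1, hu]
  · intro M hM
    simp only [mem_filter, mem_univ, true_and] at hM ⊢
    refine ⟨fun v => by rw [hss, hM.1, hss], ?_⟩
    ext v
    have e1 : v ∈ holes (fun v => Equiv.swap (vα n) (vβ n) (M (Equiv.swap (vα n) (vβ n) v))) ↔
        Equiv.swap (vα n) (vβ n) v ∈ holes M := by
      rw [mem_holes, mem_holes]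
      constructor
      · intro h1
        have h2 := congrArg (Equiv.swap (vα n) (vβ n)) h1
        rwa [hss] at h2
      · intro h1
        rw [h1, hss]
    rw [e1, hM.2]
    simp only [mem_insert, mem_singleton]
    constructor
    · rintro (h1 | h1)
      · left; rw [← hss v, h1, Equiv.swap_apply_left]
      · right; rw [← hss v, h1, hu]
    · rintro (h1 | h1)
      · left; rw [h1, Equiv.swap_apply_right]
      · right; rw [h1, hu]
  · intro M _; funext v; simp only [hss]
  · intro M _; funext v; simp only [hss]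
  · intro M _
    unfold wb
    congr 1
    rw [← Equiv.sum_comp (Equiv.swap (vα n) (vβ n)) (fun v => b v (Equiv.swap (vα n) (vβ n)
      (M (Equiv.swap (vα n) (vβ n) v))))]
    refine Finset.sum_congr rfl fun v _ => ?_
    simp only [hss]
    rw [hσ]

/-- the partner of `β` when `α` and `u` are holes -/
theorem sum_beta (b : Ext n) (h : IsScl b) (u : Fin n) :
    NB b {vα n, vv u} = ∑ v ∈ univ.erase u, NB b {vα n, vβ n, vv u, vv v} := by
  rw [s2_split b {vα n, vv u} (vβ n), s2_sum]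
  have hz : ∀ w : Fin (n + 2), (w = vα n ∨ w = vβ n ∨ w = vv u) → ∑ M ∈ univ.filter (fun M : Stt n =>
      ((∀ v, M (M v) = v) ∧ holes M = {vα n, vv u}) ∧ M (vβ n) = w), wb b M = 0 := by
    intro w hw
    rw [Finset.filter_false_of_mem, Finset.sum_empty]
    rintro M _ ⟨⟨h1, h2⟩, h3⟩
    have ha : M (vα n) = vα n := mem_holes.1 (by rw [h2]; simp)
    have hu : M (vv u) = vv u := mem_holes.1 (by rw [h2]; simp)
    have hb : M (vβ n) ≠ vβ n := by
      intro hc
      have : vβ n ∈ holes M := mem_holes.2 hc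
      rw [h2] at this
      simp only [mem_insert, mem_singleton] at this
      rcases this with h4 | h4
      · exact s2_ab h4.symm
      · exact s2_bu u h4
    rcases hw with rfl | rfl | rfl
    · exact s2_ab (by rw [← ha, ← h3, h1])
    · exact hb h3
    · exact s2_bu u (by rw [← hu, ← h3, h1])
  rw [hz _ (Or.inl rfl), hz _ (Or.inr (Or.inl rfl)), ← Finset.add_sum_erase univ _ (mem_univ u),
    hz _ (Or.inr (Or.inr rfl))]
  simp only [zero_add]
  refine Finset.sum_congr rfl fun v hv => ?_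
  have hvu : v ≠ u := ne_of_mem_erase hv
  rw [s2_tog' b h.1 (s2_bu v) (h.2 _).2 {vα n, vv u}
    (by simp only [mem_insert, mem_singleton]; push Not; exact ⟨s2_ab.symm, s2_bu u⟩)
    (by simp only [mem_insert, mem_singleton, s2_inj]; push Not; exact ⟨(s2_au v).symm, hvu⟩)]
  congr 1
  ext w
  simp only [mem_insert, mem_singleton]
  tauto

/-- the total weight of the perfect states in which `α` is matched with `u` -/
theorem NB_alpha (b : Ext n) (h : IsScl b) {u : Fin (n + 2)} (hu : u ≠ vα n) :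
    ∑ M ∈ (PS n).filter (fun M => M (vα n) = u), wb b M = NB b {vα n, u} := by
  unfold PS
  rw [Finset.filter_filter, s2_tog' b h.1 hu.symm (h.2 _).1 ∅ (by simp) (by simp)]
  rfl

/-- the same for `β` as partner and the edge `e` -/
theorem NB_alpha_edge (b : Ext n) (h : IsScl b) (u v : Fin n) :
    ∑ M ∈ (PS n).filter (fun M => M (vα n) = vβ n ∧ M (vv u) = vv v), wb b M =
      ∑ M ∈ univ.filter (fun M : Stt n => (∀ v, M (M v) = v) ∧ holes M = {vα n, vβ n} ∧
        M (vv u) = vv v), wb b M := by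
  have h1 := s2_tog b h.1 s2_ab (h.2 _).1 ∅ (by simp) (by simp) (fun M => M (vv u) = vv v) (by
    intro M
    have hv : Equiv.swap (vα n) (vβ n) (vv v) = vv v :=
      Equiv.swap_apply_of_ne_of_ne (s2_au v).symm (s2_bu v).symm
    constructor
    · intro h2
      have h3 := congrArg (Equiv.swap (vα n) (vβ n)) h2
      rwa [Equiv.swap_apply_self, hv] at h3
    · intro h2
      simp only [h2, hv])
  unfold PS
  rw [Finset.filter_filter]
  simp only [and_assoc]
  exact h1

private theorem ex4_key {V : Type} [Fintype V] [DecidableEq V] {m m' : V → V}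
    (hm : ∀ v, m (m v) = v) (hm' : ∀ v, m' (m' v) = v) {u v x y e : V}
    (h1 : holes m = {u, v}) (h2 : holes m' = {x, y}) (heu : e ≠ u)
    (he : e = v ∨ e = x ∨ e = y) (ho : Orb m m' id u e) (w : V)
    (hw : w = u ∨ w = v ∨ w = x ∨ w = y) : Orb m m' id u w ↔ w = u ∨ w = e := by
  have hu : m u = u := mem_holes.1 (by rw [h1]; simp)
  have hfix : ∀ w, (w = u ∨ w = v ∨ w = x ∨ w = y) → (m w = w ∨ m' w = w) := by
    intro w hw
    rcases hw with rfl | rfl | rfl | rfl
    · exact Or.inl hu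
    · exact Or.inl (mem_holes.1 (by rw [h1]; simp))
    · exact Or.inr (mem_holes.1 (by rw [h2]; simp))
    · exact Or.inr (mem_holes.1 (by rw [h2]; simp))
  obtain ⟨e', he'⟩ := dih m m' hm hm' u hu
  constructor
  · intro h
    rcases he' w h (hfix w hw) with h3 | h3
    · exact Or.inl h3
    · rcases he' e ho (hfix e (Or.inr he)) with h4 | h4
      · exact absurd h4 heu
      · exact Or.inr (h3.trans h4.symm)
  · rintro (rfl | rfl)
    · exact orb_refl _ _ _ _
    · exact ho

private theorem ex4_end {V : Type} [Fintype V] [DecidableEq V] {m m' : V → V}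
    (hm : ∀ v, m (m v) = v) (hm' : ∀ v, m' (m' v) = v) {u v x y : V}
    (h1 : holes m = {u, v}) (h2 : holes m' = {x, y}) (hux : u ≠ x) (huy : u ≠ y) :
    ∃ e, e ≠ u ∧ (e = v ∨ e = x ∨ e = y) ∧ Orb m m' id u e := by
  have hu : m u = u := mem_holes.1 (by rw [h1]; simp)
  obtain ⟨n, g, h0, -, -, h3, h4, h5⟩ := dih_path m m' hm hm' u hu
  have hO : Orb m m' id u (g n) := (h5 _).2 ⟨n, le_rfl, rfl⟩
  by_cases hn : Even n
  · rw [if_pos hn] at h3
    have h6 : g n ∈ holes m' := mem_holes.2 h3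
    rw [h2] at h6
    simp only [mem_insert, mem_singleton] at h6
    refine ⟨g n, ?_, Or.inr h6, hO⟩
    rintro h7
    rcases h6 with h6 | h6
    · exact hux (h7.symm.trans h6)
    · exact huy (h7.symm.trans h6)
  · rw [if_neg hn] at h3
    have h6 : g n ∈ holes m := mem_holes.2 h3
    rw [h1] at h6
    simp only [mem_insert, mem_singleton] at h6
    have h7 : g n ≠ u := by
      intro h
      have h8 := h4 n 0 le_rfl (Nat.zero_le n) (by rw [h, h0])
      rw [h8] at hn
      exact hn (by simp)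
    exact ⟨g n, h7, Or.inl (h6.resolve_left h7), hO⟩

open Classical in
private theorem ex4_sum {V : Type} [Fintype V] [DecidableEq V] (E : Exps V) {u v x y e : V}
    (heu : e ≠ u) (he : e = v ∨ e = x ∨ e = y) (X Y : Finset V)
    (hX : ∀ w, w ∈ X ↔ ((w = u ∨ w = v) ∧ ¬ (w = u ∨ w = e)) ∨
      ((w = x ∨ w = y) ∧ (w = u ∨ w = e)))
    (hY : ∀ w, w ∈ Y ↔ ((w = x ∨ w = y) ∧ ¬ (w = u ∨ w = e)) ∨
      ((w = u ∨ w = v) ∧ (w = u ∨ w = e))) :
    ∑ p ∈ ((univ : Finset (Mat V × Mat V)).filter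
      (fun p => holes p.1.1 = {u, v} ∧ holes p.2.1 = {x, y})).filter
        (fun p => Orb p.1.1 p.2.1 id u e),
      wt E p.1.1 * wt E p.2.1 ≤ NN E X * NN E Y := by
  refine flip_sum E _ (fun a b => {w | Orb a b id u w}) (fun p _ w hw => orb_closed_a hw)
    (fun p _ w hw => orb_closed_b hw) (fun p _ => ?_) _ _ (fun p hp => ?_) (fun p hp => ?_)
  · ext w
    exact orb_glue _ _ _ _ _ _
  · simp only [mem_filter, mem_univ, true_and] at hp
    obtain ⟨⟨h1, h2⟩, ho⟩ := hp
    have hk := ex4_key p.1.2 p.2.2 h1 h2 heu he ho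
    ext w
    rw [mem_holes_glue, h1, h2, hX]
    simp only [Set.mem_ofPred_eq, mem_insert, mem_singleton]
    constructor
    · rintro (⟨h3, h4⟩ | ⟨h3, h4⟩)
      · refine Or.inl ⟨h4, fun h5 => h3 ?_⟩
        exact (hk w (by tauto)).2 h5
      · exact Or.inr ⟨h4, (hk w (by tauto)).1 h3⟩
    · rintro (⟨h4, h3⟩ | ⟨h4, h3⟩)
      · refine Or.inl ⟨fun h5 => h3 ?_, h4⟩
        exact (hk w (by tauto)).1 h5
      · exact Or.inr ⟨(hk w (by tauto)).2 h3, h4⟩
  · simp only [mem_filter, mem_univ, true_and] at hp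
    obtain ⟨⟨h1, h2⟩, ho⟩ := hp
    have hk := ex4_key p.1.2 p.2.2 h1 h2 heu he ho
    ext w
    rw [mem_holes_glue, h1, h2, hY]
    simp only [Set.mem_ofPred_eq, mem_insert, mem_singleton]
    constructor
    · rintro (⟨h3, h4⟩ | ⟨h3, h4⟩)
      · refine Or.inl ⟨h4, fun h5 => h3 ?_⟩
        exact (hk w (by tauto)).2 h5
      · exact Or.inr ⟨h4, (hk w (by tauto)).1 h3⟩
    · rintro (⟨h4, h3⟩ | ⟨h4, h3⟩)
      · refine Or.inl ⟨fun h5 => h3 ?_, h4⟩
        exact (hk w (by tauto)).1 h5
      · exact Or.inr ⟨(hk w (by tauto)).2 h3, h4⟩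

/-- four-point exchange -/
theorem exch4 {V : Type} [Fintype V] [DecidableEq V] (E : Exps V) (h : Even (Fintype.card V))
    {u v x y : V} (huv : u ≠ v) (hux : u ≠ x) (huy : u ≠ y) (hvx : v ≠ x) (hvy : v ≠ y)
    (hxy : x ≠ y) :
    HH E {u, v} * HH E {x, y} ≤
      HH E {x, y, u, v} + HH E {x, v} * HH E {y, u} + HH E {y, v} * HH E {x, u} := by
  classical
  have h0 := NN_empty_pos E h
  have hmain : NN E {u, v} * NN E {x, y} ≤ NN E ∅ * NN E {x, y, u, v} +
      NN E {x, v} * NN E {y, u} + NN E {y, v} * NN E {x, u} := by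
    rw [NN_mul]
    have h2 : ∀ p ∈ (univ : Finset (Mat V × Mat V)).filter
        (fun p => holes p.1.1 = {u, v} ∧ holes p.2.1 = {x, y}), wt E p.1.1 * wt E p.2.1 ≤
        (if Orb p.1.1 p.2.1 id u v then wt E p.1.1 * wt E p.2.1 else 0) +
        (if Orb p.1.1 p.2.1 id u x then wt E p.1.1 * wt E p.2.1 else 0) +
        (if Orb p.1.1 p.2.1 id u y then wt E p.1.1 * wt E p.2.1 else 0) := by
      intro p hp
      simp only [mem_filter, mem_univ, true_and] at hp
      obtain ⟨h1, h2⟩ := hp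
      have hnn : 0 ≤ wt E p.1.1 * wt E p.2.1 := (mul_pos (wt_pos _ _) (wt_pos _ _)).le
      have hif : ∀ (P : Prop) [Decidable P], 0 ≤ if P then wt E p.1.1 * wt E p.2.1 else 0 := by
        intro P _
        split_ifs
        · exact hnn
        · exact le_rfl
      obtain ⟨e, he1, he2, he3⟩ := ex4_end p.1.2 p.2.2 h1 h2 hux huy
      rcases he2 with rfl | rfl | rfl
      · rw [if_pos he3]
        have a1 := hif (Orb p.1.1 p.2.1 id u x)
        have a2 := hif (Orb p.1.1 p.2.1 id u y)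
        linarith
      · rw [if_pos he3]
        have a1 := hif (Orb p.1.1 p.2.1 id u v)
        have a2 := hif (Orb p.1.1 p.2.1 id u y)
        linarith
      · rw [if_pos he3]
        have a1 := hif (Orb p.1.1 p.2.1 id u x)
        have a2 := hif (Orb p.1.1 p.2.1 id u v)
        linarith
    refine (sum_le_sum h2).trans ?_
    rw [sum_add_distrib, sum_add_distrib, ← sum_filter, ← sum_filter, ← sum_filter]
    refine add_le_add (add_le_add ?_ ?_) ?_
    · refine ex4_sum E huv.symm (Or.inl rfl) _ _ (fun w => ?_) (fun w => ?_)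
      · simp only [notMem_empty, false_iff]
        rintro (⟨h3, h4⟩ | ⟨h3, h4⟩)
        · exact h4 h3
        · rcases h3 with rfl | rfl <;> rcases h4 with h4 | h4
          · exact hux h4.symm
          · exact hvx h4.symm
          · exact huy h4.symm
          · exact hvy h4.symm
      · simp only [mem_insert, mem_singleton]
        constructor
        · rintro (rfl | rfl | rfl | rfl)
          · exact Or.inl ⟨Or.inl rfl, by rintro (h | h) <;> [exact hux h.symm; exact hvx h.symm]⟩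
          · exact Or.inl ⟨Or.inr rfl, by rintro (h | h) <;> [exact huy h.symm; exact hvy h.symm]⟩
          · exact Or.inr ⟨Or.inl rfl, Or.inl rfl⟩
          · exact Or.inr ⟨Or.inr rfl, Or.inr rfl⟩
        · rintro (⟨h3, h4⟩ | ⟨h3, h4⟩)
          · tauto
          · tauto
    · refine ex4_sum E hux.symm (Or.inr (Or.inl rfl)) _ _ (fun w => ?_) (fun w => ?_)
      · simp only [mem_insert, mem_singleton]
        constructor
        · rintro (rfl | rfl)
          · exact Or.inr ⟨Or.inl rfl, Or.inr rfl⟩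
          · exact Or.inl ⟨Or.inr rfl, by rintro (h | h) <;> [exact huv h.symm; exact hvx h]⟩
        · rintro (⟨h3, h4⟩ | ⟨h3, h4⟩)
          · push Not at h4
            rcases h3 with h3 | h3
            · exact absurd h3 h4.1
            · exact Or.inr h3
          · rcases h4 with h4 | h4
            · subst h4
              rcases h3 with h3 | h3
              · exact absurd h3 hux
              · exact absurd h3 huy
            · exact Or.inl h4
      · simp only [mem_insert, mem_singleton]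
        constructor
        · rintro (rfl | rfl)
          · exact Or.inl ⟨Or.inr rfl, by rintro (h | h) <;> [exact huy h.symm; exact hxy h.symm]⟩
          · exact Or.inr ⟨Or.inl rfl, Or.inl rfl⟩
        · rintro (⟨h3, h4⟩ | ⟨h3, h4⟩)
          · push Not at h4
            rcases h3 with h3 | h3
            · exact absurd h3 h4.2
            · exact Or.inl h3
          · rcases h4 with h4 | h4
            · exact Or.inr h4
            · subst h4
              rcases h3 with h3 | h3
              · exact Or.inr h3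
              · exact absurd h3.symm hvx
    · refine ex4_sum E huy.symm (Or.inr (Or.inr rfl)) _ _ (fun w => ?_) (fun w => ?_)
      · simp only [mem_insert, mem_singleton]
        constructor
        · rintro (rfl | rfl)
          · exact Or.inr ⟨Or.inr rfl, Or.inr rfl⟩
          · exact Or.inl ⟨Or.inr rfl, by rintro (h | h) <;> [exact huv h.symm; exact hvy h]⟩
        · rintro (⟨h3, h4⟩ | ⟨h3, h4⟩)
          · push Not at h4
            rcases h3 with h3 | h3
            · exact absurd h3 h4.1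
            · exact Or.inr h3
          · rcases h4 with h4 | h4
            · subst h4
              rcases h3 with h3 | h3
              · exact absurd h3 hux
              · exact absurd h3 huy
            · exact Or.inl h4
      · simp only [mem_insert, mem_singleton]
        constructor
        · rintro (rfl | rfl)
          · exact Or.inl ⟨Or.inl rfl, by rintro (h | h) <;> [exact hux h.symm; exact hxy h]⟩
          · exact Or.inr ⟨Or.inl rfl, Or.inl rfl⟩
        · rintro (⟨h3, h4⟩ | ⟨h3, h4⟩)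
          · push Not at h4
            rcases h3 with h3 | h3
            · exact Or.inl h3
            · exact absurd h3 h4.2
          · rcases h4 with h4 | h4
            · exact Or.inr h4
            · subst h4
              rcases h3 with h3 | h3
              · exact Or.inr h3
              · exact absurd h3.symm hvy
  have e1 : HH E {u, v} * HH E {x, y} = NN E {u, v} * NN E {x, y} / (NN E ∅ * NN E ∅) := by
    unfold HH
    field_simp
  rw [e1, div_le_iff₀ (by positivity)]
  refine hmain.trans (le_of_eq ?_)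
  unfold HH
  field_simp

/-- the row `u` -/
noncomputable def rw' (b : Ext n) (u : Fin n) : ℝ := NB b {vα n, vv u} / NB b {vα n, vβ n}

/-- the entries of the scaled matrix -/
noncomputable def Kf (b : Ext n) (u v : Fin n) : ℝ :=
  NB b {vα n, vβ n, vv u, vv v} / NB b {vα n, vβ n}


theorem rw_eq_sum (b : Ext n) (h : IsScl b) (u : Fin n) :
    rw' b u = ∑ v ∈ univ.erase u, Kf b u v := by
  unfold rw' Kf
  rw [sum_beta b h u, Finset.sum_div]

theorem Kf_nonneg (b : Ext n) (u v : Fin n) : 0 ≤ Kf b u v :=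
  div_nonneg (NB_nonneg _ _) (NB_nonneg _ _)

theorem Kf_symm (b : Ext n) (u v : Fin n) : Kf b u v = Kf b v u := by
  have h : ({vα n, vβ n, vv u, vv v} : Finset (Fin (n + 2))) = {vα n, vβ n, vv v, vv u} := by
    ext x
    simp only [Finset.mem_insert, Finset.mem_singleton]
    tauto
  unfold Kf
  rw [h]

/-- the probability of `α ~ β` -/
theorem card_ab (n : ℕ) : Even ({vα n, vβ n} : Finset (Fin (n + 2))).card := by
  have h : vα n ≠ vβ n := fun h => by
    have := congrArg Fin.val h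
    simp [vα, vβ] at this
  rw [Finset.card_pair h]
  exact even_two

theorem ab_prob (b : Ext n) (h : IsScl b) (hn : Even n) (hr : ∀ u, rw' b u ≤ 8) :
    1 / (1 + 8 * n : ℝ) ≤ NB b {vα n, vβ n} / NB b ∅ := by
  have hD : 0 < NB b {vα n, vβ n} := NB_pos b _ hn (card_ab n)
  have h0 : 0 < NB b ∅ := NB_pos b _ hn (by simp)
  have h1 : ∀ u : Fin n, NB b {vα n, vv u} ≤ 8 * NB b {vα n, vβ n} := fun u => by
    have := hr u
    unfold rw' at this
    rwa [div_le_iff₀ hD] at this
  have h2 : NB b ∅ ≤ NB b {vα n, vβ n} * (1 + 8 * n) := by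
    rw [sum_alpha b h]
    have h3 : ∑ u : Fin n, NB b {vα n, vv u} ≤ ∑ _u : Fin n, 8 * NB b {vα n, vβ n} :=
      Finset.sum_le_sum fun u _ => h1 u
    rw [Finset.sum_const, Finset.card_univ, Fintype.card_fin, nsmul_eq_mul] at h3
    linarith
  rw [div_le_div_iff₀ (by positivity) h0]
  linarith

private theorem rbr_sum (f : Fin (n + 2) → ℝ) :
    ∑ v, f v = ∑ u : Fin n, f (vv u) + f (vα n) + f (vβ n) := by
  rw [Fin.sum_univ_castSucc, Fin.sum_univ_castSucc]
  rfl

private theorem rbr_rr (b : Ext n) (h : IsExt b) (u : Fin (n + 2)) :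
    rr (toE b h) u = (∑ v, if v = u then 0 else NB b {u, v}) / NB b ∅ := by
  unfold rr HH
  rw [← sum_div, NB_eq]
  congr 1
  rw [← sum_erase_add univ _ (mem_univ u), if_pos rfl, add_zero]
  refine sum_congr rfl fun v hv => ?_
  rw [if_neg (ne_of_mem_erase hv), NB_eq]

private theorem rbr_ne_ab : vβ n ≠ vα n := by
  intro h
  have := congrArg Fin.val h
  simp [vα, vβ] at this

private theorem rbr_ne_va (u : Fin n) : vv u ≠ vα n := by
  intro h
  have := congrArg Fin.val h
  have h2 := u.2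
  simp [vα, vv] at this
  omega

private theorem rbr_ne_vb (u : Fin n) : vv u ≠ vβ n := by
  intro h
  have := congrArg Fin.val h
  have h2 := u.2
  simp [vβ, vv] at this
  omega

private theorem rbr_ne_vv {u v : Fin n} (h : u ≠ v) : vv u ≠ vv v := by
  intro h1
  apply h
  have := congrArg Fin.val h1
  exact Fin.ext this

private theorem rbr_alpha (b : Ext n) (h : IsScl b) (hn : Even n) : rr (toE b h.1) (vα n) = 1 := by
  have h0 : 0 < NB b ∅ := NB_pos b ∅ hn (by simp)
  rw [rbr_rr, div_eq_one_iff_eq h0.ne', rbr_sum, if_pos rfl, if_neg rbr_ne_ab, sum_alpha b h,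
    sum_congr rfl fun u _ => if_neg (rbr_ne_va u)]
  ring

private theorem rbr_beta (b : Ext n) (h : IsScl b) (hn : Even n) : rr (toE b h.1) (vβ n) = 1 := by
  have h0 : 0 < NB b ∅ := NB_pos b ∅ hn (by simp)
  have e : ({vβ n, vα n} : Finset (Fin (n + 2))) = {vα n, vβ n} := pair_comm _ _
  rw [rbr_rr, div_eq_one_iff_eq h0.ne', rbr_sum, if_pos rfl, if_neg rbr_ne_ab.symm,
    sum_alpha b h, sum_congr rfl fun u _ => if_neg (rbr_ne_vb u),
    sum_congr rfl fun u _ => swap_ab b h u, e]
  ring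

private theorem rbr_exch (b : Ext n) (h : IsScl b) (hn : Even n) {u v : Fin n} (huv : u ≠ v) :
    NB b {vv u, vv v} * NB b {vα n, vβ n} ≤ NB b ∅ * NB b {vα n, vβ n, vv u, vv v} +
      2 * (NB b {vα n, vv u} * NB b {vα n, vv v}) := by
  have hc : Even (Fintype.card (Fin (n + 2))) := by
    rw [Fintype.card_fin]
    exact hn.add (by decide)
  have h0 : 0 < NB b ∅ := NB_pos b ∅ hn (by simp)
  have h1 := exch4 (toE b h.1) hc (rbr_ne_vv huv) (rbr_ne_va u) (rbr_ne_vb u) (rbr_ne_va v)
    (rbr_ne_vb v) rbr_ne_ab.symm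
  unfold HH at h1
  simp only [NB_eq] at h1
  rw [swap_ab b h, swap_ab b h] at h1
  have h2 : 0 < NB b ∅ * NB b ∅ := mul_pos h0 h0
  have h3 := mul_le_mul_of_nonneg_left h1 h2.le
  have e1 : NB b ∅ * NB b ∅ * (NB b {vv u, vv v} / NB b ∅ * (NB b {vα n, vβ n} / NB b ∅)) =
      NB b {vv u, vv v} * NB b {vα n, vβ n} := by
    field_simp
  have e2 : NB b ∅ * NB b ∅ * (NB b {vα n, vβ n, vv u, vv v} / NB b ∅ +
      NB b {vα n, vv v} / NB b ∅ * (NB b {vα n, vv u} / NB b ∅) +
      NB b {vα n, vv v} / NB b ∅ * (NB b {vα n, vv u} / NB b ∅)) =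
      NB b ∅ * NB b {vα n, vβ n, vv u, vv v} +
      2 * (NB b {vα n, vv u} * NB b {vα n, vv v}) := by
    field_simp
    ring
  rw [e1, e2] at h3
  exact h3

/-- **The rows of the extended graph.** -/
theorem rbd_of_rows (b : Ext n) (h : IsScl b) (hn : Even n)
    (hr : ∀ u, 1 / 8 ≤ rw' b u ∧ rw' b u ≤ 8) : RBd (toE b h.1) (64 * (n + 1)) := by
  have h0 : 0 < NB b ∅ := NB_pos b ∅ hn (by simp)
  have hab : 0 < NB b {vα n, vβ n} := NB_pos b _ hn (by rw [card_pair rbr_ne_ab.symm]; decide)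
  have hn0 : (0 : ℝ) ≤ n := by positivity
  have hP := ab_prob b h hn fun u => (hr u).2
  rw [div_le_div_iff₀ (by positivity) h0, one_mul] at hP
  -- the row of a vertex of the graph
  have hrow : ∀ u : Fin n, rr (toE b h.1) (vv u) = (∑ v ∈ univ.erase u, NB b {vv u, vv v} +
      2 * NB b {vα n, vv u}) / NB b ∅ := by
    intro u
    have e1 : ({vv u, vα n} : Finset (Fin (n + 2))) = {vα n, vv u} := pair_comm _ _
    have e2 : ({vv u, vβ n} : Finset (Fin (n + 2))) = {vβ n, vv u} := pair_comm _ _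
    rw [rbr_rr, rbr_sum, if_neg (rbr_ne_va u).symm, if_neg (rbr_ne_vb u).symm, e1, e2,
      swap_ab b h u, ← sum_erase_add univ _ (mem_univ u), if_pos rfl, add_zero]
    have e3 : ∑ v ∈ univ.erase u, (if vv v = vv u then 0 else NB b {vv u, vv v}) =
        ∑ v ∈ univ.erase u, NB b {vv u, vv v} :=
      sum_congr rfl fun v hv => if_neg (rbr_ne_vv (ne_of_mem_erase hv))
    rw [e3]
    ring
  have hPu : ∀ u : Fin n, NB b {vα n, vv u} ≤ 8 * NB b {vα n, vβ n} ∧
      NB b {vα n, vβ n} ≤ 8 * NB b {vα n, vv u} := by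
    intro u
    obtain ⟨h1, h2⟩ := hr u
    unfold rw' at h1 h2
    rw [div_le_iff₀ hab] at h2
    rw [le_div_iff₀ hab] at h1
    exact ⟨h2, by linarith⟩
  have hPn : ∀ U, 0 ≤ NB b U := NB_nonneg b
  have hall : NB b {vα n, vβ n} + ∑ u : Fin n, NB b {vα n, vv u} = NB b ∅ := (sum_alpha b h).symm
  have hone : ∀ u : Fin n, NB b {vα n, vv u} ≤ NB b ∅ := by
    intro u
    have h1 := single_le_sum (f := fun u : Fin n => NB b {vα n, vv u}) (s := univ)
      (fun v _ => hPn _) (mem_univ u)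
    have h2 : NB b {vα n, vv u} ≤ ∑ u : Fin n, NB b {vα n, vv u} := h1
    linarith
  have hsum : ∀ u : Fin n, ∑ v ∈ univ.erase u, NB b {vv u, vv v} ≤ 24 * NB b ∅ := by
    intro u
    have h1 : ∑ v ∈ univ.erase u, NB b {vv u, vv v} * NB b {vα n, vβ n} ≤
        ∑ v ∈ univ.erase u, (NB b ∅ * NB b {vα n, vβ n, vv u, vv v} +
      2 * (NB b {vα n, vv u} * NB b {vα n, vv v})) :=
      sum_le_sum fun v hv => rbr_exch b h hn (ne_of_mem_erase hv).symm
    rw [← sum_mul, sum_add_distrib, ← mul_sum, ← mul_sum, ← mul_sum, ← sum_beta b h u] at h1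
    have h2 : ∑ v ∈ univ.erase u, NB b {vα n, vv v} ≤ NB b ∅ := by
      have h3 : ∑ v ∈ univ.erase u, NB b {vα n, vv v} ≤ ∑ v : Fin n, NB b {vα n, vv v} :=
        sum_le_sum_of_subset_of_nonneg (erase_subset _ _) fun v _ _ => hPn _
      linarith [hPn {vα n, vβ n}]
    have h3 : NB b {vα n, vv u} * ∑ v ∈ univ.erase u, NB b {vα n, vv v} ≤
        NB b {vα n, vv u} * NB b ∅ := mul_le_mul_of_nonneg_left h2 (hPn _)
    have h4 : (∑ v ∈ univ.erase u, NB b {vv u, vv v}) * NB b {vα n, vβ n} ≤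
        3 * (NB b ∅ * NB b {vα n, vv u}) := by linarith
    have h5 : NB b ∅ * NB b {vα n, vv u} ≤ NB b ∅ * (8 * NB b {vα n, vβ n}) :=
      mul_le_mul_of_nonneg_left (hPu u).1 h0.le
    have h6 : (∑ v ∈ univ.erase u, NB b {vv u, vv v}) * NB b {vα n, vβ n} ≤
        (24 * NB b ∅) * NB b {vα n, vβ n} := by linarith
    exact le_of_mul_le_mul_right h6 hab
  -- all the vertices
  have hcase : ∀ w : Fin (n + 2), w = vα n ∨ w = vβ n ∨ ∃ u : Fin n, w = vv u := by
    intro w
    rcases lt_trichotomy (w : ℕ) n with h1 | h1 | h1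
    · exact Or.inr (Or.inr ⟨⟨w, h1⟩, rfl⟩)
    · exact Or.inl (Fin.ext h1)
    · refine Or.inr (Or.inl (Fin.ext ?_))
      show (w : ℕ) = n + 1
      have := w.2
      omega
  refine ⟨?_, ?_, ?_, ?_, ?_⟩
  · rw [Fintype.card_fin]
    exact hn.add (by decide)
  · linarith
  · rw [Fintype.card_fin]
    push_cast
    linarith
  · intro w
    rcases hcase w with rfl | rfl | ⟨u, rfl⟩
    · rw [rbr_alpha b h hn, div_le_one (by positivity)]
      linarith
    · rw [rbr_beta b h hn, div_le_one (by positivity)]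
      linarith
    · rw [hrow u, div_le_div_iff₀ (by positivity) h0, one_mul]
      have h1 : 0 ≤ ∑ v ∈ univ.erase u, NB b {vv u, vv v} := sum_nonneg fun v _ => hPn _
      have h2 := (hPu u).2
      have h3 : NB b ∅ ≤ 8 * NB b {vα n, vv u} * (1 + 8 * n) :=
        hP.trans (mul_le_mul_of_nonneg_right h2 (by positivity))
      have h4 := hPn {vα n, vv u}
      nlinarith [mul_nonneg h1 hn0, mul_nonneg h4 hn0]
  · intro w
    rcases hcase w with rfl | rfl | ⟨u, rfl⟩
    · rw [rbr_alpha b h hn]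
      linarith
    · rw [rbr_beta b h hn]
      linarith
    · rw [hrow u, div_le_iff₀ h0]
      have h1 := hsum u
      have h2 := hone u
      nlinarith [mul_nonneg hn0 h0.le]


/-- the total weight of the perfect matchings of the graph, with edge exponents `a` -/
noncomputable def ZG (n : ℕ) (a : ℕ → ℕ → ℤ) : ℝ := NB (scl n a fun _ => 0) {vα n, vβ n}

theorem q2_zpow_two_mul (x : ℤ) : q2 ^ (2 * x) = (2 : ℝ) ^ x := by
  rw [zpow_mul]
  congr 1
  exact_mod_cast q2_sq

/-- a vertex different from `α` and `β` is a vertex of the graph -/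
theorem lt_of_ne_ab {v : Fin (n + 2)} (h1 : v ≠ vα n) (h2 : v ≠ vβ n) : (v : ℕ) < n := by
  have h3 := v.2
  have h4 : (v : ℕ) ≠ n := fun h => h1 (Fin.ext h)
  have h5 : (v : ℕ) ≠ n + 1 := fun h => h2 (Fin.ext h)
  omega

/-- the effect of the vertex exponents on the weight -/
theorem wb_scale (a : ℕ → ℕ → ℤ) (y : ℕ → ℤ) {U : Finset (Fin (n + 2))} (hα : vα n ∈ U)
    (hβ : vβ n ∈ U) {M : Stt n} (hM : ∀ v, M (M v) = v) (hU : holes M = U) :
    wb (scl n a y) M = (2 : ℝ) ^ (∑ v ∈ Uᶜ, y v) * wb (scl n a fun _ => 0) M := by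
  have hmem : ∀ v, v ∈ U ↔ M v = v := fun v => by rw [← hU, mem_holes]
  have h1 : ∀ v, scl n a y v (M v) =
      scl n a (fun _ => 0) v (M v) + if v ∈ Uᶜ then y v + y (M v) else 0 := by
    intro v
    by_cases hv : v ∈ Uᶜ
    · have hv1 : v ∉ U := Finset.mem_compl.1 hv
      have hne : M v ≠ v := fun h => hv1 ((hmem v).2 h)
      have hv2 : M v ∉ U := fun h => by
        have h3 := (hmem _).1 h
        rw [hM] at h3
        exact hne h3.symm
      have hlt : (v : ℕ) < n := lt_of_ne_ab (fun h => hv1 (h ▸ hα)) (fun h => hv1 (h ▸ hβ))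
      have hlt' : ((M v : Fin (n + 2)) : ℕ) < n :=
        lt_of_ne_ab (fun h => hv2 (h ▸ hα)) (fun h => hv2 (h ▸ hβ))
      unfold scl
      rw [if_pos hv, if_pos ⟨hlt, hlt', hne.symm⟩, if_pos ⟨hlt, hlt', hne.symm⟩]
      ring
    · have hv1 : v ∈ U := by
        by_contra h
        exact hv (Finset.mem_compl.2 h)
      have he : M v = v := (hmem v).1 hv1
      unfold scl
      rw [if_neg hv, he, if_neg (fun h => h.2.2 rfl), if_neg (fun h => h.2.2 rfl)]
      ring
  have h2 : ∑ v ∈ Uᶜ, y ((M v : Fin (n + 2)) : ℕ) = ∑ v ∈ Uᶜ, y v := by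
    have hcl : ∀ v ∈ Uᶜ, M v ∈ Uᶜ := fun v hv => by
      rw [Finset.mem_compl, hmem] at hv ⊢
      rw [hM]
      exact fun h => hv h.symm
    exact Finset.sum_nbij' (fun v => M v) (fun v => M v) hcl hcl (fun v _ => hM v)
      (fun v _ => hM v) (fun v _ => rfl)
  unfold wb
  rw [Finset.sum_congr rfl (fun v _ => h1 v), Finset.sum_add_distrib, Finset.sum_ite_mem,
    Finset.univ_inter, Finset.sum_add_distrib, h2, zpow_add₀ q2_pos.ne', ← two_mul,
    q2_zpow_two_mul]
  ring

theorem NB_scale_gen (a : ℕ → ℕ → ℤ) (y : ℕ → ℤ) {U : Finset (Fin (n + 2))} (hα : vα n ∈ U)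
    (hβ : vβ n ∈ U) :
    NB (scl n a y) U = (2 : ℝ) ^ (∑ v ∈ Uᶜ, y v) * NB (scl n a fun _ => 0) U := by
  unfold NB
  rw [Finset.mul_sum]
  refine Finset.sum_congr rfl fun M hM => ?_
  rw [Finset.mem_filter] at hM
  exact wb_scale a y hα hβ hM.2.1 hM.2.2

/-- the vertices of the graph -/
theorem sum_compl_ab (y : ℕ → ℤ) :
    ∑ v ∈ ({vα n, vβ n} : Finset (Fin (n + 2)))ᶜ, y v = ∑ u : Fin n, y u := by
  have h : ({vα n, vβ n} : Finset (Fin (n + 2)))ᶜ = univ.map ⟨fun u : Fin n => vv u,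
      fun u v h => by
        have := congrArg Fin.val h
        exact Fin.ext this⟩ := by
    ext x
    simp only [Finset.mem_compl, Finset.mem_insert, Finset.mem_singleton, Finset.mem_map,
      Finset.mem_univ, true_and, not_or]
    constructor
    · rintro ⟨h1, h2⟩
      exact ⟨⟨x, lt_of_ne_ab h1 h2⟩, rfl⟩
    · rintro ⟨u, hu⟩
      have hu2 := u.2
      constructor
      · intro h
        rw [← hu] at h
        have := congrArg Fin.val h
        simp [vv, vα] at this
        omega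
      · intro h
        rw [← hu] at h
        have := congrArg Fin.val h
        simp [vv, vβ] at this
        omega
  rw [h, Finset.sum_map]
  rfl

/-- the effect of the vertex exponents -/
theorem NB_scale (a : ℕ → ℕ → ℤ) (y : ℕ → ℤ) :
    NB (scl n a y) {vα n, vβ n} = (2 : ℝ) ^ (∑ u : Fin n, y u) * ZG n a := by
  rw [NB_scale_gen a y (U := {vα n, vβ n}) (by simp) (by simp), sum_compl_ab]
  rfl

theorem Kf_scale (a : ℕ → ℕ → ℤ) (y δ : ℕ → ℤ) {u v : Fin n} (huv : u ≠ v) :
    Kf (scl n a fun x => y x + δ x) u v = (2 : ℝ) ^ (-(δ u) - δ v) * Kf (scl n a y) u v := by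
  set U : Finset (Fin (n + 2)) := {vα n, vβ n, vv u, vv v} with hU
  set U0 : Finset (Fin (n + 2)) := {vα n, vβ n} with hU0
  have hu2 := u.2
  have hv2 := v.2
  have e1 : ∀ z : ℕ → ℤ, ∑ w ∈ U0ᶜ, z w = ∑ w ∈ Uᶜ, z w + (z u + z v) := by
    intro z
    have hne : vv u ≠ vv v := fun h => huv (Fin.ext (by
      have := congrArg Fin.val h
      simpa [vv] using this))
    have hd : Disjoint Uᶜ ({vv u, vv v} : Finset (Fin (n + 2))) := by
      rw [Finset.disjoint_left]
      intro x hx hx'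
      rw [Finset.mem_compl] at hx
      apply hx
      rw [hU]
      simp only [Finset.mem_insert, Finset.mem_singleton] at hx' ⊢
      tauto
    have hun : U0ᶜ = Uᶜ ∪ {vv u, vv v} := by
      ext x
      rw [Finset.mem_union, Finset.mem_compl, Finset.mem_compl, hU, hU0]
      simp only [Finset.mem_insert, Finset.mem_singleton]
      constructor
      · intro h
        tauto
      · rintro (h | h | h)
        · tauto
        · rintro (h' | h')
          · have := congrArg Fin.val (h.symm.trans h')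
            simp [vv, vα] at this
            omega
          · have := congrArg Fin.val (h.symm.trans h')
            simp [vv, vβ] at this
            omega
        · rintro (h' | h')
          · have := congrArg Fin.val (h.symm.trans h')
            simp [vv, vα] at this
            omega
          · have := congrArg Fin.val (h.symm.trans h')
            simp [vv, vβ] at this
            omega
    rw [hun, Finset.sum_union hd, Finset.sum_pair hne]
    rfl
  unfold Kf
  rw [← hU, ← hU0]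
  have hα : vα n ∈ U := by simp [hU]
  have hβ : vβ n ∈ U := by simp [hU]
  have hα0 : vα n ∈ U0 := by simp [hU0]
  have hβ0 : vβ n ∈ U0 := by simp [hU0]
  rw [NB_scale_gen a _ hα hβ, NB_scale_gen a _ hα0 hβ0, NB_scale_gen a y hα hβ,
    NB_scale_gen a y hα0 hβ0, mul_div_mul_comm, mul_div_mul_comm, ← mul_assoc,
    ← zpow_sub₀ (two_ne_zero), ← zpow_sub₀ (two_ne_zero), ← zpow_add₀ (two_ne_zero)]
  congr 2
  have e2 : ∑ w ∈ U0ᶜ, (y w + δ w) = ∑ w ∈ Uᶜ, (y w + δ w) + ((y u + δ u) + (y v + δ v)) :=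
    e1 (fun x => y x + δ x)
  rw [e2, e1 y]
  ring

/-- the effect of an operation on the exponent of a state -/
theorem exp_op (a : ℕ → ℕ → ℤ) (y : ℕ → ℤ) (e : ℕ × ℕ) (he : e.1 < e.2) (d : ℤ) {M : Stt n}
    (hM : ∀ v, M (M v) = v) :
    ∑ v, scl n (addE a e d) y v (M v) = ∑ v, scl n a y v (M v) ∨
      ∑ v, scl n (addE a e d) y v (M v) = ∑ v, scl n a y v (M v) + 2 * d := by
  have h1 : ∀ v : Fin (n + 2), scl n (addE a e d) y v (M v) = scl n a y v (M v) +
      if ((v : ℕ) < n ∧ ((M v : Fin (n + 2)) : ℕ) < n ∧ v ≠ M v) ∧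
        (((v : ℕ) = e.1 ∧ ((M v : Fin (n + 2)) : ℕ) = e.2) ∨
          ((v : ℕ) = e.2 ∧ ((M v : Fin (n + 2)) : ℕ) = e.1)) then d else 0 := by
    intro v
    unfold scl addE
    by_cases h : (v : ℕ) < n ∧ ((M v : Fin (n + 2)) : ℕ) < n ∧ v ≠ M v
    · rw [if_pos h, if_pos h]
      by_cases h' : (((v : ℕ) = e.1 ∧ ((M v : Fin (n + 2)) : ℕ) = e.2) ∨
          ((v : ℕ) = e.2 ∧ ((M v : Fin (n + 2)) : ℕ) = e.1))
      · rw [if_pos h', if_pos ⟨h, h'⟩]
        ring
      · rw [if_neg h', if_neg (fun hh => h' hh.2)]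
        ring
    · rw [if_neg h, if_neg h, if_neg (fun hh => h hh.1), add_zero]
  rw [Finset.sum_congr rfl (fun v _ => h1 v), Finset.sum_add_distrib]
  by_cases hex : ∃ (x z : Fin (n + 2)), (x : ℕ) = e.1 ∧ (z : ℕ) = e.2 ∧ M x = z ∧ (z : ℕ) < n
  · obtain ⟨x, z, hx, hz, hMx, hzn⟩ := hex
    right
    have hMz : M z = x := by rw [← hMx, hM]
    have hxz : x ≠ z := fun h => by
      have := congrArg Fin.val h
      omega
    rw [Fintype.sum_eq_add (f := fun w : Fin (n + 2) =>
        if ((w : ℕ) < n ∧ ((M w : Fin (n + 2)) : ℕ) < n ∧ w ≠ M w) ∧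
        (((w : ℕ) = e.1 ∧ ((M w : Fin (n + 2)) : ℕ) = e.2) ∨
          ((w : ℕ) = e.2 ∧ ((M w : Fin (n + 2)) : ℕ) = e.1)) then d else 0) x z hxz]
    · have c1 : (((x : ℕ) < n ∧ ((M x : Fin (n + 2)) : ℕ) < n ∧ x ≠ M x) ∧
        (((x : ℕ) = e.1 ∧ ((M x : Fin (n + 2)) : ℕ) = e.2) ∨
          ((x : ℕ) = e.2 ∧ ((M x : Fin (n + 2)) : ℕ) = e.1))) := by
        rw [hMx]
        exact ⟨⟨by omega, hzn, hxz⟩, Or.inl ⟨hx, hz⟩⟩
      have c2 : (((z : ℕ) < n ∧ ((M z : Fin (n + 2)) : ℕ) < n ∧ z ≠ M z) ∧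
        (((z : ℕ) = e.1 ∧ ((M z : Fin (n + 2)) : ℕ) = e.2) ∨
          ((z : ℕ) = e.2 ∧ ((M z : Fin (n + 2)) : ℕ) = e.1))) := by
        rw [hMz]
        exact ⟨⟨hzn, by omega, hxz.symm⟩, Or.inr ⟨hz, hx⟩⟩
      simp only [if_pos c1, if_pos c2]
      ring
    · intro w hw
      apply if_neg
      rintro ⟨-, ⟨h2, -⟩ | ⟨h2, -⟩⟩
      · exact hw.1 (Fin.ext (by omega))
      · exact hw.2 (Fin.ext (by omega))
  · left
    apply add_eq_left.2
    apply Finset.sum_eq_zero
    intro w _
    apply if_neg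
    rintro ⟨h3, ⟨h2, h2'⟩ | ⟨h2, h2'⟩⟩
    · exact hex ⟨w, M w, h2, h2', rfl, h3.2.1⟩
    · exact hex ⟨M w, w, h2', h2, hM w, h3.1⟩

theorem wb_op (a : ℕ → ℕ → ℤ) (y : ℕ → ℤ) (e : ℕ × ℕ) (he : e.1 < e.2) (d : ℤ) {M : Stt n}
    (hM : ∀ v, M (M v) = v) :
    wb (scl n (addE a e d) y) M = wb (scl n a y) M ∨
      wb (scl n (addE a e d) y) M = 2 ^ d * wb (scl n a y) M := by
  unfold wb
  rcases exp_op a y e he d hM with h | h
  · left
    rw [h]
  · right
    rw [h, zpow_add₀ q2_pos.ne', q2_zpow_two_mul, mul_comm]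

/-- the bounds of the change -/
theorem NB_op (a : ℕ → ℕ → ℤ) (y : ℕ → ℤ) (e : ℕ × ℕ) (he : e.1 < e.2) (d : ℤ)
    (U : Finset (Fin (n + 2))) {lo hi : ℝ} (hlo : lo ≤ 1) (hlo' : lo ≤ 2 ^ d) (hhi : 1 ≤ hi)
    (hhi' : 2 ^ d ≤ hi) :
    lo * NB (scl n a y) U ≤ NB (scl n (addE a e d) y) U ∧
      NB (scl n (addE a e d) y) U ≤ hi * NB (scl n a y) U := by
  unfold NB
  rw [Finset.mul_sum, Finset.mul_sum]
  constructor
  · refine Finset.sum_le_sum fun M hM => ?_
    rw [Finset.mem_filter] at hM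
    have hp := wb_pos (scl n a y) M
    rcases wb_op a y e he d hM.2.1 with h | h
    · rw [h]
      nlinarith
    · rw [h]
      exact mul_le_mul_of_nonneg_right hlo' hp.le
  · refine Finset.sum_le_sum fun M hM => ?_
    rw [Finset.mem_filter] at hM
    have hp := wb_pos (scl n a y) M
    rcases wb_op a y e he d hM.2.1 with h | h
    · rw [h]
      nlinarith
    · rw [h]
      exact mul_le_mul_of_nonneg_right hhi' hp.le

/-- the effect of an operation -/
theorem Kf_op (hn : Even n) (a : ℕ → ℕ → ℤ) (y : ℕ → ℤ) (e : ℕ × ℕ) (he : e.1 < e.2) {d : ℤ}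
    (hd : |d| ≤ 1) {u v : Fin n} (huv : u ≠ v) :
    Kf (scl n (addE a e d) y) u v ≤ 2 * Kf (scl n a y) u v ∧
      Kf (scl n a y) u v / 2 ≤ Kf (scl n (addE a e d) y) u v := by
  set U : Finset (Fin (n + 2)) := {vα n, vβ n, vv u, vv v} with hU
  have hlohi : ∃ lo hi : ℝ, 0 < lo ∧ lo ≤ 1 ∧ lo ≤ 2 ^ d ∧ 1 ≤ hi ∧ 2 ^ d ≤ hi ∧ hi ≤ 2 * lo := by
    have h3 : d = -1 ∨ d = 0 ∨ d = 1 := by
      have := abs_le.1 hd
      omega
    rcases h3 with h3 | h3 | h3
    · exact ⟨1 / 2, 1, by norm_num, by norm_num, by rw [h3]; norm_num, le_rfl,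
        by rw [h3]; norm_num, by norm_num⟩
    · exact ⟨1, 1, by norm_num, le_rfl, by rw [h3]; norm_num, le_rfl, by rw [h3]; norm_num,
        by norm_num⟩
    · exact ⟨1, 2, by norm_num, le_rfl, by rw [h3]; norm_num, by norm_num, by rw [h3]; norm_num,
        by norm_num⟩
  obtain ⟨lo, hi, hlo0, hlo1, hlo2, hhi1, hhi2, hhl⟩ := hlohi
  have hD : 0 < NB (scl n a y) {vα n, vβ n} := NB_pos _ _ hn (card_ab n)
  have hD' : 0 < NB (scl n (addE a e d) y) {vα n, vβ n} := NB_pos _ _ hn (card_ab n)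
  have hN := NB_nonneg (scl n a y) U
  obtain ⟨n1, n2⟩ := NB_op a y e he d U hlo1 hlo2 hhi1 hhi2
  obtain ⟨d1, d2⟩ := NB_op a y e he d {vα n, vβ n} hlo1 hlo2 hhi1 hhi2
  unfold Kf
  rw [← hU]
  constructor
  · rw [← mul_div_assoc, div_le_div_iff₀ hD' hD]
    calc NB (scl n (addE a e d) y) U * NB (scl n a y) {vα n, vβ n}
        ≤ (hi * NB (scl n a y) U) * NB (scl n a y) {vα n, vβ n} :=
          mul_le_mul_of_nonneg_right n2 hD.le
      _ ≤ (2 * lo * NB (scl n a y) U) * NB (scl n a y) {vα n, vβ n} := by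
          apply mul_le_mul_of_nonneg_right _ hD.le
          exact mul_le_mul_of_nonneg_right hhl hN
      _ = 2 * NB (scl n a y) U * (lo * NB (scl n a y) {vα n, vβ n}) := by ring
      _ ≤ 2 * NB (scl n a y) U * NB (scl n (addE a e d) y) {vα n, vβ n} :=
          mul_le_mul_of_nonneg_left d1 (by positivity)
  · rw [div_div, div_le_div_iff₀ (by positivity) hD']
    calc NB (scl n a y) U * NB (scl n (addE a e d) y) {vα n, vβ n}
        ≤ NB (scl n a y) U * (hi * NB (scl n a y) {vα n, vβ n}) :=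
          mul_le_mul_of_nonneg_left d2 hN
      _ ≤ NB (scl n a y) U * (2 * lo * NB (scl n a y) {vα n, vβ n}) := by
          apply mul_le_mul_of_nonneg_left _ hN
          exact mul_le_mul_of_nonneg_right hhl hD.le
      _ = (lo * NB (scl n a y) U) * (NB (scl n a y) {vα n, vβ n} * 2) := by ring
      _ ≤ NB (scl n (addE a e d) y) U * (NB (scl n a y) {vα n, vβ n} * 2) :=
          mul_le_mul_of_nonneg_right n1 (by positivity)

/-- the change of the weight in an operation -/
theorem s2_wb_addE (a : ℕ → ℕ → ℤ) (y : ℕ → ℤ) {u v : Fin n} (huv : u < v) (d : ℤ) {M : Stt n}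
    (hM : ∀ v, M (M v) = v) :
    wb (scl n (addE a (u, v) d) y) M = wb (scl n a y) M *
      (if M (vv u) = vv v then (2 : ℝ) ^ d else 1) := by
  have hne : vv u ≠ vv v := fun h => huv.ne (s2_inj.1 h)
  have hval : ∀ w z : Fin (n + 2), scl n (addE a (u, v) d) y w z = scl n a y w z +
      (if (w = vv u ∧ z = vv v) ∨ (w = vv v ∧ z = vv u) then d else 0) := by
    intro w z
    unfold scl addE
    have e : ((w = vv u ∧ z = vv v) ∨ (w = vv v ∧ z = vv u)) ↔
        (((w : ℕ) = (u : ℕ) ∧ (z : ℕ) = (v : ℕ)) ∨ ((w : ℕ) = (v : ℕ) ∧ (z : ℕ) = (u : ℕ))) := by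
      simp only [Fin.ext_iff, vv]
    by_cases hc : (w : ℕ) < n ∧ (z : ℕ) < n ∧ w ≠ z
    · simp only [if_pos hc, e]
      ring
    · simp only [if_neg hc]
      rw [if_neg]
      · simp
      · rintro (⟨rfl, rfl⟩ | ⟨rfl, rfl⟩)
        · exact hc ⟨u.2, v.2, hne⟩
        · exact hc ⟨v.2, u.2, hne.symm⟩
  unfold wb
  simp only [hval, Finset.sum_add_distrib]
  rw [zpow_add₀ q2_pos.ne']
  congr 1
  split_ifs with hc
  · have hc' : M (vv v) = vv u := by rw [← hc, hM]
    have h1 : ∀ x : Fin (n + 2), (if (x = vv u ∧ M x = vv v) ∨ (x = vv v ∧ M x = vv u) then d else 0)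
        = (if x = vv u then d else 0) + (if x = vv v then d else 0) := by
      intro x
      by_cases hx : x = vv u
      · subst hx; simp [hc, hne]
      · by_cases hx' : x = vv v
        · subst hx'; simp [hc', hne.symm]
        · simp [hx, hx']
    simp only [h1, Finset.sum_add_distrib, Finset.sum_ite_eq', mem_univ, if_true]
    rw [← q2_sq, ← zpow_natCast q2 2, ← zpow_mul]
    congr 1
    push_cast
    ring
  · have h1 : ∀ x : Fin (n + 2), (if (x = vv u ∧ M x = vv v) ∨ (x = vv v ∧ M x = vv u) then d else 0)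
        = 0 := by
      intro x
      rw [if_neg]
      rintro (⟨rfl, h2⟩ | ⟨rfl, h2⟩)
      · exact hc h2
      · exact hc (by rw [← h2, hM])
    simp only [h1, Finset.sum_const_zero, zpow_zero]

theorem s2_ratio (hn : Even n) (a : ℕ → ℕ → ℤ) (ha : Sym a) (y : ℕ → ℤ) {u v : Fin n}
    (huv : u < v) (d : ℤ) :
    ZG n (addE a (u, v) d) = ZG n a * (1 + ((2 : ℝ) ^ d - 1) *
      ((∑ M ∈ (PS n).filter (fun M => M (vα n) = vβ n ∧ M (vv u) = vv v), wb (scl n a y) M) /
        NB (scl n a y) {vα n, vβ n})) := by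
  have hpos : 0 < NB (scl n a y) {vα n, vβ n} :=
    NB_pos _ _ hn (by rw [Finset.card_pair s2_ab]; exact even_two)
  have h1 := NB_scale (n := n) (addE a (u, v) d) y
  have h2 := NB_scale (n := n) a y
  have h3 : NB (scl n (addE a (u, v) d) y) {vα n, vβ n} = NB (scl n a y) {vα n, vβ n} +
      ((2 : ℝ) ^ d - 1) *
      ∑ M ∈ (PS n).filter (fun M => M (vα n) = vβ n ∧ M (vv u) = vv v), wb (scl n a y) M := by
    rw [NB_alpha_edge _ (isScl_scl ha y) u v]
    unfold NB
    have h4 : ∀ M ∈ univ.filter (fun M : Stt n => (∀ v, M (M v) = v) ∧ holes M = {vα n, vβ n}),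
        wb (scl n (addE a (u, v) d) y) M = wb (scl n a y) M + ((2 : ℝ) ^ d - 1) *
          (if M (vv u) = vv v then wb (scl n a y) M else 0) := by
      intro M hM
      simp only [mem_filter, mem_univ, true_and] at hM
      rw [s2_wb_addE a y huv d hM.1]
      split_ifs <;> ring
    rw [Finset.sum_congr rfl h4, Finset.sum_add_distrib, ← Finset.mul_sum, ← Finset.sum_filter,
      Finset.filter_filter]
    simp only [and_assoc]
  have hp : (0 : ℝ) < (2 : ℝ) ^ (∑ u : Fin n, y u) := zpow_pos (by norm_num) _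
  set S := ∑ M ∈ (PS n).filter (fun M => M (vα n) = vβ n ∧ M (vv u) = vv v), wb (scl n a y) M with hS
  have h5 : (2 : ℝ) ^ (∑ u : Fin n, y u) * ZG n (addE a (u, v) d) = (2 : ℝ) ^ (∑ u : Fin n, y u) *
      (ZG n a * (1 + ((2 : ℝ) ^ d - 1) * (S / NB (scl n a y) {vα n, vβ n}))) := by
    rw [← h1, h3, ← mul_assoc, ← h2]
    field_simp
  exact mul_left_cancel₀ hp.ne' h5

/-- the ratio in a raising operation -/
theorem ratio_up (hn : Even n) (a : ℕ → ℕ → ℤ) (ha : Sym a) (y : ℕ → ℤ) {u v : Fin n} (huv : u < v) :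
    ZG n (addE a (u, v) 1) = ZG n a * (1 +
      (∑ M ∈ (PS n).filter (fun M => M (vα n) = vβ n ∧ M (vv u) = vv v), wb (scl n a y) M) /
        NB (scl n a y) {vα n, vβ n}) := by
  rw [s2_ratio hn a ha y huv 1]
  norm_num

/-- the ratio in a lowering operation -/
theorem ratio_down (hn : Even n) (a : ℕ → ℕ → ℤ) (ha : Sym a) (y : ℕ → ℤ) {u v : Fin n} (huv : u < v) :
    ZG n (addE a (u, v) (-1)) = ZG n a * (1 -
      (∑ M ∈ (PS n).filter (fun M => M (vα n) = vβ n ∧ M (vv u) = vv v), wb (scl n a y) M) /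
        NB (scl n a y) {vα n, vβ n} / 2) := by
  rw [s2_ratio hn a ha y huv (-1)]
  norm_num
  left
  ring

end Vale.Agent.P308Q
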