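import Vale.Agent.P308Q.SimB

/-!
# The function `σ`: greedy recursion
-/

namespace Vale.Agent.P308Q

open Finset

variable {V : Type} [Fintype V] [DecidableEq V]

theorem sig_of_card_le_one (E : Exps V) (L : ℕ) {U : Finset V} (h : U.card ≤ 1) :
    sig E L U = 0 := by
  classical
  unfold sig
  refine sum_eq_zero fun t _ => sum_eq_zero fun C _ => ?_
  have h1 : (U.filter fun v => cmp E t v = C).card ≤ U.card := card_le_card (filter_subset _ _)
  omega

/-- the contribution of one threshold to the recursion -/
theorem SIG_level (E : Exps V) (L : ℕ) {U : Finset V} {x y : V} (hx : x ∈ U) (hy : y ∈ U)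
    (hxy : x ≠ y) (hmax : ∀ u ∈ U, ∀ v ∈ U, sim E L u v ≤ sim E L x y) {t : ℕ} (ht : 1 ≤ t)
    (htL : t ≤ L) (S : Finset (GG E t).ConnectedComponent) (hS : ∀ v, cmp E t v ∈ S)
    [DecidableEq (GG E t).ConnectedComponent] :
    ∑ C ∈ S, (U.filter fun v => cmp E t v = C).card / 2 =
      (if t ≤ sim E L x y then 1 else 0) +
      ∑ C ∈ S, (((U.erase x).erase y).filter fun v => cmp E t v = C).card / 2 := by
  by_cases hs : t ≤ sim E L x y
  · rw [if_pos hs]
    have hC : cmp E t x = cmp E t y := (cmp_eq_iff E L ht htL x y).2 (Or.inr hs)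
    rw [← add_sum_erase S _ (hS x), ← add_sum_erase S _ (hS x), ← add_assoc]
    congr 1
    · have h1 : (((U.erase x).erase y).filter fun v => cmp E t v = cmp E t x) =
          ((U.filter fun v => cmp E t v = cmp E t x).erase x).erase y := by
        ext v
        simp only [mem_filter, mem_erase]
        tauto
      have hx' : x ∈ U.filter fun v => cmp E t v = cmp E t x := mem_filter.2 ⟨hx, rfl⟩
      have hy' : y ∈ (U.filter fun v => cmp E t v = cmp E t x).erase x :=
        mem_erase.2 ⟨hxy.symm, mem_filter.2 ⟨hy, hC.symm⟩⟩
      rw [h1, card_erase_of_mem hy', card_erase_of_mem hx']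
      have h2 : 0 < ((U.filter fun v => cmp E t v = cmp E t x).erase x).card :=
        card_pos.2 ⟨y, hy'⟩
      rw [card_erase_of_mem hx'] at h2
      omega
    · refine sum_congr rfl fun C hCm => ?_
      have hne : C ≠ cmp E t x := (mem_erase.1 hCm).1
      congr 2
      ext v
      simp only [mem_filter, mem_erase]
      constructor
      · rintro ⟨h1, h2⟩
        refine ⟨⟨?_, ?_, h1⟩, h2⟩
        · rintro rfl
          exact hne (h2.symm.trans hC.symm)
        · rintro rfl
          exact hne h2.symm
      · rintro ⟨⟨_, _, h1⟩, h2⟩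
        exact ⟨h1, h2⟩
  · rw [if_neg hs, zero_add]
    have h1 : ∀ C, (U.filter fun v => cmp E t v = C).card ≤ 1 := by
      intro C
      refine card_le_one.2 fun u hu v hv => ?_
      rw [mem_filter] at hu hv
      rcases (cmp_eq_iff E L ht htL u v).1 (hu.2.trans hv.2.symm) with h | h
      · exact h
      · exact absurd (h.trans (hmax u hu.1 v hv.1)) hs
    refine sum_congr rfl fun C _ => ?_
    have h2 : (((U.erase x).erase y).filter fun v => cmp E t v = C).card ≤
        (U.filter fun v => cmp E t v = C).card :=
      card_le_card (filter_subset_filter _ ((erase_subset _ _).trans (erase_subset _ _)))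
    have h3 := h1 C
    omega

/-- Removing a closest pair of `U` decreases `σ` by its similarity. -/
theorem sig_closest (E : Exps V) (L : ℕ) {U : Finset V} {x y : V} (hx : x ∈ U) (hy : y ∈ U)
    (hxy : x ≠ y) (hmax : ∀ u ∈ U, ∀ v ∈ U, sim E L u v ≤ sim E L x y) :
    sig E L U = sim E L x y + sig E L ((U.erase x).erase y) := by
  classical
  rw [sim_eq_sum]
  unfold sig
  rw [← sum_add_distrib]
  refine sum_congr rfl fun t ht => ?_
  obtain ⟨h1, h2⟩ := mem_Icc.1 ht
  exact SIG_level E L hx hy hxy hmax h1 h2 _ fun v => mem_image_of_mem _ (mem_univ v)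

/-- `σ` is monotone. -/
theorem sig_mono (E : Exps V) (L : ℕ) {U U' : Finset V} (h : U ⊆ U') : sig E L U ≤ sig E L U' := by
  classical
  unfold sig
  exact sum_le_sum fun t _ => sum_le_sum fun C _ =>
    Nat.div_le_div_right (card_le_card (filter_subset_filter _ h))

theorem sig_le (E : Exps V) (L : ℕ) (U : Finset V) : 2 * sig E L U ≤ L * U.card := by
  classical
  unfold sig
  rw [mul_sum]
  calc ∑ t ∈ Icc 1 L, 2 * ∑ C ∈ univ.image (cmp E t), (U.filter fun v => cmp E t v = C).card / 2
      ≤ ∑ t ∈ Icc 1 L, U.card := by
        refine sum_le_sum fun t _ => ?_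
        rw [mul_sum, card_eq_sum_card_fiberwise (f := cmp E t) (t := univ.image (cmp E t))
          (fun v _ => mem_coe.2 (mem_image_of_mem _ (mem_univ v)))]
        exact sum_le_sum fun C _ => Nat.mul_div_le _ _
    _ = L * U.card := by simp

/-- exchanging the images of `x`, `y` in a pairing that fixes them -/
theorem SIG_swap {c : V → V} (hc : ∀ v, c (c v) = v) {x y : V} (hx : c x = x) (hy : c y = y)
    (v : V) : (fun v => if v = x then y else if v = y then x else c v)
      ((fun v => if v = x then y else if v = y then x else c v) v) = v := by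
  by_cases h1 : v = x
  · subst h1
    by_cases h2 : y = v
    · simp [h2]
    · simp [h2]
  · by_cases h2 : v = y
    · subst h2
      simp [h1]
    · have h3 : c v ≠ x := fun h => h1 (by rw [← hc v, h, hx])
      have h4 : c v ≠ y := fun h => h2 (by rw [← hc v, h, hy])
      simp [h1, h2, h3, h4, hc]

theorem SIG_SS (E : Exps V) (L : ℕ) {c : V → V} {x y : V} (hxy : x ≠ y) (hx : c x = x)
    (hy : c y = y) : SS E L (fun v => if v = x then y else if v = y then x else c v) =
      SS E L c + 2 * sim E L x y := by
  unfold SS
  have h1 : ∀ v, sim E L v (if v = x then y else if v = y then x else c v) =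
      sim E L v (c v) + ((if v = x then sim E L x y else 0) + (if v = y then sim E L x y else 0)) := by
    intro v
    by_cases h1 : v = x
    · subst h1
      simp [hx, hxy, sim_self]
    · by_cases h2 : v = y
      · subst h2
        simp [h1, hy, sim_self, sim_symm E L v x]
      · simp [h1, h2]
  rw [sum_congr rfl fun v _ => h1 v, sum_add_distrib, sum_add_distrib, sum_ite_eq' univ x,
    sum_ite_eq' univ y, if_pos (mem_univ x), if_pos (mem_univ y), two_mul]

/-- There is a partial pairing of `U` with total similarity `σ(U)`. -/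
theorem sig_pairing (E : Exps V) (L : ℕ) (U : Finset V) :
    ∃ c : V → V, (∀ v, c (c v) = v) ∧ (∀ v, c v ≠ v → v ∈ U) ∧ SS E L c = 2 * sig E L U := by
  induction hn : U.card using Nat.strong_induction_on generalizing U with
  | _ n ih =>
    rcases Nat.lt_or_ge 1 U.card with hU | hU
    · have hne : U.offDiag.Nonempty := by
        obtain ⟨a, ha, b, hb, hab⟩ := one_lt_card.1 hU
        exact ⟨(a, b), mem_offDiag.2 ⟨ha, hb, hab⟩⟩
      obtain ⟨⟨x, y⟩, hp, hmax⟩ := exists_max_image U.offDiag (fun p => sim E L p.1 p.2) hne
      obtain ⟨hx, hy, hxy⟩ := mem_offDiag.1 hp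
      have hmax' : ∀ u ∈ U, ∀ v ∈ U, sim E L u v ≤ sim E L x y := by
        intro u hu v hv
        by_cases huv : u = v
        · subst huv
          rw [sim_self]
          exact Nat.zero_le _
        · exact hmax (u, v) (mem_offDiag.2 ⟨hu, hv, huv⟩)
      have hlt : ((U.erase x).erase y).card < n := by
        rw [← hn]
        calc ((U.erase x).erase y).card ≤ (U.erase x).card := card_le_card (erase_subset _ _)
          _ < U.card := card_erase_lt_of_mem hx
      obtain ⟨c, hc1, hc2, hc3⟩ := ih _ hlt ((U.erase x).erase y) rfl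
      have hcx : c x = x := by
        by_contra h
        have := hc2 x h
        simp at this
      have hcy : c y = y := by
        by_contra h
        have := hc2 y h
        simp at this
      refine ⟨fun v => if v = x then y else if v = y then x else c v, SIG_swap hc1 hcx hcy, ?_, ?_⟩
      · intro v hv
        by_cases h1 : v = x
        · rw [h1]; exact hx
        · by_cases h2 : v = y
          · rw [h2]; exact hy
          · have h3 : c v ≠ v := by simpa [h1, h2] using hv
            exact mem_of_mem_erase (mem_of_mem_erase (hc2 v h3))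
      · rw [SIG_SS E L hxy hcx hcy, hc3, sig_closest E L hx hy hxy hmax']
        ring
    · refine ⟨id, fun v => rfl, fun v h => absurd rfl h, ?_⟩
      rw [sig_of_card_le_one E L hU]
      unfold SS
      simp [sim_self]

end Vale.Agent.P308Q
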