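import Vale.Agent.P308Q.SigHole
import Vale.Agent.P308Q.Flip

/-!
# The states of the canonical paths

For two perfect matchings `I`, `F` a state is a set of processed vertices (`τ`), and the sets of
vertices whose `I`-edge, respectively `F`-edge, is cut.
-/

namespace Vale.Agent.P308Q

open Finset

variable {V : Type} [Fintype V] [DecidableEq V]

/-- A state. -/
structure St (V : Type) where
  /-- processed vertices -/
  τ : V → Bool
  /-- vertices whose `I`-edge is cut -/
  DI : Finset V
  /-- vertices whose `F`-edge is cut -/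
  DF : Finset V

/-- The current matching. -/
def cur (I F : V → V) (s : St V) : V → V := fun v =>
  if s.τ v then (if v ∈ s.DF then v else F v) else (if v ∈ s.DI then v else I v)

/-- The complementary matching. -/
def cmpl (I F : V → V) (s : St V) : V → V := fun v =>
  if s.τ v then (if v ∈ s.DI then v else I v) else (if v ∈ s.DF then v else F v)

/-- Validity: all transitions are cut. -/
structure Vld (I F : V → V) (s : St V) : Prop where
  hI : ∀ v ∈ s.DI, I v ∈ s.DI
  hF : ∀ v ∈ s.DF, F v ∈ s.DF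
  tI : ∀ v, s.τ v ≠ s.τ (I v) → v ∈ s.DI
  tF : ∀ v, s.τ v ≠ s.τ (F v) → v ∈ s.DF

/-- `I` restricted to the edges of similarity at least `t`. -/
noncomputable def lev (E : Exps V) (L t : ℕ) (I : V → V) : V → V := fun v =>
  if t ≤ sim E L v (I v) then I v else v

/-- The run condition. -/
def RC (E : Exps V) (L : ℕ) (I F : V → V) (s : St V) : Prop :=
  ∀ t, 1 ≤ t → ∀ v v', Orb (lev E L t I) (lev E L t F) id v v' →
    (lev E L t I v = v ∨ lev E L t F v = v) → (lev E L t I v' = v' ∨ lev E L t F v' = v') →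
    s.τ v ≠ s.τ v' →
    ∃ u, Orb (lev E L t I) (lev E L t F) id v u ∧
      ((lev E L t I u = u ∧ u ∈ s.DI) ∨ (lev E L t F u = u ∧ u ∈ s.DF))

section Basic

variable {I F : V → V} (hI : ∀ v, I (I v) = v) (hF : ∀ v, F (F v) = v)

include hI hF

theorem cur_invol {s : St V} (h : Vld I F s) (v : V) : cur I F s (cur I F s v) = v := by
  rcases ht : s.τ v with _ | _
  · by_cases hv : v ∈ s.DI
    · have h1 : cur I F s v = v := by simp [cur, ht, hv]
      rw [h1, h1]
    · have h1 : cur I F s v = I v := by simp [cur, ht, hv]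
      have h2 : s.τ (I v) = false := by
        by_contra hne
        exact hv (h.tI v (fun he => hne (by rw [← he, ht])))
      have h3 : I v ∉ s.DI := fun hc => hv (by simpa [hI v] using h.hI _ hc)
      rw [h1]
      simp [cur, h2, h3, hI v]
  · by_cases hv : v ∈ s.DF
    · have h1 : cur I F s v = v := by simp [cur, ht, hv]
      rw [h1, h1]
    · have h1 : cur I F s v = F v := by simp [cur, ht, hv]
      have h2 : s.τ (F v) = true := by
        by_contra hne
        exact hv (h.tF v (fun he => hne (by rw [← he, ht])))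
      have h3 : F v ∉ s.DF := fun hc => hv (by simpa [hF v] using h.hF _ hc)
      rw [h1]
      simp [cur, h2, h3, hF v]

theorem cmpl_invol {s : St V} (h : Vld I F s) (v : V) : cmpl I F s (cmpl I F s v) = v := by
  rcases ht : s.τ v with _ | _
  · by_cases hv : v ∈ s.DF
    · have h1 : cmpl I F s v = v := by simp [cmpl, ht, hv]
      rw [h1, h1]
    · have h1 : cmpl I F s v = F v := by simp [cmpl, ht, hv]
      have h2 : s.τ (F v) = false := by
        by_contra hne
        exact hv (h.tF v (fun he => hne (by rw [← he, ht])))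
      have h3 : F v ∉ s.DF := fun hc => hv (by simpa [hF v] using h.hF _ hc)
      rw [h1]
      simp [cmpl, h2, h3, hF v]
  · by_cases hv : v ∈ s.DI
    · have h1 : cmpl I F s v = v := by simp [cmpl, ht, hv]
      rw [h1, h1]
    · have h1 : cmpl I F s v = I v := by simp [cmpl, ht, hv]
      have h2 : s.τ (I v) = true := by
        by_contra hne
        exact hv (h.tI v (fun he => hne (by rw [← he, ht])))
      have h3 : I v ∉ s.DI := fun hc => hv (by simpa [hI v] using h.hI _ hc)
      rw [h1]
      simp [cmpl, h2, h3, hI v]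

end Basic

theorem mem_holes_cur {I F : V → V} (hI : ∀ v, I v ≠ v) (hF : ∀ v, F v ≠ v) {s : St V} {v : V} :
    v ∈ holes (cur I F s) ↔ (s.τ v = false ∧ v ∈ s.DI) ∨ (s.τ v = true ∧ v ∈ s.DF) := by
  rw [mem_holes]
  rcases ht : s.τ v with _ | _
  · by_cases hv : v ∈ s.DI <;> simp [cur, ht, hv, hI v]
  · by_cases hv : v ∈ s.DF <;> simp [cur, ht, hv, hF v]

theorem mem_holes_cmpl {I F : V → V} (hI : ∀ v, I v ≠ v) (hF : ∀ v, F v ≠ v) {s : St V} {v : V} :
    v ∈ holes (cmpl I F s) ↔ (s.τ v = true ∧ v ∈ s.DI) ∨ (s.τ v = false ∧ v ∈ s.DF) := by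
  rw [mem_holes]
  rcases ht : s.τ v with _ | _
  · by_cases hv : v ∈ s.DF <;> simp [cmpl, ht, hv, hF v]
  · by_cases hv : v ∈ s.DI <;> simp [cmpl, ht, hv, hI v]

theorem card_holes_cur_add {I F : V → V} (hI : ∀ v, I v ≠ v) (hF : ∀ v, F v ≠ v) (s : St V) :
    (holes (cur I F s)).card + (holes (cmpl I F s)).card = s.DI.card + s.DF.card := by
  have key : ∀ A : Finset V, A.card = ∑ v, if v ∈ A then 1 else 0 := fun A => by
    rw [Finset.sum_ite_mem, Finset.univ_inter, Finset.card_eq_sum_ones]
  rw [key (holes (cur I F s)), key (holes (cmpl I F s)), key s.DI, key s.DF,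
    ← Finset.sum_add_distrib, ← Finset.sum_add_distrib]
  refine Finset.sum_congr rfl fun v _ => ?_
  simp only [mem_holes_cur hI hF, mem_holes_cmpl hI hF]
  rcases ht : s.τ v with _ | _ <;> by_cases h1 : v ∈ s.DI <;> by_cases h2 : v ∈ s.DF <;>
    simp [h1, h2]

/-- The weights. -/
theorem wt_cur_mul (E : Exps V) (I F : V → V) (s : St V) :
    wt E I * wt E F = wt E (cur I F s) * wt E (cmpl I F s) *
      q2 ^ (∑ v ∈ s.DI, E.l v (I v) + ∑ v ∈ s.DF, E.l v (F v)) := by
  unfold wt
  rw [← zpow_add₀ q2_pos.ne', ← zpow_add₀ q2_pos.ne', ← zpow_add₀ q2_pos.ne']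
  congr 1
  have h1 : ∑ v ∈ s.DI, E.l v (I v) = ∑ v, if v ∈ s.DI then E.l v (I v) else 0 := by
    rw [Finset.sum_ite_mem, Finset.univ_inter]
  have h2 : ∑ v ∈ s.DF, E.l v (F v) = ∑ v, if v ∈ s.DF then E.l v (F v) else 0 := by
    rw [Finset.sum_ite_mem, Finset.univ_inter]
  rw [h1, h2, ← Finset.sum_add_distrib, ← Finset.sum_add_distrib, ← Finset.sum_add_distrib,
    ← Finset.sum_add_distrib]
  refine Finset.sum_congr rfl fun v _ => ?_
  unfold cur cmpl
  rcases ht : s.τ v with _ | _ <;> by_cases h1 : v ∈ s.DI <;> by_cases h2 : v ∈ s.DF <;>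
    simp [h1, h2, E.diag] <;> ring

end Vale.Agent.P308Q
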