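import Vale.Agent.P308Q.CycPath
import Vale.Agent.P308Q.EncInj
import Vale.Agent.P308Q.Run

/-!
# The canonical path between two perfect matchings
-/

namespace Vale.Agent.P308Q

open Finset

variable {V : Type} [Fintype V] [DecidableEq V]

/-- The bound `K` for half the number of holes. -/
def KK (N : ℕ) : ℕ := 6 * Nat.log 2 N + 6

/-- The bound of the length of the paths. -/
def LL (N : ℕ) : ℕ := N * ((N + 1) * (6 * Nat.log 2 N + 9))

/-- the state before the label with rank `k`: all orbits with an element of rank `< k` are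
processed -/
noncomputable def prc (rk : V → ℕ) (I F : V → V) (k : ℕ) : V → Bool := fun v =>
  (open Classical in decide (∃ u, Orb I F id v u ∧ rk u < k))

omit [DecidableEq V] in
theorem oo_prc_true {rk : V → ℕ} {I F : V → V} {k : ℕ} {v : V} :
    prc rk I F k v = true ↔ ∃ u, Orb I F id v u ∧ rk u < k := by
  classical
  simp [prc]

omit [DecidableEq V] in
theorem oo_prc_false {rk : V → ℕ} {I F : V → V} {k : ℕ} {v : V} :
    prc rk I F k v = false ↔ ¬ ∃ u, Orb I F id v u ∧ rk u < k := by
  rw [← oo_prc_true (rk := rk) (I := I) (F := F), Bool.not_eq_true]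

omit [DecidableEq V] in
theorem oo_prc_orb {rk : V → ℕ} {I F : V → V} (hI : ∀ v, I (I v) = v) (hF : ∀ v, F (F v) = v)
    {k : ℕ} {v v' : V} (h : Orb I F id v v') : prc rk I F k v = prc rk I F k v' := by
  have h' : Orb I F id v' v := orb_symm hI hF (fun _ => rfl) h
  rw [Bool.eq_iff_iff, oo_prc_true, oo_prc_true]
  exact ⟨fun ⟨u, hu, hk⟩ => ⟨u, orb_trans h' hu, hk⟩, fun ⟨u, hu, hk⟩ => ⟨u, orb_trans h hu, hk⟩⟩

omit [Fintype V] [DecidableEq V] in
theorem oo_orb_I {I F : V → V} (v : V) : Orb I F id v (I v) :=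
  orb_closed_a (orb_refl I F id v)

omit [Fintype V] [DecidableEq V] in
theorem oo_orb_F {I F : V → V} (v : V) : Orb I F id v (F v) :=
  orb_closed_b (orb_refl I F id v)

/-- One orbit. -/
theorem one_orbit (E : Exps V) (L : ℕ) {rk : V → ℕ} (hrk : Function.Injective rk) {I F : V → V}
    (hI : ∀ v, I (I v) = v) (hF : ∀ v, F (F v) = v) (hI0 : ∀ v, I v ≠ v) (hF0 : ∀ v, F v ≠ v)
    (c : V) :
    PathS I F (Enc E L (2 * KK (Fintype.card V)) rk I F c)
      ⟨prc rk I F (rk c), ∅, ∅⟩ ⟨prc rk I F (rk c + 1), ∅, ∅⟩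
      ((Fintype.card V + 1) * (6 * Nat.log 2 (Fintype.card V) + 9)) := by
  classical
  have hsymm : ∀ {v v' : V}, Orb I F id v v' → Orb I F id v' v := fun h =>
    orb_symm hI hF (fun _ => rfl) h
  by_cases hex : ∃ u, Orb I F id c u ∧ rk u < rk c
  · -- nothing to do
    obtain ⟨u₀, hu₀, hr₀⟩ := hex
    have heq : prc rk I F (rk c + 1) = prc rk I F (rk c) := by
      funext v
      rw [Bool.eq_iff_iff, oo_prc_true, oo_prc_true]
      constructor
      · rintro ⟨u, hu, hk⟩
        rcases Nat.lt_succ_iff_lt_or_eq.1 hk with h | h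
        · exact ⟨u, hu, h⟩
        · have : u = c := hrk h
          subst this
          exact ⟨u₀, orb_trans hu hu₀, hr₀⟩
      · rintro ⟨u, hu, hk⟩
        exact ⟨u, hu, by omega⟩
    refine ⟨0, fun _ => ⟨prc rk I F (rk c), ∅, ∅⟩, Nat.zero_le _, rfl, by rw [heq], ?_, ?_⟩
    · intro i _
      refine ⟨⟨?_, ?_, ?_, ?_⟩, ?_, ?_, ?_, ?_⟩
      · intro v hv
        exact absurd hv (Finset.notMem_empty _)
      · intro v hv
        exact absurd hv (Finset.notMem_empty _)
      · intro v hv
        exact absurd (oo_prc_orb hI hF (oo_orb_I v)) hv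
      · intro v hv
        exact absurd (oo_prc_orb hI hF (oo_orb_F v)) hv
      · intro t _ v v' horb _ _ hne
        exfalso
        apply hne
        apply oo_prc_orb hI hF
        refine orb_subset (O := {w | Orb I F id v w}) (orb_refl _ _ _ _) ?_ ?_ ?_ horb
        · intro w hw
          show Orb I F id v (lev E L t I w)
          unfold lev
          split_ifs
          · exact orb_closed_a hw
          · exact hw
        · intro w hw
          show Orb I F id v (lev E L t F w)
          unfold lev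
          split_ifs
          · exact orb_closed_b hw
          · exact hw
        · intro w hw
          exact hw
      · simp
      · intro v hv
        exact ⟨oo_prc_true.2 hv, Finset.notMem_empty _, Finset.notMem_empty _⟩
      · intro v hv
        refine ⟨oo_prc_false.2 ?_, Finset.notMem_empty _, Finset.notMem_empty _⟩
        rintro ⟨u, hu, hk⟩
        exact absurd (hv u hu) (by omega)
    · intro i hi
      exact absurd hi (by omega)
  · obtain ⟨X, Y, m, g, hXY, hm2, hme, hmN, hinj, hstep, hclose, horb, hmin⟩ :=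
      cyc_idx I F hI hF hI0 hF0 (sim E L) (sim_symm E L) c
    obtain ⟨b, hb⟩ : ∃ b : Bool, (b = true ∧ X = I ∧ Y = F) ∨ (b = false ∧ X = F ∧ Y = I) := by
      rcases hXY with h | h
      · exact ⟨true, Or.inl ⟨rfl, h⟩⟩
      · exact ⟨false, Or.inr ⟨rfl, h⟩⟩
    have H : Cyc I F b X Y m g (sim E L) :=
      ⟨hI, hF, hI0, hF0, hb, hm2, hme, hinj, hstep, hclose, hmin⟩
    have h0 : ∀ i < m, prc rk I F (rk c) (g i) = false := by
      intro i hi
      rw [oo_prc_false]
      rintro ⟨u, hu, hk⟩
      exact hex ⟨u, orb_trans ((horb (g i)).2 ⟨i, hi, rfl⟩) hu, hk⟩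
    have hpath := cyc_path E L H (τ0 := prc rk I F (rk c))
      (fun v => (oo_prc_orb hI hF (oo_orb_I v)).symm) (fun v => (oo_prc_orb hI hF (oo_orb_F v)).symm)
      h0
    obtain ⟨n, f, hn, hf0, hfn, hP, hadj⟩ := hpath
    have hfin : cycSt (prc rk I F (rk c)) b m g (fun _ => True) ∅ =
        ⟨prc rk I F (rk c + 1), ∅, ∅⟩ := by
      have e1 : cycDX m g ∅ = ∅ := by
        simp [cycDX]
      have e2 : cycDY m g ∅ = ∅ := by
        simp [cycDY]
      unfold cycSt
      rw [e1, e2]
      simp only [ite_self]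
      congr 1
      funext v
      by_cases hv : ∃ i < m, g i = v
      · rw [if_pos hv]
        have h1 : prc rk I F (rk c + 1) v = true :=
          oo_prc_true.2 ⟨c, hsymm ((horb v).2 hv), Nat.lt_succ_self _⟩
        rw [h1]
        simpa using hv
      · rw [if_neg hv, Bool.eq_iff_iff, oo_prc_true, oo_prc_true]
        constructor
        · rintro ⟨u, hu, hk⟩
          exact ⟨u, hu, by omega⟩
        · rintro ⟨u, hu, hk⟩
          rcases Nat.lt_succ_iff_lt_or_eq.1 hk with h | h
          · exact ⟨u, hu, h⟩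
          · have : u = c := hrk h
            subst this
            exact absurd ((horb v).1 (hsymm hu)) hv
    refine ⟨n, f, hn.trans ?_, hf0, hfn.trans hfin, ?_, hadj⟩
    · exact Nat.mul_le_mul_right _ (by omega)
    · intro i hi
      obtain ⟨hv, hr, hc, ho⟩ := hP i hi
      refine ⟨hv, hr, hc, ?_, ?_⟩
      · rintro v ⟨u, hu, hk⟩
        have hvn : ∀ i < m, g i ≠ v := by
          intro j hj hjv
          exact hex ⟨u, orb_trans ((horb v).2 ⟨j, hj, hjv⟩) hu, hk⟩
        obtain ⟨h1, h2, h3⟩ := ho v hvn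
        exact ⟨h1.trans (oo_prc_true.2 ⟨u, hu, hk⟩), h2, h3⟩
      · intro v hv'
        have hvn : ∀ i < m, g i ≠ v := by
          intro j hj hjv
          exact absurd (hv' c (hsymm ((horb v).2 ⟨j, hj, hjv⟩))) (lt_irrefl _)
        obtain ⟨h1, h2, h3⟩ := ho v hvn
        refine ⟨h1.trans (oo_prc_false.2 ?_), h2, h3⟩
        rintro ⟨u, hu, hk⟩
        exact absurd (hv' u hu) (by omega)

/-- **The canonical path.**  Ranks: a bijection with `{0, …, N - 1}`. -/
theorem total_path (E : Exps V) (L : ℕ) (rk : V ≃ Fin (Fintype.card V)) {I F : V → V}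
    (hI : ∀ v, I (I v) = v) (hF : ∀ v, F (F v) = v) (hI0 : ∀ v, I v ≠ v) (hF0 : ∀ v, F v ≠ v) :
    ∃ (n : ℕ) (f : ℕ → V → V), n ≤ LL (Fintype.card V) ∧ f 0 = I ∧ f n = F ∧
      (∀ i ≤ n, n = 0 ∨ ∃ (c : V) (s : St V),
        Enc E L (2 * KK (Fintype.card V)) (fun v => (rk v : ℕ)) I F c s ∧ f i = cur I F s) ∧
      ∀ i < n, f i = f (i + 1) ∨ AdjM (f i) (f (i + 1)) := by
  rcases Nat.eq_zero_or_pos (Fintype.card V) with h0 | hpos
  · have hem : IsEmpty V := Fintype.card_eq_zero_iff.1 h0
    exact ⟨0, fun _ => I, Nat.zero_le _, rfl, funext fun v => (hem.false v).elim,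
      fun i _ => Or.inl rfl, fun i hi => absurd hi (Nat.not_lt_zero i)⟩
  · have hrk : Function.Injective (fun v => (rk v : ℕ)) := fun a b hab =>
      rk.injective (Fin.ext hab)
    have hB := fun k : Fin (Fintype.card V) => one_orbit E L hrk hI hF hI0 hF0 (rk.symm k)
    simp only [Equiv.apply_symm_apply] at hB
    have hP : ∀ k : Fin (Fintype.card V),
        PathS I F (fun s => ∃ c, Enc E L (2 * KK (Fintype.card V)) (fun v => (rk v : ℕ)) I F c s)
          ⟨prc (fun v => (rk v : ℕ)) I F (k : ℕ), ∅, ∅⟩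
          ⟨prc (fun v => (rk v : ℕ)) I F ((k : ℕ) + 1), ∅, ∅⟩
          ((Fintype.card V + 1) * (6 * Nat.log 2 (Fintype.card V) + 9)) := by
      intro k
      obtain ⟨n, f, h1, h2, h3, h4, h5⟩ := hB k
      exact ⟨n, f, h1, h2, h3, fun i hi => ⟨_, h4 i hi⟩, h5⟩
    have hall : ∀ k : ℕ, k ≤ Fintype.card V →
        PathS I F (fun s => ∃ c, Enc E L (2 * KK (Fintype.card V)) (fun v => (rk v : ℕ)) I F c s)
          ⟨prc (fun v => (rk v : ℕ)) I F 0, ∅, ∅⟩
          ⟨prc (fun v => (rk v : ℕ)) I F k, ∅, ∅⟩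
          (k * ((Fintype.card V + 1) * (6 * Nat.log 2 (Fintype.card V) + 9))) := by
      intro k
      induction k with
      | zero =>
        intro _
        obtain ⟨n, f, h1, h2, h3, h4, h5⟩ := hP ⟨0, hpos⟩
        refine ⟨0, f, Nat.zero_le _, h2, h2, fun i hi => h4 i (by omega),
          fun i hi => absurd hi (Nat.not_lt_zero i)⟩
      | succ k ih =>
        intro hk
        have h1 := (ih (by omega)).trans (hP ⟨k, by omega⟩)
        have h2 : (k + 1) * ((Fintype.card V + 1) * (6 * Nat.log 2 (Fintype.card V) + 9)) =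
            k * ((Fintype.card V + 1) * (6 * Nat.log 2 (Fintype.card V) + 9)) +
              (Fintype.card V + 1) * (6 * Nat.log 2 (Fintype.card V) + 9) := by ring
        exact h2 ▸ h1
    obtain ⟨n, f, h1, h2, h3, h4, h5⟩ := hall _ le_rfl
    refine ⟨n, fun i => cur I F (f i), h1, ?_, ?_, ?_, h5⟩
    · show cur I F (f 0) = I
      rw [h2]
      funext v
      have : prc (fun v => (rk v : ℕ)) I F 0 v = false := by
        unfold prc
        simp
      unfold cur
      simp only [this]
      simp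
    · show cur I F (f n) = F
      rw [h3]
      funext v
      have : prc (fun v => (rk v : ℕ)) I F (Fintype.card V) v = true := by
        simp only [prc, decide_eq_true_eq]
        exact ⟨v, Relation.ReflTransGen.refl, (rk v).2⟩
      unfold cur
      simp only [this]
      simp
    · intro i hi
      obtain ⟨c, hc⟩ := h4 i hi
      exact Or.inr ⟨c, f i, hc, rfl⟩

end Vale.Agent.P308Q
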